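import Vale.Agent.P277Z.Ex.All0
import Vale.Agent.P277Z.Brg.All
import Vale.Agent.P277Z.FI.All
import Vale.Agent.P277Z.FI.Box
import Vale.Agent.P277Z.F5.Fin
import Vale.Agent.P277Z.Coh.All
import Vale.Agent.P277Z.Hir.All
import Vale.Agent.P277Z.Pos.All

/-!
# P277, block EX: the theorems without hypotheses
-/

namespace Vale.Agent.P277Z.Ex

theorem fgb4 : Brg.FGB 4 := Brg.fgb (FI.box.coh 4) (FI.tha_all FI.box F5.s5 4)

theorem inA : In := ⟨fgb4, C1.fts, Hir.stMain, Hir.stMainL, Pos.kodA⟩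

theorem extrV : Val.StExtrV := inA.extrV

theorem exs : EXS := inA.exs

end Vale.Agent.P277Z.Ex
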