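import Vale.Agent.P277Z.Ex.Sk
import Vale.Agent.P277Z.Val.Fin
import Vale.Agent.P277Z.Luf.Hol

/-!
# P277, block EX: sections of exceptional divisors, the base locus
-/

set_option linter.unusedSectionVars false

open scoped Manifold ContDiff Topology
open Vale.Agent.P272.K Vale.Agent.P285.H281.FD Vale.Agent.P277 Set Filter Asymptotics
open Vale.Agent.P277.PH (at_chartAt)
open Vale.Agent.P277Z.Slc (lin)
open Vale.Agent.P277Z.Brg (SecN RPos)
open Vale.Agent.P277Z.Val (Lg Res)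

noncomputable section

namespace Vale.Agent.P277Z.Ex

namespace Bsl

variable {V : Lg} {α : Type} [Fintype α] {D : Fm V α} {F : Set V.W} {a b : α → ℤ}
  {s t : Ix D.N → V.W → ℂ} {u : Ix D.N} {y : V.W} {c : Fin V.r → ℕ}

theorem open_Uc (D : Fm V α) (u : Ix D.N) : IsOpen (Uc D.N u) := by
  simp only [Uc, ofPred_forall]
  exact isOpen_iInter_of_finite fun a => (D.lb a).isOpen _

theorem pw_add {x : α → ℂ} (hx : ∀ i, x i ≠ 0) (a b : α → ℤ) :
    ∏ i, x i ^ (a + b) i = (∏ i, x i ^ a i) * ∏ i, x i ^ b i := by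
  rw [← Finset.prod_mul_distrib]
  exact Finset.prod_congr rfl fun i _ => zpow_add₀ (hx i) _ _

theorem pw_sum {x : α → ℂ} (hx : ∀ i, x i ≠ 0) {J : Type} (S : Finset J) (d : J → α → ℤ) :
    ∏ i, x i ^ (∑ l ∈ S, d l) i = ∏ l ∈ S, ∏ i, x i ^ d l i := by
  induction S using Finset.cons_induction with
  | empty => simp
  | cons j S hj ih => rw [Finset.sum_cons, Finset.prod_cons, pw_add hx, ih]

theorem sec_mul (hs : SecN 4 F (lin D.N a) s) (ht : SecN 4 F (lin D.N b) t) :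
    SecN 4 F (lin D.N (a + b)) fun u w => s u w * t u w := by
  filter_upwards [hs, ht] with y h1 h2 i hi
  refine ⟨(h1 i hi).1.mul (h2 i hi).1, fun j hj => ?_⟩
  rw [(h1 i hi).2 j hj, (h2 i hi).2 j hj, mul_mul_mul_comm]
  exact congrArg (· * (s j y * t j y))
    (pw_add (fun k => (D.lb k).ne_zero _ _ y (hi k) (hj k)) a b).symm

theorem sec_pow (hs : SecN 4 F (lin D.N a) s) (k : ℕ) :
    SecN 4 F (lin D.N (k • a)) fun u w => s u w ^ k := by
  induction k with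
  | zero => exact .of_forall fun y i _ => ⟨fun _ _ => by simpa using analyticAt_const,
      fun j _ => by simp [Slc.lin]⟩
  | succ k ih =>
    rw [succ_nsmul]
    simpa only [pow_succ] using sec_mul ih hs

theorem mon_hol (hu : y ∈ Uc D.N u) : Hol 4 (D.mon c u) y :=
  Hol.prod _ fun l _ => Hol.pow (fun e he => (((D.div l).leq _ y (hu _)).2 e he).1) _

theorem mon_chg {v : Ix D.N} (hu : y ∈ Uc D.N u) (hv : y ∈ Uc D.N v) :
    D.mon c u y = (lin D.N (D.dn c)).g u v y * D.mon c v y := by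
  classical
  refine Eq.trans ?_ (congrArg (· * D.mon c v y) (pw_sum
    (fun k => (D.lb k).ne_zero _ _ y (hu k) (hv k)) Finset.univ
      fun l => Pi.single (D.o l) (c l : ℤ)).symm)
  simp only [Fm.mon, ← Finset.prod_mul_distrib]
  refine Finset.prod_congr rfl fun l _ => ?_
  rw [(D.div l).sec.change _ (v (D.o l)) y (hu _) (hv _), mul_pow,
    Finset.prod_eq_single (D.o l) (fun k _ hk => by simp [hk]) (by simp)]
  simp

theorem sec_mon (c : Fin V.r → ℕ) : SecN 4 F (lin D.N (D.dn c)) (D.mon c) :=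
  .of_forall fun _ _ hi => ⟨mon_hol hi, fun _ hj => mon_chg hi hj⟩

theorem mon_ne (hu : y ∈ Uc D.N u) (h : ∀ l, c l ≠ 0 → y ∉ V.G l) : D.mon c u y ≠ 0 :=
  Finset.prod_ne_zero_iff.2 fun l _ e => h l (pow_eq_zero_iff'.1 e).2
    (((D.div l).leq _ y (hu _)).1.self_of_nhds.1 (pow_eq_zero_iff'.1 e).1)

theorem mon_zero (hu : y ∈ Uc D.N u) {l : Fin V.r} (h : c l ≠ 0) (hy : y ∈ V.G l) :
    D.mon c u y = 0 :=
  Finset.prod_eq_zero (Finset.mem_univ l) (pow_eq_zero_iff'.2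
    ⟨((D.div l).leq _ y (hu _)).1.self_of_nhds.2 hy, h⟩)

omit [Fintype α] in
theorem dn_smul (k : ℕ) (c : Fin V.r → ℕ) : D.dn (k • c) = k • D.dn c := by
  simp only [Fm.dn, Fm.dv, Finset.smul_sum, ← Pi.single_smul, Pi.smul_apply, smul_eq_mul,
    Nat.cast_mul, nsmul_eq_mul]

theorem ne_near (hs : SecN 4 F (lin D.N a) s) (hy : y ∈ F) (h : NZ (lin D.N a) s y)
    (hu : y ∈ Uc D.N u) : ∀ᶠ z in 𝓝 y, s u z ≠ 0 :=
  ((hs.self_of_nhdsSet y hy) u hu).1.ne_near (h u hu)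

end Bsl

open Bsl

/-- **EXCS** -/
theorem excs : EXCS := by
  intro V X p exc α _ D hX h c hc x s hs
  obtain ⟨U, U1, U2, U3⟩ := eventually_nhdsSet_iff_exists.1 hs
  choose k hk using fun y a => (D.lb a).cover y
  have hO : IsOpen (p '' Uᶜ)ᶜ := (U1.isClosed_compl.isCompact.image h.cont).isClosed.isOpen_compl
  have hU : ∀ y, p y ∈ (p '' Uᶜ)ᶜ → y ∈ U := fun y a => by_contra fun b => a ⟨y, b, rfl⟩
  have hm : ∀ y ∉ ⋃ l ∈ exc, V.G l, ∀ u, y ∈ Uc D.N u → D.mon c u y ≠ 0 := fun y a u b =>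
    mon_ne b fun l e f => a (mem_iUnion₂.2 ⟨l, by_contra fun g => e (hc l g), f⟩)
  have : Nonempty (X.pt → V.W) := ⟨Function.surjInv h.surj⟩
  let H : X.pt → ℂ := fun z => s (k (Function.surjInv h.surj z)) (Function.surjInv h.surj z) /
    D.mon c (k (Function.surjInv h.surj z)) (Function.surjInv h.surj z)
  have hH : ∀ y ∈ U, y ∉ ⋃ l ∈ exc, V.G l → ∀ u, y ∈ Uc D.N u →
      s u y = H (p y) * D.mon c u y := fun y a b u e => by
    simp only [H, h.inj y _ b (Function.surjInv_eq h.surj _)]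
    rw [(U3 y a u e).2 (k y) (hk y), mon_chg e (hk y), mul_left_comm,
      div_mul_cancel₀ _ (hm y b _ (hk y))]
  obtain ⟨g, g1, g2⟩ := hX.ext _ _ hO (h.an.mono (subset_univ _)) (h.dim.mono inter_subset_right)
    H fun z hz => by
      obtain ⟨y, rfl⟩ := h.surj z
      have a : y ∉ ⋃ l ∈ exc, V.G l := fun b => hz.2 ⟨y, b, rfl⟩
      refine (h.emb.hol y a _ (at_chartAt y) H).2 (Hol.congr (b := fun w => H (p w)) (Hol.div
        (U3 y (hU y hz.1) (k y) (hk y)).1 (mon_hol (hk y)) (hm y a _ (hk y))) ?_ _ (at_chartAt y))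
      filter_upwards [U1.mem_nhds (hU y hz.1), h.emb.isOpen.mem_nhds a,
        (open_Uc D (k y)).mem_nhds (hk y)] with w b e f
      rw [hH w b e _ f, mul_div_cancel_right₀ _ (hm w e _ f)]
  intro w hw u hu
  have hw' : p w ∈ (p '' Uᶜ)ᶜ := fun ⟨y, a, b⟩ => a (U2 (b.trans hw))
  have h1 : ∀ y, p y ∈ (p '' Uᶜ)ᶜ → ContinuousAt (fun y => g (p y)) y := fun y a =>
    (hol_continuousAt (g1 _ a)).comp h.cont.continuousAt
  have h2 : ∀ᶠ y in 𝓝 w, p y ∈ (p '' Uᶜ)ᶜ ∧ y ∈ Uc D.N u :=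
    (h.cont.continuousAt.eventually (hO.mem_nhds hw')).and ((open_Uc D u).mem_nhds hu)
  refine (((h1 w hw').isBigO_one ℂ).mul (isBigO_refl (D.mon c u) _)).congr' ?_
    (.of_forall fun y => one_mul _)
  filter_upwards [h2.eventually_nhds] with y hy
  have a := hy.self_of_nhds
  refine tendsto_nhds_unique_of_frequently_eq ((h1 y a.1).mul (mon_hol a.2).cont)
    (U3 y (hU y a.1) u a.2).1.cont (((V.freqE y).and_eventually hy).mono fun z b => ?_)
  have e : z ∉ ⋃ l ∈ exc, V.G l := fun f =>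
    let ⟨l, _, f⟩ := mem_iUnion₂.1 f
    b.1 (mem_iUnion.2 ⟨l, f⟩)
  rw [hH z (hU z b.2.1) e u b.2.2, Pi.mul_apply, g2 _ ⟨b.2.1, fun ⟨v, f, q⟩ => e (h.inj z v e q ▸ f)⟩]

/-- **BSL** -/
theorem bsl_of (hE : EXCS) (hO : OKZ) (hK : KODL) : BSL := by
  intro V X p exc α _ D hX h R a ha
  obtain ⟨⟨m, θ, m1, θ1, r1⟩, m', η, η', m2, η1, η2, r2⟩ := (hO V X p exc α D hX h R).2 a ha
  have K := fun b hb => (hK 4 V.W X p α D.N b ⟨h.cont, h.hol⟩ D.lb hb).2
  have key : ∀ w, ∃ (j : ℕ) (t : Ix D.N → V.W → ℂ), 1 ≤ j ∧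
      SecN 4 (p ⁻¹' {p w}) (lin D.N ((j * m) • a)) (fun u y => t u y * D.mon θ u y ^ j) ∧
      ∀ u, w ∈ Uc D.N u → ∀ᶠ y in 𝓝 w, t u y ≠ 0 := fun w => by
    obtain ⟨j, j1, t, t1, t2⟩ := K _ r1 w
    refine ⟨j, t, j1, ?_, fun u hu => ne_near t1 rfl t2 hu⟩
    have := sec_mul t1 (sec_pow (sec_mon θ) j)
    rwa [← smul_add, sub_add_cancel, smul_smul] at this
  refine ⟨fun x w hw => ?_, fun w => ⟨fun hw m₁ m3 ⟨s, s1, s2⟩ => ?_, fun hw => by_contra fun hn => ?_⟩⟩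
  · obtain ⟨j, t, j1, t1, t2⟩ := key w
    obtain rfl : p w = x := hw
    refine ⟨j * m, _, Nat.mul_pos j1 m1, t1, fun u hu e => ?_⟩
    obtain ⟨y, b, c, d, f⟩ := ((V.freqE w).and_eventually (e.and ((t2 u hu).and
      ((open_Uc D u).mem_nhds hu)))).exists
    exact mul_ne_zero d (pow_ne_zero _ (mon_ne f fun l _ g => b (mem_iUnion.2 ⟨l, g⟩))) c
  · obtain ⟨l, hl, hw⟩ := mem_iUnion₂.1 hw
    obtain ⟨j, j1, t, t1, t2⟩ := K _ r2 w
    have h1 := sec_mul (sec_mul (sec_pow s1 (j * m')) (sec_pow t1 m₁))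
      (sec_pow (sec_mon η') (j * m₁))
    have h2 : (j * m') • m₁ • a + m₁ • j • (D.dn η - D.dn η' - m' • a) + (j * m₁) • D.dn η' =
        D.dn ((j * m₁) • η) := by
      rw [dn_smul]
      module
    rw [h2] at h1
    choose u hu using fun a => (D.lb a).cover w
    have h3 := (hE V X p exc α D hX h _ (fun l e => by simp [η2 l e]) _ _ h1 w rfl u hu).eq_zero_imp
    obtain ⟨y, ⟨b, c⟩, d, e, f, g⟩ := ((Lg.freq1 hw).and_eventually (h3.and ((ne_near s1 rfl s2 hu).and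
      ((ne_near t1 rfl t2 hu).and ((open_Uc D u).mem_nhds hu))))).exists
    refine mul_ne_zero (mul_ne_zero (pow_ne_zero _ e) (pow_ne_zero _ f)) (pow_ne_zero _
      (mon_ne g fun k q r => q ?_)) (d (mon_zero g (l := l) ?_ b))
    · rw [not_not.1 fun z => c k z r]
      exact (η1 l hl).2
    · exact (Nat.mul_pos (Nat.mul_pos j1 m3) (η1 l hl).1).ne'
  · obtain ⟨j, t, j1, t1, t2⟩ := key w
    exact hw (j * m) (Nat.mul_pos j1 m1) ⟨_, t1, fun u hu => mul_ne_zero (t2 u hu).self_of_nhds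
      (pow_ne_zero _ (mon_ne hu fun l e f =>
        hn (mem_iUnion₂.2 ⟨l, by_contra fun g => e (θ1 l g), f⟩)))⟩

end Vale.Agent.P277Z.Ex
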