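import Vale.Agent.P277Z.Ex.Defs

/-!
# P277, block EX: chambers
-/

set_option linter.all false

noncomputable section

namespace Vale.Agent.P277Z.Ex

namespace Ch

variable {α J : Type} [Fintype α] [Fintype J]

/-- basic solutions -/
theorem basic (d : J → α → ℝ) (c : J → ℝ) (N : ℕ) : ∀ t : J → ℝ,
    (Finset.univ.filter fun j => t j ≠ 0).card ≤ N → (∀ j, 0 ≤ t j) → (∀ j, t j ≠ 0 → 0 ≤ c j) →
    ∃ t' : J → ℝ, (∀ j, 0 ≤ t' j) ∧ (∀ j, t' j ≠ 0 → t j ≠ 0) ∧ ∑ j, t' j • d j = ∑ j, t j • d j ∧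
      ∑ j, t' j * c j ≤ ∑ j, t j * c j ∧
      ∀ l : J → ℝ, (∀ j, l j ≠ 0 → t' j ≠ 0) → ∑ j, l j • d j = 0 → l = 0 := by
  classical
  induction N with
  | zero =>
    intro t h0 h1 _
    refine ⟨t, h1, fun _ => id, rfl, le_rfl, fun l hl _ => funext fun j => by_contra fun e => ?_⟩
    exact (Finset.card_pos.2 ⟨j, by simpa using hl j e⟩).not_ge h0
  | succ N ih =>
    intro t h0 h1 h2
    by_cases hi : ∀ l : J → ℝ, (∀ j, l j ≠ 0 → t j ≠ 0) → ∑ j, l j • d j = 0 → l = 0
    · exact ⟨t, h1, fun _ => id, rfl, le_rfl, hi⟩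
    push Not at hi
    obtain ⟨l, k1, k2, k3, j₀, k4⟩ : ∃ l : J → ℝ, (∀ j, l j ≠ 0 → t j ≠ 0) ∧
        ∑ j, l j • d j = 0 ∧ 0 ≤ ∑ j, l j * c j ∧ ∃ j, 0 < l j := by
      obtain ⟨l, k1, k2, k3⟩ := hi
      have hn : (∀ j, (-l) j ≠ 0 → t j ≠ 0) ∧ ∑ j, (-l) j • d j = 0 :=
        ⟨fun j hj => k1 j (by simpa using hj), by simp [k2]⟩
      have key : ∀ l : J → ℝ, l ≠ 0 → (∀ j, l j ≠ 0 → t j ≠ 0) → (∀ j, 0 ≤ l j) →
          0 ≤ ∑ j, l j * c j ∧ ∃ j, 0 < l j := fun l a b e =>
        ⟨Finset.sum_nonneg fun j _ => by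
          by_cases z : l j = 0
          · simp [z]
          · exact mul_nonneg (e j) (h2 j (b j z)),
        let ⟨j, hj⟩ := Function.ne_iff.1 a
        ⟨j, (e j).lt_of_ne' hj⟩⟩
      by_cases p1 : ∀ j, 0 ≤ l j
      · exact ⟨l, k1, k2, key l k3 k1 p1⟩
      by_cases p2 : ∀ j, 0 ≤ (-l) j
      · exact ⟨-l, hn.1, hn.2, key _ (neg_ne_zero.2 k3) hn.1 p2⟩
      push Not at p1 p2
      rcases le_total 0 (∑ j, l j * c j) with p | p
      · exact ⟨l, k1, k2, p, by simpa using p2⟩
      · exact ⟨-l, hn.1, hn.2, by simpa using p, by simpa using p1⟩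
    obtain ⟨j₁, m1, m2⟩ := Finset.exists_min_image (Finset.univ.filter fun j => 0 < l j)
      (fun j => t j / l j) ⟨j₀, by simpa using k4⟩
    have m3 : 0 < l j₁ := by simpa using m1
    have m4 : 0 ≤ t j₁ / l j₁ := div_nonneg (h1 _) m3.le
    have m5 : ∀ j, t j - t j₁ / l j₁ * l j ≠ 0 → t j ≠ 0 := fun j hj e =>
      hj (by simp [e, (by_contra fun z => k1 j z e : l j = 0)])
    obtain ⟨t', a1, a2, a3, a4, a5⟩ := ih (fun j => t j - t j₁ / l j₁ * l j)
      (Nat.lt_succ_iff.1 ((Finset.card_lt_card ⟨fun j hj => by simpa using m5 j (by simpa using hj),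
        fun hs => by
          have := hs (x := j₁) (by simpa using k1 _ m3.ne')
          simp [m3.ne'] at this⟩).trans_le h0))
      (fun j => by
        rcases le_or_gt (l j) 0 with z | z
        · exact sub_nonneg.2 ((mul_nonpos_of_nonneg_of_nonpos m4 z).trans (h1 j))
        · exact sub_nonneg.2 ((le_div_iff₀ z).1 (m2 j (by simpa using z))))
      fun j hj => h2 j (m5 j hj)
    refine ⟨t', a1, fun j hj => m5 j (a2 j hj), a3.trans ?_, a4.trans ?_, a5⟩
    · simp only [sub_smul, mul_smul, Finset.sum_sub_distrib, ← Finset.smul_sum, k2, smul_zero,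
        sub_zero]
    · simp only [sub_mul, mul_assoc, Finset.sum_sub_distrib, ← Finset.mul_sum]
      exact sub_le_self _ (mul_nonneg m4 k3)

/-- rational dual forms of an independent family -/
theorem dualQ [DecidableEq J] (d : J → α → ℕ) (B : Finset J) : ∃ H : J → α → ℚ,
    (∀ j ∉ B, H j = 0) ∧ ((∀ l : J → ℝ, (∀ j, l j ≠ 0 → j ∈ B) →
      ∑ j, l j • (fun i => (d j i : ℝ)) = 0 → l = 0) →
      ∀ j, ∀ l ∈ B, ∑ i, H j i * d l i = if j = l then 1 else 0) := by
  let f : (B → ℚ) →ₗ[ℚ] α → ℚ := Fintype.linearCombination ℚ fun j i => d j i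
  by_cases hf : LinearMap.ker f = ⊥
  · classical
    obtain ⟨g, hg⟩ := f.exists_leftInverse_of_injective hf
    refine ⟨fun j i => if h : j ∈ B then g (Pi.single i 1) ⟨j, h⟩ else 0,
      fun j hj => funext fun i => dif_neg hj, fun _ j l hl => ?_⟩
    by_cases hj : j ∈ B
    · have := congrFun (LinearMap.congr_fun hg (Pi.single ⟨l, hl⟩ 1)) ⟨j, hj⟩
      rw [LinearMap.comp_apply, show f (Pi.single ⟨l, hl⟩ 1) = fun i => (d l i : ℚ) from by
        simp [f, Fintype.linearCombination_apply_single], LinearMap.pi_apply_eq_sum_univ g] at this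
      simpa [hj, mul_comm, Pi.single_apply,
        show ∀ i : α, (fun j => if i = j then (1 : ℚ) else 0) = Pi.single i 1 from
          fun i => funext fun j => by simp [Pi.single_apply, eq_comm]] using this
    · simp [hj, show j ≠ l from fun e => hj (e ▸ hl)]
  · refine ⟨0, fun _ _ => rfl, fun hB => absurd (LinearMap.ker_eq_bot'.2 fun l hl => ?_) hf⟩
    have := hB (fun j => if hj : j ∈ B then (l ⟨j, hj⟩ : ℝ) else 0)
      (fun j hj => by_contra fun e => hj (dif_neg e)) (by
        rw [← Finset.sum_subset B.subset_univ fun j _ e => by rw [dif_neg e, zero_smul],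
          ← B.sum_coe_sort]
        funext i
        have := congrArg (Rat.cast : ℚ → ℝ) (congrFun hl i)
        simpa [f, Fintype.linearCombination_apply] using this)
    funext j
    simpa using congrFun this j

theorem den {ι : Type} [Fintype ι] (f : ι → ℚ) :
    ∃ (k : ℕ) (z : ι → ℤ), 0 < k ∧ ∀ i, (z i : ℚ) = k * f i := by
  have : ∀ i, ∃ z : ℤ, (z : ℚ) = (∏ i, (f i).den : ℕ) * f i := fun i => by
    obtain ⟨w, hw⟩ := Finset.dvd_prod_of_mem (fun i => (f i).den) (Finset.mem_univ i)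
    refine ⟨w * (f i).num, ?_⟩
    rw [hw, Int.cast_mul, ← Rat.mul_den_eq_num]
    push_cast; ring
  choose z hz using this
  exact ⟨_, z, Finset.prod_pos fun i _ => Rat.den_pos _, hz⟩

theorem prod_exp {x : J → ℝ} (h0 : ∀ j, 0 ≤ x j) {m : J → ℕ} (h : ∀ j, m j ≠ 0 → x j ≠ 0) :
    ∏ j, x j ^ m j = Real.exp (∑ j, m j * Real.log (x j)) := by
  rw [Real.exp_sum]
  refine Finset.prod_congr rfl fun j _ => ?_
  by_cases e : m j = 0
  · simp [e]
  · rw [Real.exp_nat_mul, Real.exp_log ((h0 j).lt_of_ne' (h j e))]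

end Ch

open Ch in
/-- ROW CH -/
theorem ch : CH := fun m q d => by
  choose H h1 h2 using dualQ d
  obtain ⟨k, z, hk, hz⟩ := den fun p : Finset (Fin m) × Fin m × Fin q => H p.1 p.2.1 p.2.2
  let G : Finset (Fin m) → Fin m → Fin q → ℤ := fun B j i => z (B, j, i)
  let R : Finset (Fin m) → Fin q → Fin q → ℤ := fun B i i' =>
    (if i = i' then (k : ℤ) else 0) - ∑ j, d j i * G B j i'
  refine ⟨Finset.univ.image (fun p : _ × _ => G p.1 p.2) ∪
    Finset.univ.image fun p : _ × _ => R p.1 p.2, k, hk, fun q' A hA => ?_⟩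
  let g : Finset (Fin m) → Fin q' → Fin m → ℤ := fun B i j => ∑ i', G B j i' * A i i'
  refine ⟨fun i => (Finset.univ.image fun B j => (g B i j).toNat).filter
    fun ν => ∑ j, ν j • d j = k • A i, fun i ν h => (Finset.mem_filter.1 h).2,
    fun x a μ hx hm => ?_⟩
  have h0 : ∀ μ : Fin m → ℕ, 0 ≤ ∏ j, x j ^ μ j := fun μ =>
    Finset.prod_nonneg fun j _ => pow_nonneg (hx j).1 _
  by_cases hy : ∃ j, μ j ≠ 0 ∧ x j = 0
  · obtain ⟨j, h1, h2⟩ := hy
    rw [Finset.prod_eq_zero (Finset.mem_univ j) (by simp [h1, h2])]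
    exact Finset.prod_nonneg fun i _ => pow_nonneg (Finset.sum_nonneg fun μ _ => h0 μ) _
  push Not at hy
  obtain ⟨t, a1, a2, a3, a4, a5⟩ := basic (fun j i => (d j i : ℝ)) (fun j => -Real.log (x j)) _
    (fun j => μ j) le_rfl (fun j => Nat.cast_nonneg _)
    fun j _ => neg_nonneg.2 (Real.log_nonpos (hx j).1 (hx j).2)
  replace a3 : ∀ i', ∑ j, t j * d j i' = k * ∑ i, (a i : ℝ) * A i i' := fun i' => by
    have e1 := congrFun a3 i'
    have e2 := congrArg (Nat.cast : ℕ → ℝ) (congrFun hm i')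
    simp only [Finset.sum_apply, Pi.smul_apply, smul_eq_mul] at e1 e2
    push_cast at e2
    rw [e1, e2, Finset.mul_sum]
    exact Finset.sum_congr rfl fun _ _ => by ring
  set B := Finset.univ.filter fun j => t j ≠ 0
  have hB : ∀ j, j ∈ B ↔ t j ≠ 0 := fun j => by simp [B]
  replace h2 := h2 B fun l hl => a5 l fun j hj => (hB j).1 (hl j hj)
  have hk' : (0 : ℝ) < k := Nat.cast_pos.2 hk
  have h3 : ∀ j, ((∑ i, a i * g B i j : ℤ) : ℝ) = t j := fun j => by
    have e : ∀ l, t l * ∑ i, (G B j i : ℝ) * d l i = if j = l then k * t l else 0 := fun l => by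
      by_cases hl : t l = 0
      · simp [hl]
      · have := congrArg (fun r : ℚ => (k * r : ℝ)) (h2 j l ((hB l).2 hl))
        have e : ∀ i, (G B j i : ℝ) = k * H B j i := fun i => by exact_mod_cast hz (B, j, i)
        simp only [Rat.cast_sum, Rat.cast_mul, Rat.cast_natCast, Finset.mul_sum, ← mul_assoc,
          ← e] at this
        rw [this]
        split_ifs <;> simp [mul_comm]
    refine mul_left_cancel₀ hk'.ne' ?_
    have e' := Finset.sum_congr (rfl : Finset.univ = _) fun l _ => e l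
    simp only [Finset.sum_ite_eq, Finset.mem_univ, if_true, Finset.mul_sum] at e'
    rw [← e', Finset.sum_comm]
    simp only [mul_left_comm (t _), ← Finset.mul_sum, a3, g]
    push_cast
    simp only [Finset.mul_sum]
    rw [Finset.sum_comm]
    exact Finset.sum_congr rfl fun _ _ => Finset.sum_congr rfl fun _ _ => by ring
  have h4 : ∀ i j, ((g B i j).toNat : ℤ) = g B i j := fun i j => Int.toNat_of_nonneg <| by
    by_cases hj : j ∈ B
    · refine (hA (G B j) (Finset.mem_union_left _ (Finset.mem_image_of_mem _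
        (Finset.mem_univ (B, j))))).elim (· i) fun h => absurd (h3 j).symm.le (not_le.2 ?_)
      exact lt_of_le_of_lt (Int.cast_nonpos.2 (Finset.sum_nonpos fun i _ =>
        mul_nonpos_of_nonneg_of_nonpos (Nat.cast_nonneg _) (h i))) ((a1 j).lt_of_ne' ((hB j).1 hj))
    · refine Finset.sum_nonneg fun i' _ => mul_nonneg (Eq.ge ?_) (Nat.cast_nonneg _)
      simpa [h1 B j hj] using hz (B, j, i')
  have h5 : ∀ i, a i ≠ 0 → ∑ j, (g B i j).toNat • d j = k • A i := fun i hi => funext fun i' => by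
    have e : ∀ i, ∑ l, R B i' l * A i l = k * A i i' - ∑ j, g B i j * d j i' := fun i => by
      simp only [R, g, sub_mul, Finset.sum_sub_distrib, ite_mul, zero_mul, Finset.sum_ite_eq,
        Finset.mem_univ, if_true, Finset.sum_mul]
      rw [Finset.sum_comm]
      exact congrArg _ (Finset.sum_congr rfl fun _ _ => Finset.sum_congr rfl fun _ _ => by ring)
    have e0 : ∑ i, a i * ∑ l, R B i' l * A i l = 0 := by
      have := a3 i'
      simp only [← h3] at this
      simp only [e, mul_sub, Finset.sum_sub_distrib, sub_eq_zero, Finset.mul_sum]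
      rw [Finset.sum_comm]
      refine Int.cast_injective (α := ℝ) ?_
      push_cast at this ⊢
      simp only [Finset.sum_mul, Finset.mul_sum] at this
      simp only [← mul_assoc, this]
      exact Finset.sum_congr rfl fun _ _ => by ring
    have e1 : a i * ∑ l, R B i' l * A i l = 0 :=
      (hA (R B i') (Finset.mem_union_right _ (Finset.mem_image_of_mem _
        (Finset.mem_univ (B, i'))))).elim
        (fun h => (Finset.sum_eq_zero_iff_of_nonneg fun i _ =>
          mul_nonneg (Nat.cast_nonneg _) (h i)).1 e0 i (Finset.mem_univ i))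
        fun h => (Finset.sum_eq_zero_iff_of_nonpos fun i _ =>
          mul_nonpos_of_nonneg_of_nonpos (Nat.cast_nonneg _) (h i)).1 e0 i (Finset.mem_univ i)
    rw [mul_eq_zero, e, sub_eq_zero] at e1
    refine Nat.cast_injective (R := ℤ) ?_
    simpa [h4] using (e1.resolve_left (Nat.cast_ne_zero.2 hi)).symm
  have h6 : ∀ j, ((∑ i, a i * (g B i j).toNat : ℕ) : ℝ) = t j := fun j => by
    rw [← h3, ← Int.cast_natCast]
    simp only [Nat.cast_sum, Nat.cast_mul, h4]
  calc ∏ j, x j ^ μ j ≤ ∏ j, x j ^ ∑ i, a i * (g B i j).toNat := by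
        rw [prod_exp (fun j => (hx j).1) hy, prod_exp (fun j => (hx j).1) fun j hj =>
          hy j (by simpa using a2 j (h6 j ▸ Nat.cast_ne_zero.2 hj))]
        simp only [h6]
        simpa using a4
    _ = ∏ i, (∏ j, x j ^ (g B i j).toNat) ^ a i := by
        simp only [← Finset.prod_pow_eq_pow_sum, ← Finset.prod_pow, ← pow_mul, mul_comm]
        exact Finset.prod_comm
    _ ≤ _ := Finset.prod_le_prod (fun i _ => pow_nonneg (h0 _) _) fun i _ => by
        by_cases hi : a i = 0
        · simp [hi]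
        · exact pow_le_pow_left₀ (h0 _) (Finset.single_le_sum (fun μ _ => h0 μ)
            (Finset.mem_filter.2 ⟨Finset.mem_image_of_mem (fun B j => (g B i j).toNat)
              (Finset.mem_univ B), h5 i hi⟩)) _

end Vale.Agent.P277Z.Ex
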