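import Vale.Agent.P277Z.Ex.Defs
import Vale.Agent.P277Z.Brg.Amp
import Vale.Agent.P277Z.Luf.Hol

/-!
# P277, block EX: generation in a chamber, passage to smaller cones
-/

open scoped Manifold ContDiff Topology
open Vale.Agent.P272.K Vale.Agent.P285.H281.FD Vale.Agent.P277 Set Filter Asymptotics
open Vale.Agent.P277Z.Slc (lin ForW)
open Vale.Agent.P277Z.Brg (LBN SecN FGL)

noncomputable section

namespace Vale.Agent.P277Z.Ex

namespace Chm

variable {α : Type} {q : ℕ}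

theorem cb_sum (b : Fin q → α → ℤ) {J : Type} [Fintype J] (ν : J → ℕ) (D : J → Fin q → ℕ) :
    cb b (∑ j, ν j • D j) = ∑ j, ν j • cb b (D j) := by
  simp only [cb, Finset.sum_apply, Pi.smul_apply, smul_eq_mul, Finset.sum_smul, Finset.smul_sum,
    mul_smul]
  exact Finset.sum_comm

theorem cb_inj {b : Fin q → α → ℤ} (hb : LinearIndependent ℤ b) {a a' : Fin q → ℕ}
    (h : cb b a = cb b a') : a = a' := by
  have := Fintype.linearIndependent_iffₛ.1 hb (fun i => a i) (fun i => a' i)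
    (by simpa only [natCast_zsmul, cb] using h)
  exact funext fun i => Nat.cast_injective (this i)

variable {n : ℕ} {W : Type} [TopologicalSpace W] [ChartedSpace (Cm n) W] [Fintype α] {F : Set W}
  {L : α → Bd W}

theorem sec_mon (hL : ∀ a, LBN n F (L a)) {J : Type} [Fintype J] {d : J → α → ℤ}
    {u : J → Ix L → W → ℂ} (hu : ∀ j, SecN n F (lin L (d j)) (u j)) (ν : J → ℕ) {a : α → ℤ}
    (ha : ∑ j, ν j • d j = a) : SecN n F (lin L a) fun k w => ∏ j, u j k w ^ ν j := by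
  subst ha
  filter_upwards [eventually_all.2 hu, eventually_all.2 fun a => (hL a).near] with y h1 h2 i hi
  refine ⟨Hol.prod _ fun j _ => (h1 j i hi).1.pow _, fun k hk => ?_⟩
  change _ = (∏ a, (L a).g (i a) (k a) y ^ (∑ j, ν j • d j) a) * _
  rw [Brg.pw_sum fun a => (h2 a _ _ (hi a) (hk a)).2.1, ← Finset.prod_mul_distrib]
  refine Finset.prod_congr rfl fun j _ => ?_
  rw [(h1 j i hi).2 k hk, mul_pow]
  rfl

theorem sec_zero (a : α → ℤ) : SecN n F (lin L a) fun _ _ => 0 :=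
  .of_forall fun _ _ _ => ⟨fun _ _ => analyticAt_const, fun _ _ => (mul_zero _).symm⟩

omit [TopologicalSpace W] in
theorem nm_nonneg {ι J : Type} [Fintype J] (f : J → ι → W → ℂ) (i : ι) (w : W) : 0 ≤ nm f i w :=
  Finset.sum_nonneg fun _ _ => norm_nonneg _

theorem prod_le {m q' : ℕ} {x : Fin m → ℝ} (hx : ∀ j, 0 ≤ x j) {C : ℝ} (hC : 1 ≤ C)
    (h : ∀ j, x j ≤ C) {Φ : Fin q' → Finset (Fin m → ℕ)} {a : Fin q' → ℕ} {μ : Fin m → ℕ}
    (k : ∀ β : Fin m → ℝ, (∀ j, 0 ≤ β j ∧ β j ≤ 1) →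
      ∏ j, β j ^ μ j ≤ ∏ i, (∑ ν ∈ Φ i, ∏ j, β j ^ ν j) ^ a i) :
    ∏ j, x j ^ μ j ≤ (∏ j, C ^ μ j) * ∏ i, (∑ ν ∈ Φ i, ∏ j, x j ^ ν j) ^ a i := by
  have h0 : 0 < C := by linarith
  have h1 : ∀ j, 0 ≤ x j / C := fun j => div_nonneg (hx j) h0.le
  have h2 : ∏ j, x j ^ μ j = (∏ j, C ^ μ j) * ∏ j, (x j / C) ^ μ j := by
    rw [← Finset.prod_mul_distrib]
    exact Finset.prod_congr rfl fun j _ => by rw [← mul_pow, mul_div_cancel₀ _ h0.ne']
  rw [h2]
  refine mul_le_mul_of_nonneg_left ((k _ fun j => ⟨h1 j, (div_le_one h0).2 (h j)⟩).trans ?_)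
    (by positivity)
  gcongr with i _ ν _ j
  · exact fun i _ => pow_nonneg (Finset.sum_nonneg fun ν _ => Finset.prod_nonneg fun j _ =>
      pow_nonneg (h1 j) _) _
  · exact Finset.sum_nonneg fun ν _ => Finset.prod_nonneg fun j _ => pow_nonneg (h1 j) _
  · exact fun j _ => pow_nonneg (h1 j) _
  · exact h1 j
  · exact div_le_self (hx j) hC

end Chm

open Chm

/-- **SUB** -/
theorem sub : SUB := by
  intro n W _ _ _ _ _ α _ L q m q' e f A
  let g : Fin q → Option (Fin m) → Ix L → W → ℂ := fun j o => o.elim (fun _ _ => 0) (f j)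
  let E := Fintype.equivFin (Fin q → Option (Fin m))
  refine ⟨_, fun i l k w => ∏ j, g j (E.symm l j) k w ^ A i j, fun F hL h => ⟨fun i l => ?_,
    fun a s hs w hw u hu => ?_⟩⟩
  · refine sec_mon hL (fun j => ?_) (A i) rfl
    cases E.symm l j with
    | none => exact sec_zero _
    | some o => exact h.sec j o
  have h1 : SecN n F (lin L (cb e (∑ i, a i • A i))) s := by
    rw [cb_sum]
    exact hs
  refine (h.le _ s h1 w hw u hu).trans (IsBigO.of_bound
    (∏ i, (∏ j, (m : ℝ) ^ A i j) ^ a i) (Eventually.of_forall fun y => ?_))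
  have h2 : ∀ i, ∏ j, nm (f j) u y ^ A i j ≤ (∏ j, (m : ℝ) ^ A i j) *
      nm (fun l k w => ∏ j, g j (E.symm l j) k w ^ A i j) u y := fun i => by
    choose φ h3 using fun j => Finite.exists_max fun o => ‖g j o u y‖
    refine le_trans ?_ (mul_le_mul_of_nonneg_left (Finset.single_le_sum
      (f := fun l => ‖∏ j, g j (E.symm l j) u y ^ A i j‖) (fun _ _ => norm_nonneg _)
      (Finset.mem_univ (E φ))) (by positivity))
    rw [E.symm_apply_apply, norm_prod, ← Finset.prod_mul_distrib]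
    refine Finset.prod_le_prod (fun j _ => pow_nonneg (nm_nonneg _ _ _) _) fun j _ => ?_
    rw [norm_pow, ← mul_pow]
    refine pow_le_pow_left₀ (nm_nonneg _ _ _) ?_ _
    simpa only [Finset.card_univ, Fintype.card_fin, nsmul_eq_mul, nm] using
      Finset.sum_le_card_nsmul Finset.univ (fun l => ‖f j l u y‖) _ fun l _ => h3 j (some l)
  rw [Real.norm_of_nonneg (Finset.prod_nonneg fun _ _ => pow_nonneg (nm_nonneg _ _ _) _),
    Real.norm_of_nonneg (Finset.prod_nonneg fun _ _ => pow_nonneg (nm_nonneg _ _ _) _),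
    ← Finset.prod_mul_distrib]
  simp only [Finset.sum_apply, Pi.smul_apply, smul_eq_mul, ← Finset.prod_pow_eq_pow_sum, pow_mul']
  rw [Finset.prod_comm]
  refine Finset.prod_le_prod (fun _ _ => Finset.prod_nonneg fun _ _ =>
    pow_nonneg (pow_nonneg (nm_nonneg _ _ _) _) _) fun i _ => ?_
  rw [Finset.prod_pow, ← mul_pow]
  exact pow_le_pow_left₀ (Finset.prod_nonneg fun _ _ => pow_nonneg (nm_nonneg _ _ _) _) (h2 i) _

/-- **CHM** -/
theorem chm_of (h : CH) : CHM := by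
  classical
  intro n W _ _ _ _ _ F α _ L q b N t z hL hb ht ⟨m, d, u, h1, h2⟩
  choose D hD using fun j => AddSubmonoid.mem_closure_range_iff_of_fintype.1 (h1 j).1
  obtain ⟨H, k, hk, h3⟩ := h m q D
  refine ⟨H, k, hk, fun q' A hA => ?_⟩
  obtain ⟨Φ, h4, h5⟩ := h3 q' A hA
  have h6 : ∀ ν : Fin m → ℕ, ∑ j, ν j • d j = cb b (∑ j, ν j • D j) := fun ν => by
    rw [cb_sum]
    exact Finset.sum_congr rfl fun j _ => congrArg _ (hD j)
  let T := Finset.univ.biUnion Φ
  let g : Fin q' → (Fin m → ℕ) → Ix L → W → ℂ := fun i ν =>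
    if ν ∈ Φ i then fun k w => ∏ j, u j k w ^ ν j else fun _ _ => 0
  refine ⟨_, fun i l => g i (T.equivFin.symm l), fun i l => ?_, fun a s hs w hw v hv => ?_⟩
  · simp only [g]
    split_ifs with k1
    · exact sec_mon hL (fun j => (h1 j).2) _ ((h6 _).trans (congrArg _ (h4 i _ k1)))
    · exact sec_zero _
  have h7 : ∀ i y, nm (fun l => g i (T.equivFin.symm l)) v y =
      ∑ ν ∈ Φ i, ∏ j, ‖u j v y‖ ^ ν j := fun i y => by
    rw [nm, T.equivFin.symm.sum_comp fun ν => ‖g i ν v y‖,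
      Finset.sum_coe_sort T fun ν => ‖g i ν v y‖,
      ← Finset.sum_subset (Finset.subset_biUnion_of_mem Φ (Finset.mem_univ i))
        fun ν _ k1 => by simp only [g, if_neg k1, norm_zero]]
    exact Finset.sum_congr rfl fun ν k1 => by simp only [g, if_pos k1, norm_prod, norm_pow]
  have h8 : cb (fun i => cb b (k • A i)) a = cb b (∑ i, a i • k • A i) := (cb_sum _ _ _).symm
  obtain ⟨T', c, h9, h10⟩ := h2 (cb (fun i => cb b (k • A i)) a)
    (AddSubmonoid.mem_closure_range_iff_of_fintype.2 ⟨_, h8⟩) s hs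
  have h11 : ∀ᶠ y in 𝓝 w, s v y = ∑ μ ∈ T', c μ (t y) * ∏ j, u j v y ^ μ j := by
    filter_upwards [h10.filter_mono (nhds_le_nhdsSet hw),
      eventually_all.2 fun a => ((hL a).isOpen _).eventually_mem (hv a)] with y k1 k2 using k1 v k2
  have h12 : ∀ j, ContinuousAt (fun y => ‖u j v y‖) w := fun j =>
    ((h1 j).2.self_of_nhdsSet w hw v hv).1.cont.norm
  obtain ⟨C, hC, h13⟩ : ∃ C : ℝ, 1 ≤ C ∧ ∀ᶠ y in 𝓝 w, ∀ j, ‖u j v y‖ ≤ C := by
    refine ⟨1 + ∑ j, ‖u j v w‖, le_add_of_nonneg_right (by positivity),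
      eventually_all.2 fun j => ((h12 j).eventually (gt_mem_nhds ?_)).mono fun _ => le_of_lt⟩
    linarith [Finset.single_le_sum (f := fun j => ‖u j v w‖) (fun _ _ => norm_nonneg _)
      (Finset.mem_univ j)]
  refine IsBigO.congr' (IsBigO.fun_sum fun μ hμ => ?_) (h11.mono fun _ k => k.symm) .rfl
  have k1 : (fun y => c μ (t y)) =O[𝓝 w] fun _ => (1 : ℝ) :=
    (ContinuousAt.comp (g := c μ) ((ht w hw).2.symm ▸ (h9 μ hμ).2.continuousAt)
      (ht w hw).1).isBigO_one ℝ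
  refine (k1.mul (IsBigO.of_bound (∏ j, C ^ μ j) ?_)).congr_right fun _ => one_mul _
  filter_upwards [h13] with y k2
  rw [Real.norm_of_nonneg (Finset.prod_nonneg fun _ _ => pow_nonneg (nm_nonneg _ _ _) _), norm_prod]
  simp only [h7, norm_pow]
  exact prod_le (fun _ => norm_nonneg _) hC k2 fun β hβ =>
    h5 β a μ hβ (cb_inj hb ((h6 μ).symm.trans ((h9 μ hμ).1.trans h8)))

end Vale.Agent.P277Z.Ex
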