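import Vale.Agent.P277Z.Ex.Defs
import Vale.Agent.P277Z.Val.Mon
import Vale.Agent.P277Z.Hl.Prin

/-!
# P277, block EX: divisibility along the components of a divisor with simple normal crossings
-/

open scoped Manifold ContDiff Topology
open Vale.Agent.P272.K Set Filter Asymptotics Metric

noncomputable section

namespace Vale.Agent.P277Z.Ex

namespace Clo

open Val (an_coord ev_zero_of_freq freq_strat exists_mon0 eqn)

variable {n : ℕ} {i : Fin n} {z₀ : Cm n}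

/-- `z i ^ d` divides `g` at `z₀` -/
def Dv (i : Fin n) (d : ℕ) (g : Cm n → ℂ) (z₀ : Cm n) : Prop :=
  ∃ b, AnalyticAt ℂ b z₀ ∧ ∀ᶠ z in 𝓝 z₀, g z = z i ^ d * b z

theorem tend_upd (h0 : z₀ i = 0) :
    Tendsto (fun u : Cm n => Function.update u i 0) (𝓝 z₀) (𝓝 z₀) := by
  have := (continuous_id.update i (continuous_const (y := (0 : ℂ)))).tendsto z₀
  rwa [id, ← h0, Function.update_eq_self, h0] at this

theorem dv_or {g : Cm n → ℂ} (hg : AnalyticAt ℂ g z₀) (h0 : z₀ i = 0) (d : ℕ) :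
    Dv i d g z₀ ∨ ∃ e < d, ∃ b, AnalyticAt ℂ b z₀ ∧ (∀ᶠ z in 𝓝 z₀, g z = z i ^ e * b z) ∧
      ∃ᶠ z in 𝓝 z₀, z i = 0 ∧ b z ≠ 0 := by
  induction d with
  | zero => exact Or.inl ⟨g, hg, by simp⟩
  | succ d ih =>
    rcases ih with ⟨b, h1, h2⟩ | ⟨e, he, h⟩
    · by_cases hz : ∃ᶠ z in 𝓝 z₀, z i = 0 ∧ b z ≠ 0
      · exact Or.inr ⟨d, d.lt_succ_self, b, h1, h2, hz⟩
      obtain ⟨c, h3, h4⟩ := Hir.IH.hadamard (l := (ContinuousLinearMap.proj i : Cm n →L[ℂ] ℂ))
        (Pi.single i 1) h0 h1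
      refine Or.inl ⟨c, h3, ?_⟩
      filter_upwards [h2, (tend_upd h0).eventually (not_frequently.1 hz)] with z e1 e2
      have e3 := h4 z
      rw [Hl.Prin.pj_eq, not_not.1 fun k => e2 ⟨Function.update_self .., k⟩, sub_zero] at e3
      rw [e1, e3, pow_succ, mul_assoc]
      rfl
    · exact Or.inr ⟨e, he.trans d.lt_succ_self, h⟩

theorem an_upd (i : Fin n) (z : Cm n) :
    AnalyticAt ℂ (fun u : Cm n => Function.update u i 0) z := by
  refine analyticAt_pi_iff.2 fun k => ?_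
  rcases eq_or_ne k i with rfl | h
  · simpa using analyticAt_const
  · simpa [h] using an_coord k z

/-- the identity theorem on a hyperplane -/
theorem freq_gen {b : Cm n → ℂ} (hb : AnalyticAt ℂ b z₀) (h0 : z₀ i = 0)
    (h : ∃ᶠ z in 𝓝 z₀, z i = 0 ∧ b z ≠ 0) : ∀ᶠ z in 𝓝 z₀, z i = 0 →
      ∃ᶠ z' in 𝓝 z, z' i = 0 ∧ b z' ≠ 0 ∧ ∀ k, k ≠ i → z' k ≠ 0 := by
  have hF : AnalyticAt ℂ (fun u => b (Function.update u i 0)) z₀ :=
    AnalyticAt.fun_comp (g := b) (f := fun u : Cm n => Function.update u i 0)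
      (by rwa [← h0, Function.update_eq_self]) (an_upd i z₀)
  have h1 : ∀ᶠ z in 𝓝 z₀, ∃ᶠ u in 𝓝 z, b (Function.update u i 0) ≠ 0 := by
    by_contra e
    rw [not_eventually] at e
    obtain ⟨z, k1, k2⟩ := (h.and_eventually
      (ev_zero_of_freq hF (e.mono fun z hz => by simpa using hz))).exists
    rw [Function.update_eq_self_iff.2 k1.1.symm] at k2
    exact k1.2 k2
  filter_upwards [h1, hF.eventually_analyticAt.eventually_nhds] with z k1 k2 k3
  refine (tend_upd k3).frequently (frequently_frequently_nhds.1 ((k1.and_eventually k2).mono ?_))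
  rintro u ⟨a1, a2⟩
  refine ((freq_strat ∅ (w := u) (by simp)).and_eventually
    (a2.continuousAt.eventually_ne a1)).mono fun w hw => ⟨Function.update_self .., hw.2, ?_⟩
  intro k hk
  rw [Function.update_of_ne hk]
  exact fun e => (hw.1 k).1 e

theorem le_of_isBigO {b v : Cm n → ℂ} {e d : ℕ} (h0 : z₀ i = 0) (hb : ContinuousAt b z₀)
    (hv : ContinuousAt v z₀) (hne : b z₀ ≠ 0)
    (h : (fun z => z i ^ e * b z) =O[𝓝 z₀] fun z => z i ^ d * v z) : d ≤ e := by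
  by_contra hlt
  obtain ⟨k, rfl⟩ : ∃ k, d = e + (k + 1) := ⟨d - e - 1, by omega⟩
  obtain ⟨C, hC⟩ := h.bound
  have h1 : ‖b z₀‖ - C * ‖z₀ i ^ (k + 1) * v z₀‖ ∈ Iic (0 : ℝ) := by
    refine Hl.Prin.mem_of_dense (φ := fun z => ‖b z‖ - C * ‖z i ^ (k + 1) * v z‖) isClosed_Iic
      (hb.norm.sub (continuousAt_const.mul
        ((((continuous_apply i).continuousAt.pow _).mul hv).norm))) (hC.mono fun z a c => ?_)
    rw [pow_add, mul_assoc, norm_mul, norm_mul (z i ^ e), mul_left_comm] at a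
    exact sub_nonpos.2 (le_of_mul_le_mul_left a (norm_pos_iff.2 (pow_ne_zero _ (c i))))
  rw [h0, zero_pow k.succ_ne_zero, zero_mul, norm_zero, mul_zero, sub_zero] at h1
  exact hne (norm_le_zero_iff.1 h1)

theorem dv_of {b p v g D : Cm n → ℂ} {d : ℕ} (hb : AnalyticAt ℂ b z₀) (h0 : z₀ i = 0)
    (h1 : ∀ᶠ z in 𝓝 z₀, ContinuousAt p z ∧ ContinuousAt v z ∧
      ((∀ k, k ≠ i → z k ≠ 0) → p z ≠ 0) ∧ g z = p z * b z ∧ D z = z i ^ d * v z)
    (h2 : ∃ᶠ z in 𝓝 z₀, z i = 0 ∧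
      ∀ᶠ z' in 𝓝 z, z' i = 0 → (∀ k, k ≠ i → z' k ≠ 0) → g =O[𝓝 z'] D) : Dv i d b z₀ := by
  rcases dv_or hb h0 d with h | ⟨e, he, c, k1, k2, k3⟩
  · exact h
  obtain ⟨z, ⟨a1, a2⟩, a3, a4⟩ := (h2.and_eventually ((freq_gen k1 h0 k3).and
    ((k1.eventually_analyticAt.and (k2.and h1).eventually_nhds).eventually_nhds))).exists
  obtain ⟨w, ⟨b1, b2, b3⟩, b4, b5, b6⟩ := ((a3 a1).and_eventually (a2.and a4)).exists
  obtain ⟨-, c1, c2, c3, -⟩ := b6.self_of_nhds
  refine absurd (le_of_isBigO (b := fun z => p z * c z) (e := e) (d := d) b1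
    (c1.mul b5.continuousAt) c2 (mul_ne_zero (c3 b3) b2) ((b4 b1 b3).congr' ?_ ?_)) he.not_ge
  · filter_upwards [b6] with u hu
    rw [hu.2.2.2.2.1, hu.1, mul_left_comm]
  · exact b6.mono fun u hu => hu.2.2.2.2.2

theorem exists_mon (I : Finset (Fin n)) (hI : ∀ i ∈ I, z₀ i = 0) {D : Cm n → ℂ}
    (hD : AnalyticAt ℂ D z₀) (hne : ∀ᶠ z in 𝓝 z₀, (∀ i ∈ I, z i ≠ 0) → D z ≠ 0) :
    ∃ (d : Fin n → ℕ) (u : Cm n → ℂ), AnalyticAt ℂ u z₀ ∧ u z₀ ≠ 0 ∧
      ∀ᶠ z in 𝓝 z₀, D z = (∏ i ∈ I, z i ^ d i) * u z := by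
  classical
  cases n with
  | zero =>
    exact ⟨0, D, hD, hne.self_of_nhds fun i => i.elim0, .of_forall fun z => by simp⟩
  | succ n =>
    have t1 : Tendsto (fun w => z₀ + w) (𝓝 0) (𝓝 z₀) := by
      simpa using (continuous_const.add continuous_id).tendsto (0 : Cm (n + 1))
        (f := fun w => z₀ + w)
    have t2 : Tendsto (fun z => z - z₀) (𝓝 z₀) (𝓝 0) := by
      simpa using (continuous_id.sub continuous_const).tendsto z₀ (f := fun z => z - z₀)
    obtain ⟨d, u, h1, h2, h3⟩ := exists_mon0 (fun i => if i ∈ I then some i else none)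
      (f := fun w => D (z₀ + w)) (AnalyticAt.fun_comp (g := D) (f := fun w => z₀ + w)
        (by rwa [add_zero]) (analyticAt_const.add analyticAt_id)) (by
      filter_upwards [t1.eventually hne] with w a b
      refine a fun i hi => ?_
      rw [Pi.add_apply, hI i hi, zero_add]
      exact b i i (if_pos hi))
    refine ⟨d, fun z => u (z - z₀), AnalyticAt.fun_comp (g := u) (f := fun z => z - z₀)
      (by rwa [sub_self]) (analyticAt_id.sub analyticAt_const), by simpa using h2, ?_⟩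
    filter_upwards [t2.eventually h3] with z a
    rw [add_sub_cancel] at a
    rw [a, mul_comm, ← Finset.prod_subset (Finset.subset_univ I) fun i _ hi => by simp [eqn, hi]]
    congr 1
    exact Finset.prod_congr rfl fun i hi => by simp [eqn, hi, hI i hi]

/-- the local form of `Pl` -/
def Pc (I : Finset (Fin n)) (i : Fin n) (g D : Cm n → ℂ) (z : Cm n) : Prop :=
  ∀ᶠ z' in 𝓝 z, z' i = 0 → (∀ k ∈ I, k ≠ i → z' k ≠ 0) → g =O[𝓝 z'] D

theorem isBigO_of {g D p b u : Cm n → ℂ} (hb : ContinuousAt b z₀) (hu : ContinuousAt u z₀)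
    (hne : u z₀ ≠ 0) (h : ∀ᶠ z in 𝓝 z₀, g z = p z * b z ∧ D z = p z * u z) : g =O[𝓝 z₀] D :=
  ((isBigO_refl p _).mul (isBigO_of_div_tendsto_nhds (hu.eventually_ne hne |>.mono fun _ a c =>
    absurd c a) _ (hb.div hu hne))).congr' (h.mono fun _ a => a.1.symm) (h.mono fun _ a => a.2.symm)

theorem loc (I : Finset (Fin n)) (hI : ∀ i ∈ I, z₀ i = 0) {g D : Cm n → ℂ}
    (hg : AnalyticAt ℂ g z₀) (hD : AnalyticAt ℂ D z₀)
    (hne : ∀ᶠ z in 𝓝 z₀, (∀ i ∈ I, z i ≠ 0) → D z ≠ 0) :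
    (∀ i ∈ I, (∃ᶠ z in 𝓝 z₀, z i = 0 ∧ Pc I i g D z) → Pc I i g D z₀) ∧
      ((∀ i ∈ I, Pc I i g D z₀) → g =O[𝓝 z₀] D) := by
  classical
  obtain ⟨d, u, h1, h2, h3⟩ := exists_mon I hI hD hne
  have hm : ∀ (s : Finset (Fin n)) (z : Cm n), AnalyticAt ℂ (fun z => ∏ k ∈ s, z k ^ d k) z :=
    fun s z => Finset.analyticAt_fun_prod s fun k _ => (an_coord k z).pow _
  have h4 : ∀ i ∈ I, ∀ᶠ z in 𝓝 z₀, D z = z i ^ d i * ((∏ k ∈ I.erase i, z k ^ d k) * u z) :=
    fun i hi => h3.mono fun z a => by rw [a, ← Finset.mul_prod_erase _ _ hi, mul_assoc]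
  have key : ∀ i ∈ I, (∃ᶠ z in 𝓝 z₀, z i = 0 ∧ Pc I i g D z) → Dv i (d i) g z₀ := by
    intro i hi h
    refine dv_of (p := fun _ => 1) (v := fun z => (∏ k ∈ I.erase i, z k ^ d k) * u z) (g := g)
      (D := D) hg (hI i hi) ?_ (h.mono fun z a => ⟨a.1, a.2.mono fun w b c e => b c fun k _ => e k⟩)
    filter_upwards [h4 i hi, h1.eventually_analyticAt] with z a b
    exact ⟨continuousAt_const, ((hm _ z).mul b).continuousAt, fun _ => one_ne_zero,
      (one_mul _).symm, a⟩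
  refine ⟨fun i hi h => ?_, fun h => ?_⟩
  · obtain ⟨b, k1, k2⟩ := key i hi h
    filter_upwards [k1.eventually_analyticAt, h1.eventually_analyticAt,
      h1.continuousAt.eventually_ne h2, (k2.and (h4 i hi)).eventually_nhds] with z a1 a2 a3 a4 _ a5
    exact isBigO_of a1.continuousAt ((hm _ z).mul a2).continuousAt (mul_ne_zero
      (Finset.prod_ne_zero_iff.2 fun k hk => pow_ne_zero _
        (a5 k (Finset.mem_of_mem_erase hk) (Finset.ne_of_mem_erase hk))) a3) a4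
  have h5 : ∀ s ⊆ I, ∃ b, AnalyticAt ℂ b z₀ ∧ ∀ᶠ z in 𝓝 z₀, g z = (∏ k ∈ s, z k ^ d k) * b z := by
    intro s
    induction s using Finset.induction_on with
    | empty => exact fun _ => ⟨g, hg, by simp⟩
    | insert j s hj ih =>
      intro hs
      have hjI := hs (Finset.mem_insert_self j s)
      obtain ⟨b, k1, k2⟩ := ih ((Finset.subset_insert j s).trans hs)
      have k0 : ∀ P : Cm n → Prop, P z₀ → ∃ᶠ z in 𝓝 z₀, P z := fun P a =>
        (frequently_pure.2 a).filter_mono (pure_le_nhds z₀)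
      obtain ⟨c, k3, k4⟩ := key j hjI (k0 _ ⟨hI j hjI, h j hjI⟩)
      obtain ⟨b', k5, k6⟩ := dv_of (p := fun z => ∏ k ∈ s, z k ^ d k) (v := c) (g := g) (D := g)
        (d := d j) k1 (hI j hjI) (by
          filter_upwards [k2, k4, k3.eventually_analyticAt] with z a1 a2 a3
          exact ⟨(hm s z).continuousAt, a3.continuousAt, fun e => Finset.prod_ne_zero_iff.2
            fun k hk => pow_ne_zero _ (e k (ne_of_mem_of_not_mem hk hj)), a1, a2⟩)
        (k0 _ ⟨hI j hjI, .of_forall fun _ _ _ => isBigO_refl _ _⟩)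
      refine ⟨b', k5, ?_⟩
      filter_upwards [k2, k6] with z a1 a2
      rw [a1, a2, Finset.prod_insert hj]
      ring
  obtain ⟨b, k1, k2⟩ := h5 I subset_rfl
  exact isBigO_of k1.continuousAt h1.continuousAt h2 (k2.and h3)

variable {Y : Type} [TopologicalSpace Y] [ChartedSpace (Cm n) Y] {r : ℕ} {G : Fin r → Set Y}
  {lab : Y → Fin r → Option (Fin n)}

theorem closed (h : Hl.Sn n G lab) (l : Fin r) : IsClosed (G l) := by
  refine isOpen_compl_iff.1 (isOpen_iff_mem_nhds.2 fun y hy => ?_)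
  have hs := mem_chart_source (Cm n) y
  have h1 : ∀ᶠ x in 𝓝 y, ∀ i, lab y l = some i → chartAt (Cm n) y x i ≠ 0 := by
    refine eventually_all.2 fun i => ?_
    by_cases hi : lab y l = some i
    · exact (((continuous_apply i).continuousAt.comp ((chartAt (Cm n) y).continuousAt hs)
        ).eventually_ne fun e => hy ((h.snc y l y hs).2 ⟨i, hi, e⟩)).mono fun _ a _ => a
    · exact .of_forall fun _ a => absurd a hi
  filter_upwards [h1, (chartAt (Cm n) y).open_source.mem_nhds hs] with x a b c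
  obtain ⟨i, k1, k2⟩ := (h.snc y l x b).1 c
  exact a i k1 k2

theorem conn (h : Hl.Sn n G lab) {y : Y} {l : Fin r} (hy : y ∈ G l) {U : Set Y} (hU : U ∈ 𝓝 y) :
    ∃ C ⊆ U ∩ G l, IsPreconnected C ∧ C ∈ 𝓝[G l] y := by
  have hs := mem_chart_source (Cm n) y
  obtain ⟨i, hi, -⟩ := (h.snc y l y hs).1 hy
  have hG : ∀ x ∈ (chartAt (Cm n) y).source, x ∈ G l ↔ chartAt (Cm n) y x i = 0 := fun x hx => by
    simp [h.snc y l x hx, hi]
  set e := chartAt (Cm n) y
  obtain ⟨ρ, hρ, hb⟩ := Metric.eventually_nhds_iff_ball.1 (((e.eventually_nhds' (· ∈ U) hs).2 hU).and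
    (e.open_target.mem_nhds (e.map_source hs)))
  refine ⟨e.symm '' (ball (e y) ρ ∩ {z | z i = 0}), ?_, ?_, ?_⟩
  · rintro _ ⟨z, ⟨a, b⟩, rfl⟩
    exact ⟨(hb z a).1, (hG _ (e.map_target (hb z a).2)).2 (by rwa [e.right_inv (hb z a).2])⟩
  · refine ((convex_ball _ _).inter ?_).isPreconnected.image _
      (e.continuousOn_symm.mono fun z a => (hb z a.1).2)
    intro a ha b hb s t _ _ _
    simp only [mem_ofPred_eq, Pi.add_apply, Pi.smul_apply] at ha hb ⊢
    rw [ha, hb, smul_zero, smul_zero, add_zero]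
  · filter_upwards [nhdsWithin_le_nhds (e.open_source.mem_nhds hs),
      nhdsWithin_le_nhds ((e.continuousAt hs).eventually (ball_mem_nhds _ hρ)),
      self_mem_nhdsWithin] with x a b c
    exact ⟨e x, ⟨b, (hG x a).1 c⟩, e.left_inv a⟩

end Clo

open Clo in
theorem clo : CLO := by
  classical
  intro n Y _ _ _ _ r G lab h
  refine ⟨closed h, fun y => ⟨fun l hl U hU => conn h hl hU, fun g D hg hD hne => ?_⟩⟩
  have hs := mem_chart_source (Cm n) y
  have hsn := h.snc y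
  set e := chartAt (Cm n) y
  set I := Finset.univ.filter fun i => (∃ l, lab y l = some i) ∧ e y i = 0 with hI
  have hN : ∀ᶠ x in 𝓝 y, x ∈ e.source ∧ ∀ l, x ∈ G l ↔ ∃ i ∈ I, lab y l = some i ∧ e x i = 0 := by
    have h1 : ∀ᶠ x in 𝓝 y, ∀ l, x ∈ G l → y ∈ G l := eventually_all.2 fun l => by
      by_cases hl : y ∈ G l
      · exact .of_forall fun _ _ => hl
      · exact Eventually.mono ((closed h l).isOpen_compl.mem_nhds hl) fun _ a b => absurd b a
    filter_upwards [h1, e.open_source.mem_nhds hs] with x a b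
    refine ⟨b, fun l => ⟨fun c => ?_, fun ⟨i, _, c⟩ => (hsn l x b).2 ⟨i, c⟩⟩⟩
    obtain ⟨i, k1, k2⟩ := (hsn l x b).1 c
    obtain ⟨j, k3, k4⟩ := (hsn l y hs).1 (a l c)
    obtain rfl := Option.some.inj (k1.symm.trans k3)
    exact ⟨i, by simpa [hI] using ⟨⟨l, k1⟩, k4⟩, k1, k2⟩
  have hO : ∀ x ∈ e.source, g =O[𝓝 x] D ↔
      (fun z => g (e.symm z)) =O[𝓝 (e x)] fun z => D (e.symm z) := fun x hx =>
    e.symm.isBigO_congr hx
  have hP : ∀ l i, lab y l = some i → i ∈ I → ∀ᶠ x in 𝓝 y, (x ∈ G l ↔ e x i = 0) ∧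
      (Pl G l g D x ↔ Pc I i (fun z => g (e.symm z)) (fun z => D (e.symm z)) (e x)) := by
    intro l i hl hi
    have h1 : ∀ᶠ x in 𝓝 y, x ∈ G l ↔ e x i = 0 := hN.mono fun x a => by simp [a.2, hl, hi]
    filter_upwards [(hN.and h1).eventually_nhds] with x a
    refine ⟨a.self_of_nhds.2, ?_⟩
    rw [Pl, Pc, e.eventually_nhds _ a.self_of_nhds.1.1]
    refine eventually_congr (a.mono fun w b => ?_)
    rw [b.2, hO w b.1.1]
    refine imp_congr_right fun _ => imp_congr_left ⟨fun c j hj hji k => ?_, fun c k hk hw => ?_⟩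
    · obtain ⟨l', hl'⟩ := (Finset.mem_filter.1 hj).2.1
      refine c l' (fun e1 => hji ?_) ((b.1.2 l').2 ⟨j, hj, hl', k⟩)
      exact Option.some.inj ((e1 ▸ hl').symm.trans hl)
    · obtain ⟨j, k1, k2, k3⟩ := (b.1.2 k).1 hw
      exact c j k1 (fun e1 => hk (h.inj y k l i (e1 ▸ k2) hl)) k3
  obtain ⟨k1, k2⟩ := loc (z₀ := e y) I (fun i hi => (Finset.mem_filter.1 hi).2.2)
    (hg e (Lo.at_chartAt y)) (hD e (Lo.at_chartAt y)) (by
      rw [e.eventually_nhds _ hs]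
      filter_upwards [hN, hne] with x a b c
      rw [e.left_inv a.1]
      refine b fun l hl => ?_
      obtain ⟨i, k1, -, k2⟩ := (a.2 l).1 hl
      exact c i k1 k2)
  refine ⟨fun l hl hf => ?_, fun hf => (hO y hs).2 (k2 fun i hi => ?_)⟩
  · obtain ⟨i, a1, a2, -⟩ := (hN.self_of_nhds.2 l).1 hl
    refine (hP l i a2 a1).self_of_nhds.2.2 (k1 i a1 ((e.continuousAt hs).tendsto.frequently ?_))
    exact (hf.and_eventually (hP l i a2 a1)).mono fun x a => ⟨a.2.1.1 a.1.1, a.2.2.1 a.1.2⟩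
  · obtain ⟨⟨l, hl⟩, h0⟩ := (Finset.mem_filter.1 hi).2
    exact (hP l i hl hi).self_of_nhds.2.1 (hf l ((hP l i hl hi).self_of_nhds.1.2 h0))

end Vale.Agent.P277Z.Ex
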