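import Vale.Agent.P277Z.Ex.Sk

/-!
# P277, block EX: the cone of good classes (rows OKZ and CONE)
-/

open scoped Manifold ContDiff Topology
open Vale.Agent.P272.K Vale.Agent.P285.H281.FD Vale.Agent.P277 Set Filter
open Vale.Agent.P277Z.Brg (RPos fam vec CALC RPO ADJV FGV)
open Vale.Agent.P277Z.Val (Lg Res IsPM disc)

noncomputable section

namespace Vale.Agent.P277Z.Ex

namespace Cn

/-- approximation by lattice points -/
theorem appr {ι : Type} (θ : ι → ℝ) (w : ι → ℤ) :
    Tendsto (fun m : ℕ => (m : ℝ)⁻¹ • rl fun l => ⌈m * θ l⌉ + w l) atTop (𝓝 θ) := by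
  refine tendsto_pi_nhds.2 fun l => ?_
  have h0 : Tendsto (fun m : ℕ => (m : ℝ)⁻¹) atTop (𝓝 0) := tendsto_inv_atTop_nhds_zero_nat
  have h1 := fun c : ℝ => (h0.mul_const c).const_add (θ l)
  simp only [zero_mul, add_zero] at h1
  refine tendsto_of_tendsto_of_tendsto_of_le_of_le' (h1 (w l)) (h1 (1 + w l)) ?_ ?_ <;>
    filter_upwards [eventually_ge_atTop 1] with m hm
  · have hm' : (0 : ℝ) < m := by exact_mod_cast hm
    have := Int.le_ceil (m * θ l)
    simp only [Pi.smul_apply, rl, smul_eq_mul, Int.cast_add]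
    rw [show θ l + (m : ℝ)⁻¹ * w l = (m : ℝ)⁻¹ * (m * θ l + w l) by field_simp]
    gcongr
  · have hm' : (0 : ℝ) < m := by exact_mod_cast hm
    have := (Int.ceil_lt_add_one (m * θ l)).le
    simp only [Pi.smul_apply, rl, smul_eq_mul, Int.cast_add]
    rw [show θ l + (m : ℝ)⁻¹ * (1 + w l) = (m : ℝ)⁻¹ * (m * θ l + 1 + w l) by field_simp; ring]
    gcongr

/-- a lattice basis close to a ray -/
def bas {β : Type} [DecidableEq β] (u : β → ℤ) (i : Option β) : Option β → ℤ
  | none => 1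
  | some j => u j + if i = some j then 1 else 0

theorem bas_sum {β : Type} [Fintype β] [DecidableEq β] (u : β → ℤ) (z : Option β → ℤ) :
    (∑ i, z i • bas u i) none = ∑ i, z i ∧
      ∀ j, (∑ i, z i • bas u i) (some j) = (∑ i, z i) * u j + z (some j) := by
  refine ⟨by simp [Finset.sum_apply, bas], fun j => ?_⟩
  simp [Finset.sum_apply, bas, mul_add, Finset.sum_add_distrib, Finset.sum_mul, add_mul]

theorem bas_li {β : Type} [Fintype β] [DecidableEq β] (u : β → ℤ) :
    LinearIndependent ℤ (bas u) := by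
  refine Fintype.linearIndependent_iff.2 fun z hz => ?_
  obtain ⟨h1, h2⟩ := bas_sum u z
  rw [hz] at h1 h2
  have h3 : ∀ j, z (some j) = 0 := fun j => by simpa [← h1] using (h2 j).symm
  rintro (_ | j)
  · simpa [Fintype.sum_option, h3] using h1.symm
  · exact h3 j

theorem bas_span {β : Type} [Fintype β] [DecidableEq β] (u : β → ℤ) (v : Option β → ℤ) :
    ∃ z : Option β → ℤ, v = ∑ i, z i • bas u i := by
  let z : Option β → ℤ := fun i => i.elim (v none - ∑ j, (v (some j) - v none * u j))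
    fun j => v (some j) - v none * u j
  have hz : ∑ i, z i = v none := by simp [Fintype.sum_option, z]
  obtain ⟨h1, h2⟩ := bas_sum u z
  refine ⟨z, funext fun i => ?_⟩
  rcases i with _ | j
  · rw [h1, hz]
  · rw [h2, hz]; simp [z]

variable {V : Lg} {α : Type} (D : Fm V α)

/-- the class of a divisor as a linear map -/
def dl : (Fin V.r → ℝ) →ₗ[ℝ] α → ℝ where
  toFun := D.dv
  map_add' θ θ' := by simp [Fm.dv, Pi.single_add, Finset.sum_add_distrib]
  map_smul' t θ := by simp [Fm.dv, Pi.single_smul, Finset.smul_sum, -smul_eq_mul]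

theorem dv_cont : Continuous (D.dv : (Fin V.r → ℝ) → α → ℝ) :=
  (dl D).continuous_of_finiteDimensional

theorem dv_add (θ θ' : Fin V.r → ℝ) : D.dv (θ + θ') = D.dv θ + D.dv θ' := (dl D).map_add θ θ'

theorem dv_sub (θ θ' : Fin V.r → ℝ) : D.dv (θ - θ') = D.dv θ - D.dv θ' := (dl D).map_sub θ θ'

theorem dv_smul (t : ℝ) (θ : Fin V.r → ℝ) : D.dv (t • θ) = t • D.dv θ := (dl D).map_smul t θ

theorem rl_dv (γ : Fin V.r → ℤ) : rl (D.dv γ) = D.dv (rl γ) := by
  funext a
  simp only [rl, Fm.dv, Finset.sum_apply, Int.cast_sum, Pi.single_apply]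
  exact Finset.sum_congr rfl fun l _ => by split_ifs <;> simp

theorem dv_fam {k : ℕ} {M : Fin k → Bd V.W} (hM : ∀ e, IsLB 4 (M e)) {O : Fin V.r → Bd V.W}
    {σ : ∀ l, (O l).ι → V.W → ℂ} (hO : ∀ l, Slc.IsDiv 4 (V.G l) (O l) (σ l)) (θ : Fin V.r → ℝ) :
    (Fm.ofFam hM hO).dv θ = vec 0 0 θ := by
  funext a
  rcases a with _ | e | l <;> simp [Fm.dv, Fm.ofFam, vec, Finset.sum_apply, Pi.single_apply]

variable [Fintype α] {X : Type} {p : V.W → X}

theorem radd (hC : CALC) {N : α → Bd V.W} (hN : ∀ a, IsLB 4 (N a)) {c c' : α → ℝ}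
    (h : RPos 4 p N c) (h' : RPos 4 p N c') : RPos 4 p N (c + c') := fun x =>
  have := Brg.sct V
  (hC 4 V.W _ _ N fun a => Brg.lbn_of (hN a) _).2.1 _ _ (h x) (h' x)

theorem rsmul (hC : CALC) {N : α → Bd V.W} (hN : ∀ a, IsLB 4 (N a)) {c : α → ℝ} {t : ℝ}
    (ht : 0 < t) (h : RPos 4 p N c) : RPos 4 p N (t • c) := fun x =>
  have := Brg.sct V
  (hC 4 V.W _ _ N fun a => Brg.lbn_of (hN a) _).2.2.1 _ _ ht (h x)

variable {D} {exc R : Finset (Fin V.r)}

theorem ok_add (hC : CALC) {v v' : α → ℝ} (h : D.Ok p exc R v) (h' : D.Ok p exc R v') :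
    D.Ok p exc R (v + v') := by
  obtain ⟨⟨θ, a1, a2, a3⟩, η, a4, a5, a6⟩ := h
  obtain ⟨⟨θ', b1, b2, b3⟩, η', b4, b5, b6⟩ := h'
  refine ⟨⟨θ + θ', fun l => add_nonneg (a1 l) (b1 l), fun l hl => by simp [a2 l hl, b2 l hl], ?_⟩,
    η + η', fun l hl => add_pos (a4 l hl) (b4 l hl), fun l hl => add_nonpos (a5 l hl) (b5 l hl), ?_⟩
  · rw [dv_add, add_sub_add_comm]; exact radd hC D.lb a3 b3
  · rw [dv_add, add_sub_add_comm]; exact radd hC D.lb a6 b6

theorem ok_smul (hC : CALC) {v : α → ℝ} {t : ℝ} (ht : 0 < t) (h : D.Ok p exc R v) :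
    D.Ok p exc R (t • v) := by
  obtain ⟨⟨θ, a1, a2, a3⟩, η, a4, a5, a6⟩ := h
  refine ⟨⟨t • θ, fun l => mul_nonneg ht.le (a1 l), fun l hl => by simp [a2 l hl], ?_⟩,
    t • η, fun l hl => mul_pos ht (a4 l hl),
    fun l hl => mul_nonpos_of_nonneg_of_nonpos ht.le (a5 l hl), ?_⟩
  · rw [dv_smul, ← smul_sub]; exact rsmul hC D.lb ht a3
  · rw [dv_smul, ← smul_sub]; exact rsmul hC D.lb ht a6

end Cn

open Cn

theorem okz_of (hC : CALC) (hR : RPO) : OKZ := by
  intro V X p exc α _ D _ hp R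
  have opn := (hR 4 V.W X p ⟨hp.cont, hp.hol⟩).1 α D.N D.lb
  refine ⟨fun q b a hb ha => ?_, fun a ⟨⟨θ, a1, a2, a3⟩, η, a4, a5, a6⟩ => ⟨?_, ?_⟩⟩
  · have e : rl (cb b a) = ∑ i with a i ≠ 0, (a i : ℝ) • rl (b i) := by
      rw [Finset.sum_filter_of_ne (p := fun i => a i ≠ 0) fun i _ h h' => h (by simp [h'])]
      funext j
      simp [rl, cb, Finset.sum_apply]
    rw [e]
    refine Finset.sum_induction_nonempty _ _ (fun _ _ => ok_add hC) ?_ fun i hi =>
      ok_smul hC (Nat.cast_pos.2 (Nat.pos_of_ne_zero (Finset.mem_filter.1 hi).2)) (hb i)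
    obtain ⟨i, hi⟩ := Function.ne_iff.1 ha
    exact ⟨i, Finset.mem_filter.2 ⟨Finset.mem_univ _, hi⟩⟩
  · obtain ⟨m, h1, h2⟩ := ((eventually_ge_atTop 1).and (((((dv_cont D).tendsto θ).comp
      (appr θ 0)).const_sub (rl a)).eventually (opn _ a3))).exists
    have hm : (0 : ℝ) < m := by exact_mod_cast h1
    refine ⟨m, fun l => ⌈m * θ l⌉.toNat, h1, fun l hl => by simp [a2 l hl], ?_⟩
    have e : (fun l => ((⌈m * θ l⌉.toNat : ℕ) : ℤ)) = fun l => ⌈m * θ l⌉ + (0 : Fin V.r → ℤ) l :=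
      funext fun l => by
        simpa using Int.ceil_nonneg (mul_nonneg hm.le (a1 l))
    have := rsmul hC D.lb hm h2
    rw [Function.comp_apply, dv_smul, smul_sub, smul_inv_smul₀ hm.ne', ← rl_dv, ← e] at this
    refine (congrArg _ (funext fun i => ?_)).mp this
    simp [rl, Fm.dn]
  · obtain ⟨m, h1, h2⟩ := ((eventually_ge_atTop 1).and (((((dv_cont D).tendsto η).comp
      (appr η 0)).sub_const (rl a)).eventually (opn _ a6))).exists
    have hm : (0 : ℝ) < m := by exact_mod_cast h1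
    refine ⟨m, fun l => ⌈m * η l⌉.toNat, fun l => (-⌈m * η l⌉).toNat, h1, fun l hl => ?_,
      fun l hl => ?_, ?_⟩
    · have := Int.ceil_pos.2 (mul_pos hm (a4 l hl))
      beta_reduce
      constructor <;> omega
    · have := Int.ceil_nonpos.2 (mul_nonpos_of_nonneg_of_nonpos hm.le (a5 l hl))
      beta_reduce
      omega
    have e : (rl fun l => ⌈m * η l⌉ + (0 : Fin V.r → ℤ) l) =
        (rl fun l => ((⌈m * η l⌉.toNat : ℕ) : ℤ)) - rl fun l => (((-⌈m * η l⌉).toNat : ℕ) : ℤ) :=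
      funext fun l => by
        simp only [rl, Pi.sub_apply, Pi.zero_apply, add_zero]
        rw [← Int.cast_sub, Int.toNat_sub_toNat_neg]
    have := rsmul hC D.lb hm h2
    rw [Function.comp_apply, dv_smul, smul_sub, smul_inv_smul₀ hm.ne', e, dv_sub, ← rl_dv,
      ← rl_dv] at this
    refine (congrArg _ (funext fun i => ?_)).mp this
    simp [rl, Fm.dn]

theorem cone_of (hC : CALC) (hR : RPO) (hA : ADJV) (hF : FGV) : CONE := by
  intro k ρ m V χ M X L c p exc n O σ hM hO R S hρ hm hL hc hP hRe hRS hd a1 a2 a3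
  set D := Fm.ofFam hM hO with hD
  set a := disc ρ c n with ha
  have opn := (hR 4 V.W X p ⟨hP.res.cont, hP.res.hol⟩).1 _ D.N D.lb
  have nef : ∀ g, RPos 4 p O g → ∀ t : ℝ, 0 ≤ t → RPos 4 p D.N (vec (-t) 0 (g + t • a)) := by
    intro g hg t ht
    refine (congrArg _ (funext fun i => ?_)).mp (hA k m V χ M X L c p exc n O σ hO hL hP g hg
      (t • ρ) (fun e => -(t * ρ e / c e)) fun e => mul_nonneg ht (hρ e))
    have hc' : ∀ e, (c e : ℝ) ≠ 0 := fun e => Nat.cast_ne_zero.2 (by have := hc e; omega)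
    rcases i with _ | e | l
    · simp only [vec, Brg.rel, Pi.add_apply, Finset.sum_apply, Pi.smul_apply, smul_eq_mul, zero_add]
      rw [show -t = -(t * ∑ e, ρ e * m e) by rw [hm, mul_one], Finset.mul_sum,
        ← Finset.sum_neg_distrib]
      refine Finset.sum_congr rfl fun e _ => ?_
      have := hc' e
      push_cast
      field_simp
    · have := hc' e
      simp [vec, Brg.rel, Finset.sum_apply, Pi.single_apply]
      field_simp
      simp
    · simp only [vec, Brg.rel, Pi.add_apply, Finset.sum_apply, Pi.smul_apply, smul_eq_mul, ha, disc,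
        Finset.mul_sum, add_right_inj]
      refine Finset.sum_congr rfl fun e _ => ?_
      push_cast
      ring
  obtain ⟨c₀, hc₀, pos⟩ := (hF k V M X p exc O σ hO hM hP.res).1
  obtain ⟨d, hd0, hd1⟩ : ∃ d : ℝ, 0 < d ∧ ∀ l ∈ R, max (-a l) 0 + d * (1 + 2 * c₀ l) ≤ 1 := by
    have : ∀ᶠ d : ℝ in 𝓝[>] 0, ∀ l ∈ R, max (-a l) 0 + d * (1 + 2 * c₀ l) ≤ 1 := by
      refine (Filter.eventually_all_finset R).2 fun l hl => nhdsWithin_le_nhds ?_
      refine (ContinuousAt.eventually_lt (by fun_prop) continuousAt_const ?_).mono fun _ => le_of_lt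
      have := a2 l hl
      simp only [zero_mul, add_zero, max_lt_iff]
      exact ⟨by linarith, one_pos⟩
    exact ((eventually_mem_nhdsWithin (s := Ioi (0 : ℝ))).and this).exists
  have pd := rsmul hC (fun l => (hO l).lb) hd0 pos
  let g : Fin V.r → ℝ := fun l => if l ∈ R then max (a l) 0 + d * (1 + c₀ l) else -(d * c₀ l)
  let B : Fin V.r → ℝ := fun l => g l - a l + d * c₀ l
  have c0 : ∀ l, 0 ≤ d * c₀ l := fun l => by positivity
  have hB : ∀ l, 0 ≤ B l ∧ B l ≤ 1 := fun l => by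
    by_cases hl : l ∈ R
    · have h1 := hd1 l hl
      have h2 := c0 l
      have h3 : max (a l) 0 - a l = max (-a l) 0 := by
        rcases le_total (a l) 0 with h | h <;> simp [h]
      have h4 := le_max_right (-a l) 0
      simp only [B, g, if_pos hl]
      constructor <;> nlinarith
    · have := a1 l
      have := a3 l hl
      simp only [B, g, if_neg hl]
      constructor <;> linarith
  have gR : ∀ l ∈ R, d * c₀ l < g l := fun l hl => by
    have := le_max_right (a l) 0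
    simp only [g, if_pos hl]
    nlinarith
  have gE : ∀ l ∉ exc, c₀ l = 0 := fun l hl => by
    have := (hc₀ l).not.2 hl
    omega
  have key : ∀ᶠ v in 𝓝 (D.dv g), RPos 4 p D.N (v - vec 1 0 B) ∧ D.Ok p exc R v := by
    have n0 : ∀ v, v = D.dv (-fun l => d * c₀ l) → RPos 4 p D.N v := fun v hv =>
      (congrArg _ (funext fun i => by
        rw [hv, dv_fam]; rcases i with _ | e | l <;> simp [vec])).mp (nef _ pd 0 le_rfl)
    have n1 : RPos 4 p D.N (D.dv g - vec 1 0 B) :=
      (congrArg _ (funext fun i => by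
        rw [dv_fam]; rcases i with _ | e | l <;> simp [vec, B]; ring)).mp (nef _ pd 1 zero_le_one)
    have n2 := n0 (D.dv g - D.dv (g + fun l => d * c₀ l)) (by rw [← dv_sub]; simp)
    have n3 := n0 (D.dv (g - fun l => d * c₀ l) - D.dv g) (by rw [← dv_sub]; simp)
    filter_upwards [(tendsto_id.sub_const _).eventually (opn _ n1),
      (tendsto_id.sub_const _).eventually (opn _ n2),
      (tendsto_id.const_sub _).eventually (opn _ n3)] with v h1 h2 h3
    refine ⟨h1, ⟨_, fun l => ?_, fun l hl => ?_, h2⟩, _, fun l hl => ?_, fun l hl => ?_, h3⟩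
    · by_cases hl : l ∈ R
      · have := gR l hl
        have := c0 l
        simp only [Pi.add_apply]
        linarith
      · simp [g, hl]
    · simp [g, hl]
    · simpa using gR l hl
    · simp [g, mt (@hRe l) hl, gE l hl]
  have fin : ∀ (j : ℕ) (b : Option (Fin k ⊕ Fin V.r) → ℤ), 1 ≤ j →
      RPos 4 p D.N ((j : ℝ)⁻¹ • rl b - vec 1 0 B) ∧ D.Ok p exc R ((j : ℝ)⁻¹ • rl b) →
      Adj p M O b ∧ D.Ok p exc R (rl b) := fun j b hj h => by
    have hj' : (0 : ℝ) < j := by exact_mod_cast hj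
    exact ⟨⟨j, B, hj', hB, h.1⟩, by simpa [smul_inv_smul₀ hj'.ne'] using ok_smul hC hj' h.2⟩
  constructor
  · obtain ⟨j, h1, h2⟩ := ((eventually_ge_atTop 1).and (eventually_all.2 fun i =>
      (appr (D.dv g) (bas 0 i)).eventually key)).exists
    let u : Fin k ⊕ Fin V.r → ℤ := fun i => ⌈j * D.dv g (some i)⌉
    have e : ∀ i, (fun l => ⌈j * D.dv g l⌉ + bas 0 i l) = bas u i := fun i => funext fun l => by
      rcases l with _ | l
      · simp [bas, hD, dv_fam, vec]
      · simp [bas, u]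
    simp only [e] at h2
    let ε := (Fintype.equivFinOfCardEq (Fintype.card_option (α := Fin k ⊕ Fin V.r))).symm
    refine ⟨_, fun i => bas u (ε i), (bas_li u).comp _ ε.injective, fun i => (fin j _ h1 (h2 _)).1,
      fun i => (fin j _ h1 (h2 _)).2, fun v => ?_⟩
    obtain ⟨z, hz⟩ := bas_span u v
    exact ⟨1, fun i => z (ε i), le_rfl, by
      rw [one_smul, hz]; exact (ε.sum_comp fun i => z i • bas u i).symm⟩
  · obtain ⟨j, h1, h2⟩ := ((eventually_ge_atTop 1).and ((((dv_cont D).tendsto g).comp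
      (appr g fun l => if l ∈ S then -1 else 0)).eventually key)).exists
    have hj : (0 : ℝ) < j := by exact_mod_cast h1
    rw [Function.comp_apply, dv_smul, ← rl_dv] at h2
    refine ⟨_, fun l hl => ?_, fun l hl => ?_, fun l hl hl' => ?_, fin j _ h1 h2⟩
    · have := Int.ceil_pos.2 (mul_pos hj ((c0 l).trans_lt (gR l hl)))
      simpa [Finset.disjoint_left.1 hd hl] using this
    · have : g l ≤ 0 := by simpa [g, Finset.disjoint_right.1 hd hl] using c0 l
      have := Int.ceil_nonpos.2 (mul_nonpos_of_nonneg_of_nonpos hj.le this)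
      simp only [if_pos hl]
      omega
    · simp [g, hl, hl', gE l fun h => (hRS l h).elim hl hl']

end Vale.Agent.P277Z.Ex
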