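import Vale.Agent.P277Z.Ex.Api
import Vale.Agent.P277Z.Hl.Desc

/-!
# P277, block EX: division of sections
-/

open scoped Manifold ContDiff Topology
open Vale.Agent.P272.K Vale.Agent.P285.H281.FD Vale.Agent.P277 Set Filter Asymptotics
open Vale.Agent.P277Z.Slc (lin)
open Vale.Agent.P277Z.Brg (SecN LBN)

noncomputable section

namespace Vale.Agent.P277Z.Ex

theorem div : DIV := by
  intro n W _ _ _ _ _ F α _ L a b s t hL hs ht h0 hB
  have key : ∀ w ∈ F, ∃ (u₀ : Ix L) (q : W → ℂ), ∀ᶠ y in 𝓝 w, y ∈ Uc L u₀ ∧ ∀ u, y ∈ Uc L u →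
      Hol n (Hl.cn n fun z => s u z / t u z) y ∧
      Hl.cn n (fun z => s u z / t u z) y = (lin L (a - b)).g u u₀ y * q y ∧
      s u y = (lin L (a - b)).g u u₀ y * q y * t u y := by
    intro w hw
    obtain ⟨u₀, hu⟩ := exists_ix hL hw
    obtain ⟨C, hC⟩ := (hB w hw u₀ hu).bound
    have h1 := (isOpen_Uc hL u₀).eventually_mem hu
    obtain ⟨q, q1, q2⟩ := Hl.Ds.riem (f := fun z => s u₀ z / t u₀ z) (C := C)
      (sec_hol ht hw hu) (h0 w hw u₀ hu) (by
        filter_upwards [sec_near hs hw, sec_near ht hw, h1, hC] with y a1 a2 a3 a4 a5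
        exact ⟨fun e he => ((a1 u₀ a3).1 e he).fun_div ((a2 u₀ a3).1 e he)
          (by rwa [e.left_inv he.2]), by rwa [norm_div, div_le_iff₀ (norm_pos_iff.2 a5)]⟩)
    have h2 := (eventually_all.2 fun x => (hL x).near.filter_mono (nhds_le_nhdsSet hw)).and
      ((sec_near hs hw).and ((sec_near ht hw).and (h1.and q2)))
    refine ⟨u₀, q, ?_⟩
    filter_upwards [h2.eventually_nhds, q1.near, gen_near (Lo.hol_gen_ne (sec_hol ht hw hu)
      (h0 w hw u₀ hu)), (lbn_lin hL (a - b)).near.filter_mono (nhds_le_nhdsSet hw)]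
      with y a1 a2 a3 a4
    obtain ⟨-, b1, b2, b3, -⟩ := a1.self_of_nhds
    refine ⟨b3, fun u hu => ?_⟩
    have c1 := hol_mul (a4 u u₀ hu b3).1 a2
    have c2 : ∀ᶠ z in gen {y}, t u z ≠ 0 ∧ s u z / t u z = (lin L (a - b)).g u u₀ z * q z := by
      filter_upwards [a3, gen_of_nhds a1, gen_of_nhds ((isOpen_Uc hL u).eventually_mem hu)]
        with z d1 ⟨d2, d3, d4, d5, d6⟩ d7
      have d8 := fun x => (d2 x _ _ (d7 x) (d5 x)).2.1
      rw [(d3 u d7).2 u₀ d5, (d4 u d7).2 u₀ d5, d6 d1, mul_div_mul_comm]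
      exact ⟨mul_ne_zero (Finset.prod_ne_zero_iff.2 fun x _ => zpow_ne_zero _ (d8 x)) d1,
        congrArg (· * _) ((Finset.prod_div_distrib _ _).symm.trans
          (Finset.prod_congr rfl fun x _ => (zpow_sub₀ (d8 x) _ _).symm))⟩
    exact ⟨Hl.cn_hol c1 (c2.mono fun _ d => d.2), Hl.cn_at c1 (c2.mono fun _ d => d.2),
      Lo.eq_of_gen (b1 u hu).1.continuousAt (hol_mul c1 (b2 u hu).1).continuousAt
        (c2.mono fun z d => (div_eq_iff d.1).1 d.2)⟩
  refine ⟨fun u => Hl.cn n fun z => s u z / t u z, sec_of fun w hw => ?_,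
    eventually_nhdsSet_iff_forall.2 fun w hw => ?_⟩ <;> obtain ⟨u₀, q, h⟩ := key w hw
  · filter_upwards [h, (lbn_lin hL (a - b)).near.filter_mono (nhds_le_nhdsSet hw)]
      with y a1 a2 i hi
    refine ⟨(a1.2 i hi).1, fun j hj => ((a1.2 i hi).2.1.trans ?_).trans
      (congrArg _ (a1.2 j hj).2.1.symm)⟩
    rw [← mul_assoc, (a2 i j hi hj).2.2 u₀ a1.1]
  · filter_upwards [h] with y a1 u hu
    rw [(a1.2 u hu).2.1, ← (a1.2 u hu).2.2]

end Vale.Agent.P277Z.Ex
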