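import Vale.Agent.P277Z.Ex.Sk
import Vale.Agent.P277Z.Luf.Hol

/-!
# P277, block EX: the fixed components are rigid, the moving part is ample up to them
-/

open scoped Manifold ContDiff Topology
open Vale.Agent.P272.K Vale.Agent.P285.H281.FD Vale.Agent.P277 Set Filter Asymptotics
open Vale.Agent.P277.HD (pull)
open Vale.Agent.P277Z.Slc (lin)
open Vale.Agent.P277Z.Brg (SecN LBN)
open Vale.Agent.P277Z.Val (Lg)

noncomputable section

namespace Vale.Agent.P277Z.Ex

namespace EmbH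

section gen

variable {n : ℕ} {W α : Type} [TopologicalSpace W] [ChartedSpace (Cm n) W] [Fintype α]
  {L : α → Bd W} {F : Set W} {a b : α → ℤ} {s t : Ix L → W → ℂ}

theorem s_cast (hs : SecN n F (lin L a) s) (h : a = b) : SecN n F (lin L b) s := h ▸ hs

theorem s_iff : SecN n F (lin L a) s ↔ ∀ᶠ y in 𝓝ˢ F, ∀ i : Ix L, y ∈ Uc L i → Hol n (s i) y ∧
    ∀ j : Ix L, y ∈ Uc L j → s i y = (∏ x, (L x).g (i x) (j x) y ^ a x) * s j y := Iff.rfl

theorem s_mul (hL : ∀ a, IsLB n (L a)) (hs : SecN n F (lin L a) s) (ht : SecN n F (lin L b) t) :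
    SecN n F (lin L (a + b)) fun u w => s u w * t u w := by
  refine s_iff.2 ?_
  filter_upwards [s_iff.1 hs, s_iff.1 ht] with y h1 h2 i hi
  refine ⟨(h1 i hi).1.mul (h2 i hi).1, fun j hj => ?_⟩
  rw [(h1 i hi).2 j hj, (h2 i hi).2 j hj, mul_mul_mul_comm, ← Finset.prod_mul_distrib]
  exact congrArg (· * _) (Finset.prod_congr rfl fun x _ =>
    (zpow_add₀ ((hL x).ne_zero _ _ _ (hi x) (hj x)) _ _).symm)

theorem s_one : SecN n F (lin L 0) fun _ _ => 1 :=
  s_iff.2 (Eventually.of_forall fun _ _ _ => ⟨hol_const _ _, fun _ _ => by simp⟩)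

theorem s_prod (hL : ∀ a, IsLB n (L a)) {ι : Type} (S : Finset ι) {a : ι → α → ℤ}
    {s : ι → Ix L → W → ℂ} (hs : ∀ i ∈ S, SecN n F (lin L (a i)) (s i)) :
    SecN n F (lin L (∑ i ∈ S, a i)) fun u w => ∏ i ∈ S, s i u w := by
  classical
  refine s_iff.2 ?_
  induction S using Finset.induction_on with
  | empty => simpa only [Finset.sum_empty, Finset.prod_empty] using s_iff.1 s_one
  | insert i S hi ih =>
    simp only [Finset.sum_insert hi, Finset.prod_insert hi]
    exact s_iff.1 (s_mul hL (hs i (Finset.mem_insert_self _ _))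
      (s_iff.2 (ih fun j hj => hs j (Finset.mem_insert_of_mem hj))))

theorem s_pow (hL : ∀ a, IsLB n (L a)) (hs : SecN n F (lin L a) s) (k : ℕ) :
    SecN n F (lin L (k • a)) fun u w => s u w ^ k := by
  refine s_iff.2 ?_
  simpa only [Finset.prod_const, Finset.card_range] using
    s_iff.1 (s_cast (b := k • a) (s_prod hL (Finset.range k) fun _ _ => hs) (by simp))

theorem s_at (hs : SecN n F (lin L a) s) {w : W} (hw : w ∈ F) {u : Ix L} (hu : w ∈ Uc L u) :
    ContinuousAt (s u) w := ((hs.self_of_nhdsSet w hw) u hu).1.continuousAt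

omit [Fintype α] in
theorem lbn (hL : ∀ a, IsLB n (L a)) (a : α) : LBN n F (L a) :=
  ⟨(hL a).isOpen, fun x _ => (hL a).cover x, Eventually.of_forall fun y i j hi hj =>
    ⟨fun e he => ((hL a).holo i j e y he hi hj).analyticAt, (hL a).ne_zero i j y hi hj,
      fun k hk => (hL a).cocycle i j k y hi hj hk⟩⟩

theorem open_Uc (hL : ∀ a, IsLB n (L a)) (u : Ix L) : IsOpen (Uc L u) := by
  rw [show Uc L u = ⋂ a, (L a).U (u a) from Set.ext fun _ => mem_iInter.symm]
  exact isOpen_iInter_of_finite fun a => (hL a).isOpen (u a)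

theorem lb_lin (hL : ∀ a, IsLB n (L a)) (a : α → ℤ) : IsLB n (lin L a) :=
  ⟨open_Uc hL, fun x => ⟨fun i => ((hL i).cover x).choose, fun i => ((hL i).cover x).choose_spec⟩,
    fun i j e x he hi hj => (Finset.analyticAt_fun_prod _ fun b _ =>
      ((hL b).holo _ _ e x he (hi b) (hj b)).analyticAt.fun_zpow (by
        rw [e.left_inv he.2]; exact (hL b).ne_zero _ _ x (hi b) (hj b))).contDiffAt,
    fun i j x hi hj => Finset.prod_ne_zero_iff.2 fun b _ =>
      zpow_ne_zero _ ((hL b).ne_zero _ _ x (hi b) (hj b)), fun i j k x hi hj hk => by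
      refine Finset.prod_mul_distrib.symm.trans (Finset.prod_congr rfl fun b _ => ?_)
      rw [← mul_zpow, (hL b).cocycle _ _ _ x (hi b) (hj b) (hk b)]⟩

end gen

theorem amp_ix {X Z : CSp} {f : X.pt → Z.pt} {L L' : Bd X.pt} (φ : L'.ι → L.ι)
    (hU : ∀ i, ∀ x ∈ L'.U i, x ∈ L.U (φ i))
    (hg : ∀ i j x, L.g (φ i) (φ j) x = L'.g i j x) (h : RelAmple X Z f L) : RelAmple X Z f L' := by
  intro z
  obtain ⟨V, k, N, s, h1, h2, h3, h4, h5, h6, h7⟩ := h z
  refine ⟨V, k, N, fun l i => s l (φ i), h1, h2, h3, fun l => ⟨fun i x a b =>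
    (h4 l).holo _ x a (hU i x b), fun i j x a b c => ?_⟩, fun x i a b => h5 x _ a (hU i x b),
    fun x x' i j a b c d e => h6 x x' _ _ a b c (hU i x d) (hU j x' e),
    fun x i l a b => h7 x _ l a (hU i x b)⟩
  exact ((h4 l).change _ _ x a (hU i x b) (hU j x c)).trans
    (congrArg (fun w => w ^ k * s l (φ j) x) (hg i j x))

variable {V : Lg} {α : Type} (D : Fm V α)

theorem dn_add (c c' : Fin V.r → ℕ) : D.dn (c + c') = D.dn c + D.dn c' := by
  simp [Fm.dn, Fm.dv, Pi.single_add, Finset.sum_add_distrib]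

/-- the class of an effective divisor is additive -/
def dnH : (Fin V.r → ℕ) →+ α → ℤ where
  toFun := D.dn
  map_zero' := by simp [Fm.dn, Fm.dv]
  map_add' := dn_add D

theorem dn_sum {q : ℕ} (F : Fin q → Fin V.r → ℕ) (k : ℕ) :
    D.dn (∑ i, k • F i) = k • ∑ i, D.dn (F i) := by
  rw [← Finset.smul_sum]
  exact (map_nsmul (dnH D) k _).trans (congrArg _ (map_sum (dnH D) F _))

theorem mon_ne {c : Fin V.r → ℕ} {u : Ix D.N} {w : V.W} (hu : w ∈ Uc D.N u)
    (h : ∀ l, w ∈ V.G l → c l = 0) : D.mon c u w ≠ 0 :=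
  Finset.prod_ne_zero_iff.2 fun l _ h0 =>
    (pow_eq_zero_iff'.1 h0).2 (h l (((D.div l).leq _ _ (hu _)).mem.1 (pow_eq_zero_iff'.1 h0).1))

theorem mon_mul {q : ℕ} (F : Fin q → Fin V.r → ℕ) (j m : ℕ) (u : Ix D.N) (w : V.W) :
    D.mon (∑ i, (j * m) • F i) u w = D.mon (∑ i, m • F i) u w ^ j := by
  simp only [Fm.mon, ← Finset.prod_pow, ← pow_mul, ← Finset.smul_sum, Pi.smul_apply, smul_eq_mul]
  exact Finset.prod_congr rfl fun l _ => by ring_nf

variable [Fintype α]

theorem s_mon (F : Set V.W) (c : Fin V.r → ℕ) : SecN 4 F (lin D.N (D.dn c)) (D.mon c) := by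
  classical
  have h1 : ∀ l, SecN 4 F (lin D.N (Pi.single (D.o l) 1)) fun u => D.σ l (u (D.o l)) := fun l =>
    s_iff.2 (Eventually.of_forall fun y i hi => ⟨((D.div l).leq _ _ (hi _)).hol, fun j hj => by
      rw [(D.div l).sec.change _ _ y (hi _) (hj _),
        Finset.prod_eq_single (D.o l) (fun b _ hb => by simp [hb]) (by simp)]
      simp⟩)
  refine s_cast (s_prod D.lb Finset.univ fun l _ => s_pow D.lb (h1 l) (c l)) ?_
  ext a
  simp only [Fm.dn, Fm.dv, Finset.sum_apply, Pi.smul_apply, Pi.single_apply]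
  exact Finset.sum_congr rfl fun l _ => by split_ifs <;> simp

end EmbH

open EmbH

theorem contr : CONTR := by
  classical
  rintro V X α _ D p q e F h l ⟨i₀, hi⟩ w hw k ⟨s, hs, hs0⟩
  choose τ h1 h2 using fun i => h.free i w
  obtain ⟨c, hc⟩ : ∃ c, ∑ i, (k + 1) • F i = c + Pi.single l 1 := by
    refine ⟨∑ i, (k + 1) • F i - Pi.single l 1, (tsub_add_cancel_of_le fun j => ?_).symm⟩
    by_cases a : j = l
    · subst a
      rw [Pi.single_eq_same, Finset.sum_apply]
      exact le_trans (Nat.one_le_iff_ne_zero.2 (by simpa using hi))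
        (Finset.single_le_sum (f := fun i => ((k + 1) • F i) j) (fun _ _ => Nat.zero_le _)
          (Finset.mem_univ i₀))
    · simp [a]
  have h3 := s_mul D.lb hs (s_prod D.lb Finset.univ fun i _ => h1 i)
  have h4 := s_cast (b := cb e fun _ => k + 1) (s_mul D.lb h3 (s_mon D _ c)) (by
    have := dn_sum D F (k + 1)
    rw [hc, dn_add] at this
    rw [cb, ← Finset.smul_sum, Finset.sum_sub_distrib, eq_sub_of_add_eq this]
    simp only [add_smul, one_smul, smul_sub]
    abel)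
  obtain ⟨u, hu⟩ := (lb_lin D.lb 0).cover w
  obtain ⟨C, h5⟩ := (h.fix _ _ _ h4 w rfl u hu).bound
  have h6 : ‖s u w * ∏ i, τ i u w‖ ≤ C * ‖D.σ l (u (D.o l)) w‖ := by
    refine ge_of_tendsto_of_frequently (f := fun y => C * ‖D.σ l (u (D.o l)) y‖ -
      ‖s u y * ∏ i, τ i u y‖) (((continuousAt_const.mul ((D.div l).leq _ _
        (hu _)).hol.continuousAt.norm).sub (s_at h3 rfl hu).norm)) ?_ |> sub_nonneg.1
    refine ((V.freqE w).and_eventually (h5.and ((open_Uc D.lb u).eventually_mem hu))).mono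
      fun y ⟨a1, a2, a3⟩ => sub_nonneg.2 (le_of_mul_le_mul_right ?_ (norm_pos_iff.2
        (mon_ne D (c := c) a3 fun j b => (a1 (mem_iUnion.2 ⟨j, b⟩)).elim)))
    have : D.mon (c + Pi.single l 1) u y = D.σ l (u (D.o l)) y * D.mon c u y := by
      simp only [Fm.mon, Pi.add_apply, pow_add, Finset.prod_mul_distrib]
      rw [Finset.prod_eq_single (f := fun j => D.σ j (u (D.o j)) y ^ (Pi.single l 1 : _ → ℕ) j) l
        (fun b _ hb => by simp [hb]) (by simp), Pi.single_eq_same, pow_one, mul_comm]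
    rwa [hc, this, norm_mul, norm_mul (D.σ _ _ _), ← mul_assoc] at a2
  rw [((D.div l).leq _ _ (hu _)).mem.2 hw, norm_zero, mul_zero, norm_le_zero_iff] at h6
  exact mul_ne_zero (hs0 u hu) (Finset.prod_ne_zero_iff.2 fun i _ => h2 i u hu) h6

theorem emb_of (hS : DSC) (hD : DIV) (hA : AEX) (hK : KODL) (hC : Val.StAmpC) : EMB := by
  classical
  intro V' V π α β _ _ D h E hπ χ' exc₁ s R X p q e F m θ hU hp hM hθ hP
  set D' := D.up π h E
  have : SecondCountableTopology V'.W := ChartedSpace.secondCountable_of_sigmaCompact (Cm 4) V'.W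
  have hS := fun F a => (hS V' V π α β D h E hπ F a).1
  obtain ⟨k1, k2⟩ := hK 4 V.W X p α D.N _ hp D.lb hP
  have h1 : Bo univ D'.N (fun u y => D.mon θ (fun i => u (.inl i)) (π y))
      (D'.mon (∑ i, m • F i)) := by
    intro w _ u hu
    obtain ⟨j, hj, t, ht, ht0⟩ := k2 (π w)
    have a1 := s_cast (b := cb (fun i => pb β (e i)) fun _ => j * m)
      (hS _ _ _ (s_mul D.lb ht (s_pow D.lb (s_mon D _ θ) j))) (by
        ext (a | a) <;> simp [pb, cb, Finset.mul_sum, mul_sub, mul_assoc])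
    have a2 := hM.fix _ (p (π w)) _ a1 w rfl u hu
    have a4 := norm_pos_iff.2 (ht0 _ fun i => hu (.inl i))
    have a3 : (fun _ => (1 : ℂ)) =O[𝓝 w] fun y => t (fun i => u (.inl i)) (π y) :=
      (isBigO_const_left_iff_pos_le_norm one_ne_zero).2 ⟨_, half_pos a4,
        ((s_at (hS _ _ _ ht) rfl hu).norm.eventually (le_mem_nhds (half_lt_self a4)))⟩
    refine IsBigO.of_pow (n := j) (by omega) ?_
    exact ((a3.mul (isBigO_refl _ _)).trans a2).congr (fun y => one_mul _)
      fun y => mon_mul D' F j m u y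
  obtain ⟨th, h2, h3⟩ := hD 4 V'.W univ _ D'.N _ _ _ _ (lbn D'.lb) (hS univ _ _ (s_mon D _ θ))
    (s_mon D' _ _) (fun w _ u hu a => by
      obtain ⟨y, b1, b2, b3⟩ :=
        ((V'.freqE w).and_eventually (a.and ((open_Uc D'.lb u).eventually_mem hu))).exists
      exact mon_ne D' b3 (fun j b => (b1 (mem_iUnion.2 ⟨j, b⟩)).elim) b2) h1
  obtain ⟨c, c1, c2⟩ := hA V' V.X π exc₁ β E hU.normal hU.blw.res
  have hl := lb_lin D.lb (m • ∑ i, e i - D.dn θ)
  obtain ⟨N, hN⟩ := hC V' V.X X π p _ _ ⟨hπ.cont, hπ.hol⟩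
    (fun x => ⟨hp.cont.continuousAt, hp.hol x⟩) (lb_lin E.lb _)
    ⟨hl.isOpen, hl.cover, fun i j x hi hj e he => (hl.holo i j e x he hi hj).analyticAt,
      hl.ne_zero, hl.cocycle⟩ (hK 4 V'.W V.X π β E.N _ hπ.toHolTo E.lb c2).1 k1
  have h4 := (s_mul D'.lb (s_pow D'.lb h2 N) (s_mon D' _ c)).self_of_nhdsSet
  refine ⟨N * m, _, _, ⟨fun i e x he hi => ((h4 x trivial i hi).1 e he).contDiffAt,
    fun i j x hi hj => (h4 x trivial i hi).2 j hj⟩, fun w hw u hu => mul_ne_zero
      (pow_ne_zero _ fun a => ?_) (mon_ne D' hu fun l b => by_contra fun d => hw (mem_biUnion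
        (Finset.mem_union_left _ ((c1 l).1 (Nat.pos_of_ne_zero d))) b)), ?_⟩
  · have b := h3.self_of_nhdsSet w trivial u hu
    rw [a, zero_mul] at b
    exact mon_ne D (fun i => hu (.inl i)) (fun l d => hθ l fun f =>
      hw ((hU.mem w).1 (mem_biUnion f d))) b
  · have b : (N * m) • ∑ i, (pb β (e i) - D'.dn (F i)) -
        (N • (pb β (D.dn θ) - D'.dn (∑ i, m • F i)) + D'.dn c) =
        Sum.elim (N • (m • ∑ i, e i - D.dn θ)) (-E.dn c) := by
      have d : D'.dn c = Sum.elim (0 : α → ℤ) (E.dn c) := by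
        ext (a | a) <;> simp [D', Fm.dn, Fm.dv, Fm.up, Pi.single_apply]
      rw [dn_sum, d, Finset.sum_sub_distrib]
      generalize ∑ i, D'.dn (F i) = z
      ext (a | a) <;> simp [pb] <;> ring
    rw [b]
    refine amp_ix (L := (lin E.N (-E.dn c)).mul ((pull π (lin D.N (m • ∑ i, e i - D.dn θ))).pow N))
      (fun u => (fun i => u (.inr i), fun i => u (.inl i)))
      (fun u x a => ?_) (fun u v x => ?_) (hN N le_rfl)
    · exact And.intro (fun i => a (.inr i)) fun i => a (.inl i)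
    refine (mul_comm _ _).trans (Eq.trans ?_ (Fintype.prod_sum_type _).symm)
    refine congrArg (· * _) ((Finset.prod_pow _ _ _).symm.trans (Finset.prod_congr rfl fun a _ => ?_))
    rw [← zpow_natCast, ← zpow_mul, mul_comm]
    rfl

end Vale.Agent.P277Z.Ex
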