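import Vale.Agent.P277Z.Ex.Sk
import Vale.Agent.P277Z.Val.Jz
import Vale.Agent.P277Z.Glc.Md

/-!
# P277, block EX: base ideals and their principalization
-/

open scoped Manifold ContDiff Topology
open Vale.Agent.P272.K Vale.Agent.P285.H281.FD Vale.Agent.P277 Set Filter Asymptotics
open Vale.Agent.P277.H60.Z (thinM_iff)
open Vale.Agent.P277Z.Slc (lin)
open Vale.Agent.P277Z.Brg (SecN)
open Vale.Agent.P277Z.Val (Lg Res)

noncomputable section

namespace Vale.Agent.P277Z.Ex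

namespace Fmb

variable {V : Lg} {α : Type} [Fintype α] {L : α → Bd V.W} {q m m' : ℕ} {e : Fin q → α → ℤ}
  {F : Set V.W} {w : V.W} {u u' : Ix L} {f : Fin q → Fin m → Ix L → V.W → ℂ}
  {f' : Fin q → Fin m' → Ix L → V.W → ℂ}

theorem open_Uc (hL : ∀ a, IsLB 4 (L a)) (u : Ix L) : IsOpen (Uc L u) := by
  simp only [Uc, ofPred_forall]
  exact isOpen_iInter_of_finite fun a => (hL a).isOpen _

omit [Fintype α] in
theorem cb_single (i : Fin q) (k : ℕ) : cb e (Pi.single i k) = k • e i := by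
  rw [cb, Finset.sum_eq_single i (fun j _ hj => by simp [hj]) (by simp), Pi.single_eq_same]

theorem le (h : Gen 4 F L e f) {i : Fin q} {k : ℕ} {s : Ix L → V.W → ℂ}
    (hs : SecN 4 F (lin L (k • e i)) s) (hw : w ∈ F) (hu : w ∈ Uc L u) :
    s u =O[𝓝 w] fun y => nm (f i) u y ^ k := by
  refine (h.le (Pi.single i k) s (by rwa [cb_single]) w hw u hu).congr_right fun y => ?_
  exact (Finset.prod_eq_single i (fun j _ hj => by simp [hj]) (by simp)).trans (by simp)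

theorem big (hL : ∀ a, IsLB 4 (L a)) (h : Gen 4 F L e f) (h' : Gen 4 F L e f') (i : Fin q)
    (hw : w ∈ F) (hu : w ∈ Uc L u) (hu' : w ∈ Uc L u') :
    ∃ C, 0 < C ∧ ∀ᶠ y in 𝓝 w, nm (f i) u y ≤ C * nm (f' i) u' y := by
  have h1 : ContinuousAt ((lin L (e i)).g u u') w :=
    tendsto_finsetProd _ fun a _ => ContinuousAt.zpow₀ (Hol.continuousAt' (n := 4) fun c hc =>
      ((hL a).holo _ _ c w hc (hu a) (hu' a)).analyticAt) _
      (Or.inl ((hL a).ne_zero _ _ w (hu a) (hu' a)))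
  have h2 : nm (f i) u =O[𝓝 w] nm (f' i) u' := IsBigO.fun_sum fun j _ => by
    have h3 := (h1.isBigO_one ℝ).norm_left.mul
      (le h' (k := 1) (by rw [one_smul]; exact h.sec i j) hw hu').norm_left
    refine h3.congr' ?_ (.of_forall fun y => by simp)
    filter_upwards [(h.sec i j).filter_mono (nhds_le_nhdsSet hw), (open_Uc hL u).mem_nhds hu,
      (open_Uc hL u').mem_nhds hu'] with y a b c using by rw [(a u b).2 u' c, norm_mul]
  obtain ⟨C, hC, h4⟩ := h2.exists_pos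
  refine ⟨C, hC, h4.bound.mono fun y a => (le_abs_self _).trans (a.trans_eq ?_)⟩
  exact congrArg _ (Real.norm_of_nonneg (Finset.sum_nonneg fun _ _ => norm_nonneg _))

theorem hom {V' : Lg} {π : V'.W → V.W} {exc : Finset (Fin V'.r)} (hX : IsNormal 4 V.X)
    (h : Res V' V.X π exc) (hp : ∀ y, y ∈ V'.E ↔ π y ∈ V.E) : Val.Hom V' V π := by
  have h0 := Glc.MdP.hom0 h fun y => (hp y).2
  have hE := Val.Lf.sub_E V' exc
  refine ⟨h0.cont, h0.hol, h.surj, h0.pre, fun y y' hy => h.inj y y' fun k => hy (hE k), h0.det,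
    fun k => Or.inl ?_, fun W hW γ hγ hd => ?_⟩
  · rintro _ ⟨y, hy, rfl⟩
    exact (hp y).1 (mem_iUnion.2 ⟨k, hy⟩)
  · obtain ⟨Ω, g, h1, h2, h3⟩ := Val.stResLifts V' V.X π exc hX h W hW γ hγ
      (hd.trans (closure_mono fun w ⟨hw, y, hy, e⟩ => ⟨hw, y, fun k => hy (hE k), e⟩))
    refine ⟨Ω, g, h1, h2, Subset.trans ?_ h3⟩
    rintro w ⟨a1, a2, a3⟩
    refine ⟨a1, a2, fun ⟨τ, b1, b2, b3⟩ => a3 ⟨τ, b1, b2, b3.mono ?_⟩⟩
    rintro w' b4 ⟨y, hy, e⟩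
    have hyO : y ∉ ⋃ l ∈ exc, V'.G l := fun k => hy (hE k)
    rw [h.inj y _ hyO ((b4 ⟨y, hyO, e⟩).2.trans e.symm)]
    exact ⟨hy, e⟩

end Fmb

open Fmb

/-- ROW FAMB -/
theorem famb : FAMB := by
  intro V X p α _ L q e hp hL hM
  choose m f h using hM
  choose c hc using fun w a => (hL a).cover w
  set U : X.pt → Set X.pt := fun x => interior {x' | Gen 4 (p ⁻¹' {x'}) L e (f x)}
  have hU : ∀ x w, p w ∈ U x → Gen 4 (p ⁻¹' {p w}) L e (f x) := fun x w a =>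
    interior_subset (s := {x' | Gen 4 (p ⁻¹' {x'}) L e (f x)}) a
  have hc' : ∀ w, w ∈ p ⁻¹' U (p w) ∩ Uc L (c w) := fun w =>
    ⟨mem_interior_iff_mem_nhds.2 (h _), hc w⟩
  refine ⟨fun i => ⟨X.pt × Ix L, fun γ => p ⁻¹' U γ.1 ∩ Uc L γ.2, fun γ => m γ.1,
    fun γ j => f γ.1 i j γ.2, fun γ => (isOpen_interior.preimage hp).inter (open_Uc hL _),
    fun w => ⟨(p w, c w), hc' w⟩,
    fun γ j w hw => (((hU _ w hw.1).sec i j).self_of_nhdsSet w rfl _ hw.2).1,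
    fun γ γ' w hw hw' => ?_⟩, fun i γ w hw => ⟨γ.2, f γ.1, hw.2, hU _ w hw.1, fun _ => rfl⟩,
    fun i w => ⟨?_, fun h0 => ⟨(p w, c w), hc' w, fun j => by_contra fun h1 => h0 1 le_rfl
      ⟨f (p w) i j, by rw [one_smul]; exact (hU _ w (hc' w).1).sec i j, fun u hu k => h1 ?_⟩⟩⟩⟩
  · obtain ⟨C, a, b⟩ := big hL (hU _ w hw.1) (hU _ w hw'.1) i rfl hw.2 hw'.2
    obtain ⟨C', a', b'⟩ := big hL (hU _ w hw'.1) (hU _ w hw.1) i rfl hw'.2 hw.2
    refine ⟨C + C', add_pos a a', (b.and b').mono fun y k => ⟨k.1.trans ?_, k.2.trans ?_⟩⟩ <;>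
      exact mul_le_mul_of_nonneg_right (by linarith) (Finset.sum_nonneg fun _ _ => norm_nonneg _)
  · rintro ⟨γ, hw, h0⟩ k hk ⟨s, h1, h2⟩
    refine h2 _ hw.2 ((le (hU _ w hw.1) h1 rfl hw.2).eq_zero_imp.self_of_nhds ?_)
    exact pow_eq_zero_iff (by omega) |>.2 (Finset.sum_eq_zero fun j _ => norm_eq_zero.2 (h0 j))
  · refine ((((hU _ w (hc' w).1).sec i j).self_of_nhdsSet w rfl _ (hc w)).2 u hu).trans ?_
    rw [k, mul_zero]

/-- ROW PRB -/
theorem prb_of (hP : GH.StPrin) (hK : Val.StKB) : PRB := by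
  intro V χ hχ hV R q I hI
  have hE := Val.Lf.sub_E V R
  obtain ⟨V', π, exc, h, h1, h2, h3⟩ := hP V hV _ I fun j =>
    (Val.Lf.dense_compl V).mono (compl_subset_compl.2 ((hI j).trans_subset hE))
  simp only [hI, exists_const] at h1 h2
  have hX := Val.nx V hV
  have hp : ∀ y, y ∈ V'.E ↔ π y ∈ V.E := fun y => (h1 y).trans (or_iff_left_of_imp fun a => hE a)
  have H := hom hX h hp
  obtain ⟨s, hs⟩ := Val.stStr V' V π H
  obtain ⟨χ', hχ'⟩ := hK V' V π exc χ hχ h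
  choose F hF using h3
  have hm : ∀ y, π y ∈ ⋃ l ∈ R, V.G l ↔ y ∈ ⋃ k ∈ exc ∪ R.image s, V'.G k := fun y => by
    simp only [Finset.set_biUnion_union, Finset.set_biUnion_finset_image, mem_union]
    refine ⟨fun a => or_iff_not_imp_left.2 fun b => ?_, fun a => a.elim (fun b => ?_) fun b => ?_⟩
    · obtain ⟨l, c, d⟩ := mem_iUnion₂.1 a
      obtain ⟨y', k, k'⟩ := (hs.img l).symm.subset d
      exact mem_iUnion₂.2 ⟨l, c, h.inj y y' b k' ▸ k⟩
    · obtain ⟨l, c, d⟩ := mem_iUnion₂.1 b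
      exact h2 l c y d
    · obtain ⟨l, c, d⟩ := mem_iUnion₂.1 b
      exact mem_iUnion₂.2 ⟨l, c, (hs.img l).subset ⟨y, d, rfl⟩⟩
  refine ⟨V', π, χ', exc, s, F, ⟨⟨hχ', H, h, fun k hk => ?_, fun y a => (hp y).2 (hE a)⟩, hX, hs,
    fun k => (Val.exc_iff V' V.X π exc h k).trans ⟨?_, fun a => thinM_iff.1 (hs.exc k a)⟩, hp, hm,
    fun k => ⟨fun a => ?_, fun a y b => (hm y).2 (mem_iUnion₂.2 ⟨k, a, b⟩)⟩,
    fun L => Glc.HolM.lb ⟨h.cont, h.hol⟩⟩, hF⟩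
  · rintro _ ⟨y, hy, rfl⟩
    exact h2 k hk y hy
  · rintro a ⟨l, rfl⟩
    exact Val.U.not_thin_G V l (thinM_iff.2 (hs.img l ▸ a))
  · obtain ⟨y₀, hy₀⟩ := (V'.conn k).nonempty
    obtain ⟨y, b, c⟩ := (Lg.freq1 hy₀).exists
    obtain ⟨l, d, d'⟩ := mem_iUnion₂.1 ((hm y).1 (a y b))
    exact by_contra fun k' => c l (fun e => k' (e ▸ d)) d'

end Vale.Agent.P277Z.Ex
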