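import Vale.Agent.P277Z.Ex.Defs
import Vale.Agent.P277Z.Hl.Rz
import Vale.Agent.P277Z.Hl.Desc
import Vale.Agent.P277Z.Hl.Prin

/-!
# P277, block EX: generation is an open property
-/

set_option linter.unusedSectionVars false

open scoped Manifold ContDiff Topology
open Vale.Agent.P272.K Vale.Agent.P285.H281.FD Vale.Agent.P277 Set Filter Asymptotics
open Vale.Agent.P277Z.Coh (LBOn)
open Vale.Agent.P277Z.Slc (lin)
open Vale.Agent.P277Z.Brg (SecN)
open Vale.Agent.P277Z.Pj (Prp Prj)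
open Vale.Agent.P277Z.Lo

noncomputable section

namespace Vale.Agent.P277Z.Ex

namespace Opn

variable {d N : ℕ} {W : Type} [TopologicalSpace W] [T2Space W] [ChartedSpace (Cm d) W]
  [IsManifold 𝓘(ℂ, Cm d) ω W] {O : Set W} {t : W → Cm N} {Ω : Set (Cm N)} {z : Cm N}

theorem tcont (h : Prp d O t Ω) {w : W} (hw : w ∈ O) : ContinuousAt t w :=
  continuousAt_pi.2 fun i => Pj.holF_cont (h.hol w hw i)

theorem tube (h : Prp d O t Ω) (hz : z ∈ Ω) {P : W → Prop}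
    (hP : ∀ᶠ w in 𝓝ˢ (O ∩ t ⁻¹' {z}), P w) :
    ∀ᶠ z' in 𝓝 z, ∀ᶠ w in 𝓝ˢ (O ∩ t ⁻¹' {z'}), P w := by
  obtain ⟨K, h1, h2, h3⟩ := local_compact_nhds (h.isOpen'.mem_nhds hz)
  have h4 := (((h.proper K h2 h3).diff (isOpen_interior (s := {w | P w}))).image_of_continuousOn
    fun w hw => (tcont h hw.1.1).continuousWithinAt).isClosed
  have h5 : z ∉ t '' ((O ∩ t ⁻¹' K) \ interior {w | P w}) := by
    rintro ⟨w, hw, e⟩
    exact hw.2 (mem_interior_iff_mem_nhds.2 (eventually_nhdsSet_iff_forall.1 hP w ⟨hw.1.1, e⟩))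
  filter_upwards [h1, h4.isOpen_compl.mem_nhds h5] with z' h6 h7
  refine eventually_nhdsSet_iff_forall.2 fun w hw => mem_interior_iff_mem_nhds.1 ?_
  by_contra hc
  exact h7 ⟨w, ⟨⟨hw.1, show t w ∈ K from (show t w = z' from hw.2) ▸ h6⟩, hc⟩, hw.2⟩

theorem bigO_compact {Y E : Type} [TopologicalSpace Y] [SeminormedAddCommGroup E] {K : Set Y}
    (hK : IsCompact K) {f : Y → ℂ} {g : Y → E} (h : ∀ y ∈ K, f =O[𝓝 y] g) : f =O[𝓝ˢ K] g := by
  refine hK.induction_on (p := fun S => f =O[𝓝ˢ S] g) (by simp)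
    (fun _ _ h1 h2 => h2.mono (nhdsSet_mono h1))
    (fun _ _ h1 h2 => by rw [nhdsSet_union]; exact h1.sup h2) fun y hy => ?_
  obtain ⟨C, hC⟩ := (h y hy).bound
  refine ⟨interior {y | ‖f y‖ ≤ C * ‖g y‖}, mem_nhdsWithin_of_mem_nhds
    (interior_mem_nhds.2 hC), .of_bound C ?_⟩
  rw [isOpen_interior.nhdsSet_eq]
  exact eventually_principal.2 fun y k => show y ∈ {y | ‖f y‖ ≤ C * ‖g y‖} from interior_subset k

theorem bigO_near {Y E : Type} [TopologicalSpace Y] [Norm E] {y : Y} {f : Y → ℂ} {g : Y → E}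
    (h : f =O[𝓝 y] g) : ∀ᶠ y' in 𝓝 y, f =O[𝓝 y'] g :=
  let ⟨C, hC⟩ := h.bound
  hC.eventually_nhds.mono fun _ => .of_bound C

theorem nz_prod {ι : Type} (s : Finset ι) {a : ι → W → ℂ} {w : W} (h : ∀ i ∈ s, Hol d (a i) w)
    (h0 : ∀ i ∈ s, Nz (a i) w) : Nz (fun y => ∏ i ∈ s, a i y) w :=
  not_zero_of_gen (((eventually_all_finset s).2 fun i hi =>
    hol_gen_ne (h i hi) (h0 i hi)).mono fun _ k => Finset.prod_ne_zero_iff.2 k)

variable {α : Type} [Fintype α] {L : α → Bd W} {q m : ℕ} {e : Fin q → α → ℤ}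
  {f : Fin q → Fin m → Ix L → W → ℂ}

/-- `s` is a section at `w` -/
def Sc (d : ℕ) [ChartedSpace (Cm d) W] (L : α → Bd W) (a : α → ℤ) (s : Ix L → W → ℂ) (w : W) :
    Prop :=
  ∀ u, w ∈ Uc L u → Hol d (s u) w ∧ ∀ u', w ∈ Uc L u' → s u w = (lin L a).g u u' w * s u' w

theorem uc_open (hL : ∀ a, LBOn d O (L a)) (u : Ix L) : IsOpen (Uc L u) := by
  rw [Uc, ofPred_forall]
  exact isOpen_iInter_of_finite fun a => (hL a).isOpen _

theorem uc_cover (hL : ∀ a, LBOn d O (L a)) {w : W} (hw : w ∈ O) : ∃ u, w ∈ Uc L u := by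
  choose u hu using fun a => (hL a).cover w hw
  exact ⟨u, hu⟩

theorem g_ne (hL : ∀ a, LBOn d O (L a)) (a : α → ℤ) {u u' : Ix L} {w : W} (hw : w ∈ O)
    (h : w ∈ Uc L u) (h' : w ∈ Uc L u') : (lin L a).g u u' w ≠ 0 := by
  change ∏ b, (L b).g (u b) (u' b) w ^ a b ≠ 0
  exact Finset.prod_ne_zero_iff.2 fun b _ => zpow_ne_zero _ ((hL b).ne_zero _ _ w hw (h b) (h' b))

theorem g_hol (hL : ∀ a, LBOn d O (L a)) (a : α → ℤ) {u u' : Ix L} {w : W} (hw : w ∈ O)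
    (h : w ∈ Uc L u) (h' : w ∈ Uc L u') : Hol d ((lin L a).g u u') w := by
  change Hol d (fun w => ∏ b, (L b).g (u b) (u' b) w ^ a b) w
  exact hol_prod _ fun b _ c hc => ((hL b).holo _ _ w hw (h b) (h' b) c hc).fun_zpow
    (by rw [c.left_inv hc.2]; exact (hL b).ne_zero _ _ w hw (h b) (h' b))

theorem g_cb (hL : ∀ a, LBOn d O (L a)) (a : Fin q → ℕ) {u u' : Ix L} {w : W} (hw : w ∈ O)
    (h : w ∈ Uc L u) (h' : w ∈ Uc L u') :
    (lin L (cb e a)).g u u' w = ∏ i, (lin L (e i)).g u u' w ^ a i := by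
  change ∏ b, (L b).g (u b) (u' b) w ^ cb e a b = ∏ i, (∏ b, (L b).g (u b) (u' b) w ^ e i b) ^ a i
  simp only [← Finset.prod_pow]
  rw [Finset.prod_comm]
  refine Finset.prod_congr rfl fun b _ => ?_
  have h0 := (hL b).ne_zero _ _ w hw (h b) (h' b)
  rw [cb, Finset.sum_apply]
  induction (Finset.univ : Finset (Fin q)) using Finset.cons_induction with
  | empty => simp
  | cons i s hi ih =>
    rw [Finset.sum_cons, Finset.prod_cons, zpow_add₀ h0, ih, ← zpow_natCast, ← zpow_mul,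
      mul_comm (e i b)]
    simp

/-- the product of the norms -/
def nb (f : Fin q → Fin m → Ix L → W → ℂ) (a : Fin q → ℕ) (u : Ix L) (w : W) : ℝ :=
  ∏ i, nm (f i) u w ^ a i

theorem nb_chg (hL : ∀ a, LBOn d O (L a)) (a : Fin q → ℕ) {u u' : Ix L} {w : W} (hw : w ∈ O)
    (h : w ∈ Uc L u) (h' : w ∈ Uc L u') (hf : ∀ i j, Sc d L (e i) (f i j) w) :
    nb f a u w = ‖(lin L (cb e a)).g u u' w‖ * nb f a u' w := by
  rw [g_cb hL a hw h h', norm_prod, nb, nb, ← Finset.prod_mul_distrib]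
  refine Finset.prod_congr rfl fun i _ => ?_
  rw [norm_pow, ← mul_pow, nm, nm, Finset.mul_sum]
  exact congrArg (· ^ a i) (Finset.sum_congr rfl fun j _ => by rw [(hf i j u h).2 u' h', norm_mul])

theorem nz_gen {F : Set W} (hB : ∀ i, Big d F L (e i)) (hG : Gen d F L e f) {w : W} (hw : w ∈ F)
    {u : Ix L} (hu : w ∈ Uc L u) (i : Fin q) : ∃ j, Nz (f i j u) w := by
  obtain ⟨k, s, h1, h2, h3⟩ := hB i w hw
  have h4 : cb e (Pi.single i k) = k • e i := by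
    rw [cb, Finset.sum_eq_single i (fun j _ hj => by simp [hj]) (by simp), Pi.single_eq_same]
  by_contra hc
  simp only [Nz, not_exists, not_not] at hc
  obtain ⟨C, hC⟩ := (hG.le (Pi.single i k) s (h4 ▸ h2) w hw u hu).bound
  refine h3 u hu ?_
  filter_upwards [hC, eventually_all.2 hc] with y h5 h6
  rw [Finset.prod_eq_zero (Finset.mem_univ i) (by simp [nm, h6, Nat.one_le_iff_ne_zero.1 h1])] at h5
  simpa using h5

/-- the data of the principalization -/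
def dat (hL : ∀ a, LBOn d O (L a)) (f : Fin q → Fin m → Ix L → W → ℂ) (O' : Set W)
    (h1 : IsOpen O') (h2 : O' ⊆ O) (h3 : ∀ w ∈ O', ∀ i j, Sc d L (e i) (f i j) w)
    (h4 : ∀ w ∈ O', ∃ (u : Ix L) (k : Fin q → Fin m), w ∈ Uc L u ∧
      Nz (fun y => ∏ i, f i (k i) u y) w) : Hl.Dat d W where
  O := O'
  isOpen := h1
  Γ := Ix L
  U := Uc L
  opn := uc_open hL
  κ := Fin q → Fin m
  f u k y := ∏ i, f i (k i) u y
  hol u k x hx hu := hol_prod _ fun i _ => (h3 x hx i _ u hu).1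
  chg u u' x hx hu hu' := by
    refine ⟨fun y => ∏ i, (lin L (e i)).g u u' y,
      hol_cont (hol_prod _ fun i _ => g_hol hL (e i) (h2 hx) hu hu'),
      Finset.prod_ne_zero_iff.2 fun i _ => g_ne hL (e i) (h2 hx) hu hu', ?_⟩
    filter_upwards [h1.mem_nhds hx, (uc_open hL u).mem_nhds hu, (uc_open hL u').mem_nhds hu']
      with y a b c k
    rw [← Finset.prod_mul_distrib]
    exact Finset.prod_congr rfl fun i _ => (h3 y a i _ u b).2 u' c
  nz := h4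

section up

variable {Y : Type} [TopologicalSpace Y] [ChartedSpace (Cm d) Y] [IsManifold 𝓘(ℂ, Cm d) ω Y]
  {π : Y → W}

/-- the bound holds near `y` -/
def Rb (π : Y → W) (f : Fin q → Fin m → Ix L → W → ℂ) (a : Fin q → ℕ) (s : Ix L → W → ℂ)
    (y : Y) : Prop :=
  ∀ u, π y ∈ Uc L u → (fun y => s u (π y)) =O[𝓝 y] fun y => nb f a u (π y)

theorem rb_of (hL : ∀ a, LBOn d O (L a)) (hπ : Continuous π) (hO : ∀ y, π y ∈ O)
    (hf : ∀ y i j, Sc d L (e i) (f i j) (π y)) {a : Fin q → ℕ} {s : Ix L → W → ℂ} {y : Y}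
    (hs : ∀ᶠ w in 𝓝 (π y), Sc d L (cb e a) s w) {u : Ix L} (hu : π y ∈ Uc L u)
    (h : (fun y => s u (π y)) =O[𝓝 y] fun y => nb f a u (π y)) : Rb π f a s y := fun u' hu' => by
  obtain ⟨C, hC⟩ := h.bound
  refine .of_bound C ?_
  filter_upwards [hC, hπ.continuousAt.eventually hs,
    hπ.continuousAt.eventually ((uc_open hL u).mem_nhds hu),
    hπ.continuousAt.eventually ((uc_open hL u').mem_nhds hu')] with y' h1 h2 h3 h4
  rw [(h2 u' h4).2 u h3, nb_chg hL a (hO y') h4 h3 (hf y'), norm_mul, norm_mul, norm_norm,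
    mul_left_comm]
  exact mul_le_mul_of_nonneg_left h1 (norm_nonneg _)

/-- the principalization -/
structure Pr (d : ℕ) [ChartedSpace (Cm d) W] [ChartedSpace (Cm d) Y] (O : Set W)
    (e : Fin q → α → ℤ) (f : Fin q → Fin m → Ix L → W → ℂ) (π : Y → W) {r : ℕ}
    (E : Fin r → Set Y) : Prop where
  lb : ∀ a, LBOn d O (L a)
  cont : Continuous π
  hol : ∀ y g, Hol d g (π y) → Hol d (fun z => g (π z)) y
  maps : ∀ y, π y ∈ O
  sec : ∀ y i j, Sc d L (e i) (f i j) (π y)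
  off : ∀ y u, π y ∈ Uc L u → (∀ l, y ∉ E l) → ∃ k : Fin q → Fin m, ∏ i, f i (k i) u (π y) ≠ 0
  dense : Dense {y | ∀ l, y ∉ E l}
  prin : ∀ y u, π y ∈ Uc L u → ∃ k₀ : Fin q → Fin m, ∀ k : Fin q → Fin m,
    Dvd d (fun z => ∏ i, f i (k₀ i) u (π z)) (fun z => ∏ i, f i (k i) u (π z)) y

variable {r : ℕ} {E : Fin r → Set Y}

theorem Pr.rb (h : Pr d O e f π E) {a : Fin q → ℕ} {s : Ix L → W → ℂ} {y : Y}
    (hs : ∀ᶠ w in 𝓝 (π y), Sc d L (cb e a) s w) {u : Ix L} (hu : π y ∈ Uc L u)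
    (h1 : (fun y => s u (π y)) =O[𝓝 y] fun y => nb f a u (π y)) : Rb π f a s y :=
  rb_of h.lb h.cont h.maps h.sec hs hu h1

theorem Pr.loc (h : Pr d O e f π E) (y₀ : Y) : ∃ (u : Ix L) (D : (Fin q → ℕ) → Y → ℂ),
    ∀ᶠ y in 𝓝 y₀, π y ∈ Uc L u ∧ ∀ a, Hol d (D a) y ∧ ((∀ l, y ∉ E l) → D a y ≠ 0) ∧
      ∀ g : Y → ℂ, (g =O[𝓝 y] fun y => nb f a u (π y)) ↔ g =O[𝓝 y] D a := by
  classical
  obtain ⟨u, hu⟩ := uc_cover h.lb (h.maps y₀)
  obtain ⟨k₀, hk⟩ := h.prin y₀ u hu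
  choose c c1 c2 using hk
  have h1 : ∀ᶠ y in 𝓝 y₀, π y ∈ Uc L u :=
    h.cont.continuousAt.eventually ((uc_open h.lb u).mem_nhds hu)
  have h2 : ∀ y, π y ∈ Uc L u → ∀ i j, Hol d (fun z => f i j u (π z)) y := fun y hy i j =>
    h.hol y _ (h.sec y i j u hy).1
  have h3 : ∀ᶠ y in 𝓝 y₀, (∀ l, y ∉ E l) → ∀ i, f i (k₀ i) u (π y) ≠ 0 := by
    filter_upwards [h1, eventually_all.2 c2] with y a1 a2 a3 i
    obtain ⟨k, hk⟩ := h.off y u a1 a3
    rw [a2 k] at hk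
    exact Finset.prod_ne_zero_iff.1 (right_ne_zero_of_mul hk) i (Finset.mem_univ i)
  have h4 : ∀ i j, ∀ᶠ y in 𝓝 y₀,
      f i j u (π y) = c (Function.update k₀ i j) y * f i (k₀ i) u (π y) := fun i j => by
    filter_upwards [h1, (c1 (Function.update k₀ i j)).near,
      (h3.and (c2 (Function.update k₀ i j))).eventually_nhds] with y a1 a2 a3
    refine tendsto_nhds_unique_of_frequently_eq (hol_cont (h2 y a1 i j)).tendsto
      (hol_cont (Lo.hol_mul a2 (h2 y a1 i (k₀ i)))).tendsto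
      (((mem_closure_iff_frequently.1 (h.dense y)).and_eventually a3).mono ?_)
    rintro y' ⟨b1, b2, b3⟩
    rw [← Finset.mul_prod_erase _ _ (Finset.mem_univ i),
      ← Finset.mul_prod_erase _ _ (Finset.mem_univ i), Function.update_self, ← mul_assoc,
      Finset.prod_congr rfl fun i' hi => by
        rw [Function.update_of_ne (Finset.ne_of_mem_erase hi)]] at b3
    exact mul_right_cancel₀ (Finset.prod_ne_zero_iff.2 fun i' _ => b2 b1 i') b3
  have h5 : ∀ i, (fun y => nm (f i) u (π y)) =O[𝓝 y₀] fun y => f i (k₀ i) u (π y) := fun i =>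
    IsBigO.fun_sum fun j _ => IsBigO.norm_left (by
      simpa using ((hol_cont (c1 (Function.update k₀ i j))).isBigO_one ℂ |>.mul
        (isBigO_refl (fun y => f i (k₀ i) u (π y)) _)).congr' ((h4 i j).mono fun _ => Eq.symm)
        EventuallyEq.rfl)
  choose C hC using fun i => (h5 i).bound
  refine ⟨u, fun a y => ∏ i, f i (k₀ i) u (π y) ^ a i, ?_⟩
  filter_upwards [h1, h3, (eventually_all.2 hC).eventually_nhds] with y a1 a2 a3
  refine ⟨a1, fun a => ⟨hol_prod _ fun i _ => hol_pow (h2 y a1 i _) _, fun b =>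
    Finset.prod_ne_zero_iff.2 fun i _ => pow_ne_zero _ (a2 b i), fun g =>
    ⟨fun b => b.trans ?_, fun b => b.trans ?_⟩⟩⟩
  · exact IsBigO.finsetProd fun i _ => (IsBigO.of_bound (C i) (a3.mono fun _ b => b i)).pow _
  · refine IsBigO.finsetProd fun i _ => IsBigO.pow (isBigO_of_le _ fun y' => ?_) _
    exact (Finset.single_le_sum (f := fun j => ‖f i j u (π y')‖) (fun _ _ => norm_nonneg _)
      (Finset.mem_univ _)).trans (le_abs_self _)

/-- the bound holds at the general points of `E l` near `y` -/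
def Pb (π : Y → W) (E : Fin r → Set Y) (f : Fin q → Fin m → Ix L → W → ℂ) (l : Fin r)
    (a : Fin q → ℕ) (s : Ix L → W → ℂ) (y : Y) : Prop :=
  ∀ᶠ y' in 𝓝 y, y' ∈ E l → (∀ k, k ≠ l → y' ∉ E k) → Rb π f a s y'

/-- the conclusion of `CLO` -/
def Cl (d : ℕ) [ChartedSpace (Cm d) Y] (E : Fin r → Set Y) : Prop :=
  ∀ y, ∀ g D : Y → ℂ, Hol d g y → Hol d D y → (∀ᶠ y' in 𝓝 y, (∀ l, y' ∉ E l) → D y' ≠ 0) →
    (∀ l, y ∈ E l → (∃ᶠ y' in 𝓝 y, y' ∈ E l ∧ Pl E l g D y') → Pl E l g D y) ∧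
    ((∀ l, y ∈ E l → Pl E l g D y) → g =O[𝓝 y] D)

theorem Pr.clo (h : Pr d O e f π E) (hC : Cl d E) {a : Fin q → ℕ} {s : Ix L → W → ℂ} {y : Y}
    (hs : ∀ᶠ w in 𝓝 (π y), Sc d L (cb e a) s w) :
    (∀ l, y ∈ E l → (∃ᶠ y' in 𝓝 y, y' ∈ E l ∧ Pb π E f l a s y') → Pb π E f l a s y) ∧
    ((∀ l, y ∈ E l → Pb π E f l a s y) → Rb π f a s y) := by
  obtain ⟨u, D, hD⟩ := h.loc y
  have h1 : ∀ᶠ y' in 𝓝 y, Rb π f a s y' ↔ (fun y => s u (π y)) =O[𝓝 y'] D a := by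
    filter_upwards [hD, h.cont.continuousAt.eventually hs.eventually_nhds] with y' a1 a2
    exact ⟨fun b => ((a1.2 a).2.2 _).1 (b u a1.1), fun b => h.rb a2 a1.1 (((a1.2 a).2.2 _).2 b)⟩
  have h2 : ∀ l, ∀ᶠ y' in 𝓝 y, Pb π E f l a s y' ↔ Pl E l (fun y => s u (π y)) (D a) y' :=
    fun l => h1.eventually_nhds.mono fun y' b => eventually_congr (b.mono fun _ c => by rw [c])
  have h0 := hD.self_of_nhds
  obtain ⟨h3, h4⟩ := hC y (fun y => s u (π y)) (D a) (h.hol y _ (hs.self_of_nhds u h0.1).1)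
    (h0.2 a).1 (hD.mono fun _ b => (b.2 a).2.1)
  exact ⟨fun l hl b => (h2 l).self_of_nhds.2 (h3 l hl ((b.and_eventually (h2 l)).mono
    fun _ c => ⟨c.1.1, c.2.1 c.1.2⟩)),
    fun b => h1.self_of_nhds.2 (h4 fun l hl => (h2 l).self_of_nhds.1 (b l hl))⟩

/-- all sections near the fibre are bounded at the general points of `E l` -/
def Gd (d : ℕ) [ChartedSpace (Cm d) W] (O : Set W) (t : W → Cm N) (e : Fin q → α → ℤ)
    (π : Y → W) (E : Fin r → Set Y) (f : Fin q → Fin m → Ix L → W → ℂ) (l : Fin r)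
    (a : Fin q → ℕ) (y : Y) : Prop :=
  ∀ s, SecN d (O ∩ t ⁻¹' {t (π y)}) (lin L (cb e a)) s → Pb π E f l a s y

theorem sc_of {F : Set W} {a : α → ℤ} {s : Ix L → W → ℂ} (h : SecN d F (lin L a) s) {w : W}
    (hw : w ∈ F) : ∀ᶠ w' in 𝓝 w, Sc d L a s w' :=
  eventually_nhdsSet_iff_forall.1 h w hw

theorem Pr.gd (h : Pr d O e f π E) (hC : Cl d E) (ht : Prp d O t Ω) (l : Fin r) (a : Fin q → ℕ)
    (hF : ∀ z ∈ Ω, ∃ (k : ℕ) (g : Fin k → Ix L → W → ℂ), ∀ᶠ z' in 𝓝 z,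
      (∀ j, SecN d (O ∩ t ⁻¹' {z'}) (lin L (cb e a)) (g j)) ∧
      ∀ s, SecN d (O ∩ t ⁻¹' {z'}) (lin L (cb e a)) s → Bo (O ∩ t ⁻¹' {z'}) L s (nm g))
    {C : Set Y} (h1 : IsPreconnected C) (h2 : C ⊆ E l) {y₀ : Y} (h3 : y₀ ∈ C)
    (h4 : Gd d O t e π E f l a y₀) : ∀ y ∈ C, Gd d O t e π E f l a y := by
  have key : ∀ y, (Gd d O t e π E f l a y → ∀ᶠ y' in 𝓝 y, Gd d O t e π E f l a y') ∧
      (y ∈ E l → (∃ᶠ y' in 𝓝 y, y' ∈ E l ∧ Gd d O t e π E f l a y') → Gd d O t e π E f l a y) := by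
    intro y
    obtain ⟨k, g, hg⟩ := hF _ (ht.maps (h.maps y))
    have h5 := ((tcont ht (h.maps y)).comp h.cont.continuousAt).eventually hg
    have h6 : ∀ᶠ y' in 𝓝 y, Gd d O t e π E f l a y' ↔ ∀ j, Pb π E f l a (g j) y' := by
      filter_upwards [h5] with y' b
      refine ⟨fun c j => c _ (b.1 j), fun c s hs => ?_⟩
      obtain ⟨u, hu⟩ := uc_cover h.lb (h.maps y')
      filter_upwards [eventually_all.2 c,
        bigO_near ((b.2 s hs _ ⟨h.maps y', rfl⟩ u hu).comp_tendsto h.cont.continuousAt),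
        h.cont.continuousAt.eventually (sc_of hs ⟨h.maps y', rfl⟩).eventually_nhds,
        h.cont.continuousAt.eventually ((uc_open h.lb u).mem_nhds hu)] with v b1 b2 b3 b4 b5 b6
      have b7 : (fun y => ∑ j, ‖g j u (π y)‖) =O[𝓝 v] fun y => nb f a u (π y) :=
        IsBigO.fun_sum fun j _ => (b1 j b5 b6 u b4).norm_left
      exact h.rb b3 b4 (b2.trans b7)
    refine ⟨fun b => ?_, fun b c => h6.self_of_nhds.2 fun j => ?_⟩
    · filter_upwards [h6, (eventually_all.2 (h6.self_of_nhds.1 b)).eventually_nhds] with y' b1 b2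
      exact b1.2 fun j => b2.mono fun _ b3 => b3 j
    · exact (h.clo hC (sc_of (h5.self_of_nhds.1 j) ⟨h.maps y, rfl⟩)).1 l b
        ((c.and_eventually h6).mono fun _ b1 => ⟨b1.1.1, b1.2.1 b1.1.2 j⟩)
  intro y hy
  by_contra hc
  have h5 : ∀ v ∈ C, ¬ Gd d O t e π E f l a v → v ∉ closure {y | y ∈ E l ∧ Gd d O t e π E f l a y} :=
    fun v hv b c => b ((key v).2 (h2 hv) (mem_closure_iff_frequently.1 c))
  obtain ⟨v, b1, b2, b3⟩ := h1 {y | Gd d O t e π E f l a y}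
    (closure {y | y ∈ E l ∧ Gd d O t e π E f l a y})ᶜ (isOpen_iff_mem_nhds.2 fun v => (key v).1)
    isClosed_closure.isOpen_compl (fun v hv => (em _).imp id (h5 v hv)) ⟨y₀, h3, h4⟩
    ⟨y, hy, h5 y hy hc⟩
  exact b3 (subset_closure ⟨h2 b1, b2⟩)

end up

end Opn

open Opn in
theorem opn_of (hH : Hir.StMain) (hF : FTN) (hC : CLO) : OPN := by
  intro n W _ _ _ _ _ N O t Ω ht hP α _ L hL z hz q m e f hB hG
  have hK := ht.proper {z} (singleton_subset_iff.2 hz) isCompact_singleton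
  have h1 : ∀ᶠ w in 𝓝ˢ (O ∩ t ⁻¹' {z}), w ∈ O ∧ (∀ i j, Sc (n + 1) L (e i) (f i j) w) ∧
      ∃ (u : Ix L) (k : Fin q → Fin m), w ∈ Uc L u ∧ Nz (fun y => ∏ i, f i (k i) u y) w := by
    refine eventually_nhdsSet_iff_forall.2 fun w hw => ?_
    obtain ⟨u, hu⟩ := uc_cover hL hw.1
    choose k hk using nz_gen hB hG hw hu
    have h2 := fun i j => sc_of (hG.sec i j) hw
    have h3 := fun i j => ((h2 i j).self_of_nhds u hu).1
    filter_upwards [ht.isOpen.mem_nhds hw.1, eventually_all.2 fun i => eventually_all.2 (h2 i),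
      (uc_open hL u).mem_nhds hu, (hol_ident (hol_prod _ fun i _ => h3 i (k i))).resolve_left
        (nz_prod _ (fun i _ => h3 i (k i)) fun i _ => hk i)] with y a1 a2 a3 a4
    exact ⟨a1, a2, u, k, a3, a4⟩
  obtain ⟨O', o1, o2, o3⟩ := mem_nhdsSet_iff_exists.1 h1
  obtain ⟨R⟩ := Hl.exists_rz hH Hl.prin (Nat.le_add_left 1 n) (dat hL f O' o1
    (fun w hw => (o3 hw).1) (fun w hw => (o3 hw).2.1) fun w hw => (o3 hw).2.2) hK o2
  have hO := fun y => R.le (R.bl.maps y)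
  have h2 : Pr (n + 1) O e f R.π R.E := ⟨hL, R.bl.cont, R.bl.hol, fun y => (o3 (hO y)).1,
    fun y => (o3 (hO y)).2.1, fun y u hu hy => not_forall.1 fun k => not_exists.2 hy
      ((R.bad y).1 ((Hl.Dat.mem_Z _ (hO y) hu).2 k)),
    R.bl.dense.mono fun y (hy : R.π y ∉ _) => not_exists.1 fun k => hy ((R.bad y).2 k), R.prin⟩
  obtain ⟨c1, c2⟩ := hC (n + 1) R.Y R.r R.E R.lab R.sn
  have c3 : Cl (n + 1) R.E := fun y => (c2 y).2
  have h3 : ∀ y, R.π y ∈ O ∩ t ⁻¹' {z} →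
      ∀ᶠ y' in 𝓝 y, ∀ l, y' ∈ R.E l → ∀ a, Gd (n + 1) O t e R.π R.E f l a y' := fun y hy => by
    refine eventually_all.2 fun l => ?_
    by_cases hl : y ∈ R.E l
    · obtain ⟨C, b1, b2, b3⟩ := (c2 y).1 l hl univ univ_mem
      filter_upwards [mem_nhdsWithin_iff_eventually.1 b3] with y' b4 b5 a
      refine h2.gd c3 ht l a (hF n W N O t Ω ht hP α L hL _) b2 (fun v hv => (b1 hv).2)
        (mem_of_mem_nhdsWithin hl b3) (fun s hs => ?_) y' (b4 b5)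
      obtain ⟨u, hu⟩ := uc_cover hL hy.1
      rw [show t (R.π y) = z from hy.2] at hs
      filter_upwards [bigO_near ((hG.le a s hs _ hy u hu).comp_tendsto h2.cont.continuousAt),
        h2.cont.continuousAt.eventually (sc_of hs hy).eventually_nhds,
        h2.cont.continuousAt.eventually ((uc_open hL u).mem_nhds hu)] with v d1 d2 d3 _ _
      exact h2.rb d2 d3 d1
    · exact ((c1 l).isOpen_compl.eventually_mem hl).mono fun _ b c => absurd c b
  have h4 : ∀ᶠ w in 𝓝ˢ (O ∩ t ⁻¹' {z}), w ∈ R.O ∧ ∀ y, R.π y = w →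
      ∀ l, y ∈ R.E l → ∀ a, Gd (n + 1) O t e R.π R.E f l a y :=
    eventually_nhdsSet_iff_forall.2 fun w hw => (R.bl.isOpen.eventually_mem (R.sub hw)).and
      (Hl.Ds.tube R.bl (R.sub hw) fun y hy => h3 y (hy ▸ hw))
  filter_upwards [tube ht hz h4, eventually_all.2 fun i => eventually_all.2 fun j =>
    tube ht hz (hG.sec i j)] with z' b1 b2
  refine ⟨b2, fun a s hs w hw u hu => ?_⟩
  obtain ⟨b3, b4⟩ := b1.self_of_nhdsSet w hw
  obtain ⟨C, hC⟩ := (bigO_compact (R.bl.proper {w} (singleton_subset_iff.2 b3) isCompact_singleton)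
    (f := fun y => s u (R.π y)) (g := fun y => nb f a u (R.π y)) fun y hy => by
      obtain rfl : R.π y = w := hy
      refine (h2.clo c3 (sc_of hs hw)).2 (fun l hl => b4 y rfl l hl a s ?_) u hu
      rwa [show t (R.π y) = z' from hw.2]).bound
  refine .of_bound C ?_
  filter_upwards [Hl.Ds.tube R.bl b3 (eventually_nhdsSet_iff_forall.1 hC),
    R.bl.isOpen.mem_nhds b3] with w' d1 d2
  obtain ⟨y, rfl⟩ := Hl.Ds.onto R.bl d2 (Hl.Dat.thin _ (R.le d2))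
  exact d1 y rfl

end Vale.Agent.P277Z.Ex
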