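import Vale.Agent.P277Z.Ex.Api
import Vale.Agent.P277Z.Ex.Opn

/-!
# P277, block EX: finite type (row FTN)
-/

open scoped Topology
open Vale.Agent.P272.K Vale.Agent.P285.H281.FD Set Filter Asymptotics
open Vale.Agent.P277Z.Coh (LBOn prpBase)
open Vale.Agent.P277Z.Slc (lin)

namespace Vale.Agent.P277Z.Ex

/-- ROW FTN -/
theorem ftn_of (hC : Pj.COHT) : FTN := fun n W _ _ _ _ _ N O t Ω h hP α _ L hL a z hz => by
  obtain ⟨⟨m, g, hg⟩, -⟩ := hC n W N O t Ω h hP (lin L a) ⟨Opn.uc_open hL,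
    fun w => Opn.uc_cover hL, fun _ _ _ => Opn.g_hol hL a, fun _ _ _ => Opn.g_ne hL a,
    fun u u' u'' w hw h1 h2 h3 => Finset.prod_mul_distrib.symm.trans (Finset.prod_congr rfl
      fun b _ => by rw [← mul_zpow, (hL b).cocycle _ _ _ w hw (h1 b) (h2 b) (h3 b)])⟩ z hz
  have e : ∀ {z' P}, (prpBase h).Near z' P → ∀ w ∈ O ∩ t ⁻¹' {z'}, ∀ᶠ y in 𝓝 w, P y :=
    fun k w hw => k.nhds.self_of_nhds w hw.1 hw.2
  refine ⟨m, g, ?_⟩
  filter_upwards [hg, h.isOpen'.mem_nhds hz] with z' h1 h2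
  obtain ⟨h3, h4⟩ := (Coh.Base.gen_img_iff g).1 h1
  refine ⟨fun j => eventually_nhdsSet_iff_forall.2 (e (h3 j)), fun s hs w hw u hu => ?_⟩
  obtain ⟨c, h5, h6⟩ := h4 s ((Opn.tube h h2 hs).mono fun _ k x hx hx' =>
    (eventually_nhdsSet_iff_forall.1 k x ⟨hx, hx'⟩).self_of_nhds)
  refine EventuallyEq.trans_isBigO (f₂ := fun y => ∑ j, c j (t y) * g j u y) ?_
    (IsBigO.fun_sum fun j _ => ?_)
  · filter_upwards [e h6 w hw, (Opn.uc_open hL u).mem_nhds hu] with y k1 k2 using k1 u k2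
  · exact (((ContinuousAt.comp (f := t) (hw.2 ▸ (h5 j).continuousAt)
      (Opn.tcont h hw.1)).isBigO_one ℝ).mul (isBigO_nm g j u (𝓝 w))).congr_right fun _ => one_mul _

end Vale.Agent.P277Z.Ex
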