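import Vale.Agent.P277Z.Ex.Api
import Vale.Agent.P277Z.Pj.Api

/-!
# P277, block EX: one cone for all fibres
-/

open scoped Manifold ContDiff Topology Matrix
open Vale.Agent.P272.K Vale.Agent.P285.H281.FD Vale.Agent.P277 Set Filter

noncomputable section

namespace Vale.Agent.P277Z.Ex

namespace GlpH

variable {q : ℕ}

/-- the unipotent matrix with ones on and above the diagonal -/
def U (q : ℕ) : Matrix (Fin q) (Fin q) ℕ := .of fun i j => if i ≤ j then 1 else 0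

/-- the same over the integers -/
def Z (q : ℕ) : Matrix (Fin q) (Fin q) ℤ := (Nat.castRingHom ℤ).mapMatrix (U q)

theorem Z_mul (w : Fin q → ℤ) (i : Fin q) : (Z q *ᵥ w) i = ∑ j with i ≤ j, w j := by
  simp [Z, U, Matrix.mulVec, dotProduct, Finset.sum_filter]

theorem le_Z {w : Fin q → ℤ} {i : Fin q} (h : ∀ j, i < j → 0 ≤ w j) {t : Fin q} (ht : i < t) :
    w i + w t ≤ (Z q *ᵥ w) i := by
  rw [Z_mul, ← Finset.sum_pair ht.ne]
  refine Finset.sum_le_sum_of_subset_of_nonneg (fun j hj => ?_) fun j a b =>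
    h j (lt_of_le_of_ne (Finset.mem_filter.1 a).2 fun e => b (by simp [e]))
  rcases Finset.mem_insert.1 hj with rfl | hj
  · simp
  · simp [Finset.mem_singleton.1 hj, ht.le]

theorem step {t : Fin q} {s : ℕ} (hs : s ≤ t) {w : Fin q → ℤ}
    (h : 0 < w t ∧ ∀ j : Fin q, s ≤ j → 0 ≤ w j) :
    0 < (Z q *ᵥ w) t ∧ ∀ j : Fin q, s ≤ j → 0 ≤ (Z q *ᵥ w) j := by
  simp only [Z_mul]
  exact ⟨h.1.trans_le (Finset.single_le_sum (f := w)
    (fun j a => h.2 j (hs.trans (Finset.mem_filter.1 a).2)) (by simp)),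
    fun j a => Finset.sum_nonneg fun i b => h.2 i (a.trans (Finset.mem_filter.1 b).2)⟩

theorem pos {t : Fin q} : ∀ s : ℕ, s ≤ t → ∀ w : Fin q → ℤ,
    (0 < w t ∧ ∀ j : Fin q, s ≤ j → 0 ≤ w j) → ∃ N, ∀ j, 0 ≤ (Z q ^ N *ᵥ w) j
  | 0, _, w, h => ⟨0, fun j => by simpa using h.2 j (Nat.zero_le _)⟩
  | s + 1, hs, w, h => by
    let i : Fin q := ⟨s, by omega⟩
    have h1 : ∀ M : ℕ, (0 < (Z q ^ M *ᵥ w) t ∧ ∀ j : Fin q, s + 1 ≤ j → 0 ≤ (Z q ^ M *ᵥ w) j) ∧
        w i + M ≤ (Z q ^ M *ᵥ w) i := by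
      intro M
      induction M with
      | zero => simpa using h
      | succ M ih =>
        rw [pow_succ', ← Matrix.mulVec_mulVec]
        have := le_Z (i := i) ih.1.2 (t := t) hs
        exact ⟨step hs ih.1, by push_cast; linarith [ih.1.1, ih.2]⟩
    obtain ⟨a, b⟩ := h1 (w i).natAbs
    obtain ⟨N, hN⟩ := pos s (by omega) _ ⟨a.1, fun j c => by
      rcases c.eq_or_lt with c | c
      · obtain rfl : i = j := Fin.ext c
        omega
      · exact a.2 j c⟩
    exact ⟨N + (w i).natAbs, by rwa [pow_add, ← Matrix.mulVec_mulVec]⟩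

theorem cast_pow (N : ℕ) : (Matrix.of fun i j => ((U q ^ N) i j : ℤ)) = Z q ^ N :=
  map_pow (Nat.castRingHom ℤ).mapMatrix (U q) N

theorem ndg (N : ℕ) {k : ℕ} (hk : 1 ≤ k) : Ndg fun i => k • (U q ^ N) i := by
  have h : (Z q).det = 1 := by
    rw [Matrix.det_of_isUpperTriangular fun i j a => by simpa [Z, U] using a]
    simp [Z, U]
  have e : (Matrix.of fun i j => ((k • (U q ^ N) i) j : ℤ)) = (k : ℤ) • Z q ^ N := by
    rw [← cast_pow]
    ext i j
    simp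
  rw [Ndg, e, Matrix.det_smul, Matrix.det_pow, h]
  positivity

theorem side (H : Finset (Fin q → ℤ)) : ∃ N, Side H (U q ^ N) := by
  have e : ∀ N (h : Fin q → ℤ) i, ∑ j, h j * (U q ^ N) i j = (Z q ^ N *ᵥ h) i := fun N h i => by
    rw [← cast_pow]
    simp [Matrix.mulVec, dotProduct, mul_comm]
  have h1 : ∀ M (w : Fin q → ℤ), (∀ j, 0 ≤ w j) → ∀ j, 0 ≤ (Z q ^ M *ᵥ w) j := fun M w a j => by
    rw [← e]
    exact Finset.sum_nonneg fun i _ => mul_nonneg (a i) (Nat.cast_nonneg _)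
  have h2 : ∀ h : Fin q → ℤ, ∃ N, ∀ M, N ≤ M →
      (∀ j, 0 ≤ (Z q ^ M *ᵥ h) j) ∨ ∀ j, (Z q ^ M *ᵥ h) j ≤ 0 := by
    have h3 : ∀ (h : Fin q → ℤ) t, 0 < h t → (∀ j, t < j → h j = 0) →
        ∃ N, ∀ M, N ≤ M → ∀ j, 0 ≤ (Z q ^ M *ᵥ h) j := fun h t a b => by
      obtain ⟨N, hN⟩ := pos t le_rfl h ⟨a, fun j c => by
        rcases (show t ≤ j from c).eq_or_lt with rfl | c
        exacts [a.le, (b j c).ge]⟩
      refine ⟨N, fun M c => ?_⟩
      rw [← Nat.sub_add_cancel c, pow_add, ← Matrix.mulVec_mulVec]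
      exact h1 _ _ hN
    intro h
    by_cases a : (Finset.univ.filter fun j => h j ≠ 0).Nonempty
    · obtain ⟨t, b, c⟩ := Finset.exists_max_image _ id a
      have d : ∀ j, t < j → h j = 0 := fun j d => by_contra fun f => (c j (by simpa)).not_gt d
      rcases (Finset.mem_filter.1 b).2.lt_or_gt with f | f
      · obtain ⟨N, hN⟩ := h3 (-h) t (neg_pos.2 f) fun j g => neg_eq_zero.2 (d j g)
        exact ⟨N, fun M g => .inr fun j => by simpa [Matrix.mulVec_neg] using hN M g j⟩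
      · exact (h3 h t f d).imp fun N hN M g => .inl (hN M g)
    · exact ⟨0, fun M _ => .inl (h1 M h fun j => (by_contra fun b => a ⟨j, by simpa⟩ : h j = 0).ge)⟩
  choose N hN using h2
  exact ⟨H.sup N, fun h a => (hN h _ (Finset.le_sup a)).imp (fun b i => e _ h i ▸ b i)
    fun b i => e _ h i ▸ b i⟩

end GlpH

open GlpH

theorem glp : GLP := by
  intro X _ K q P hK h1 h2
  have h3 : ∀ x ∈ K, ∀ N k M l : ℕ, P x (fun i => k • (U q ^ N) i) → N ≤ M →
      P x fun i => (l * k) • (U q ^ M) i := fun x hx N k M l a b => by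
    have := h2 x hx _ (fun i => l • (U q ^ (M - N)) i) a
    rw [← Nat.sub_add_cancel b, pow_add]
    refine cast (congrArg _ (funext fun i => funext fun j => ?_)) this
    simp only [Finset.sum_apply, Pi.smul_apply, smul_eq_mul, Matrix.mul_apply, Finset.mul_sum]
    exact Finset.sum_congr rfl fun _ _ => by ring
  obtain ⟨N, k, a, b⟩ : ∃ N k : ℕ, 1 ≤ k ∧ ∀ x ∈ K, x ∈ K → P x fun i => k • (U q ^ N) i := by
    refine hK.induction_on
      (p := fun S => ∃ N k : ℕ, 1 ≤ k ∧ ∀ x ∈ S, x ∈ K → P x fun i => k • (U q ^ N) i)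
      ⟨0, 1, le_rfl, fun _ a => a.elim⟩ (fun S T a ⟨N, k, b, c⟩ => ⟨N, k, b, fun x d => c x (a d)⟩)
      (fun S T ⟨N, k, a, b⟩ ⟨M, l, c, d⟩ => ⟨max N M, l * k, Nat.mul_pos c a, fun x e f => e.elim
        (fun e => h3 x f _ _ _ _ (b x e f) (le_max_left _ _))
        fun e => mul_comm k l ▸ h3 x f _ _ _ _ (d x e f) (le_max_right _ _)⟩) fun x hx => ?_
    obtain ⟨H, k, a, b⟩ := h1 x hx
    obtain ⟨N, c⟩ := side H
    exact ⟨_, mem_nhdsWithin_of_mem_nhds
      (b (fun i => (U q ^ N) i) (by simpa using ndg (q := q) N le_rfl) c), N, k, a,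
      fun _ d _ => d⟩
  exact ⟨_, ndg N a, fun x hx => b x hx hx⟩

theorem glob_of (hC : CHM) (hS : SUB) (hO : OPN) : GLOB := by
  intro n W _ _ _ _ _ X p α _ L q b hp hP hL hb hF hB
  have : SecondCountableTopology W := ChartedSpace.secondCountable_of_sigmaCompact (Cm (n + 1)) W
  obtain ⟨A, h1, h2⟩ := glp X.pt univ q (fun x A => MulU (n + 1) p L (fun i => cb b (A i)) x)
    isCompact_univ (fun x _ => by
      obtain ⟨N, t, z, a1, a2⟩ := hF x
      obtain ⟨H, k, b1, b2⟩ := hC (n + 1) W (p ⁻¹' {x}) α L q b N t z (fun a => Brg.lbn_of (hL a) _) hb a1 a2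
      refine ⟨H, k, b1, fun A c1 c2 => ?_⟩
      obtain ⟨m, f, c3⟩ := b2 q A c2
      obtain ⟨N', k', V, Ω, h, ψ, d1, d2, d3⟩ := hP x
      have e : ∀ x' ∈ V, p ⁻¹' V ∩ (fun w => ψ (p w)) ⁻¹' {ψ x'} = p ⁻¹' {x'} := fun x' d =>
        Set.ext fun w => ⟨fun f => congrArg Subtype.val
          (d2.emb.injective (a₁ := ⟨_, f.1⟩) (a₂ := ⟨_, d⟩) f.2),
          fun (f : p w = x') => ⟨show p w ∈ V from f ▸ d, congrArg ψ f⟩⟩
      have d4 := hO n W N' _ _ Ω (hp.prp d2) d3 α L (fun a => ⟨(hL a).isOpen,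
        fun x _ => (hL a).cover x, fun i j x _ hi hj e he => ((hL a).holo i j e x he hi hj).analyticAt,
        fun i j x _ => (hL a).ne_zero i j x, fun i j k x _ => (hL a).cocycle i j k x⟩) (ψ x)
        (Pj.model_mem d2 d1).1 q m (fun i => cb b (k • A i)) f (fun i => by
          rw [e x d1]
          exact hB _ (smul_ne_zero (by omega) (c1.ne i)) x) (by rwa [e x d1])
      have d5 : ∀ᶠ x' in 𝓝 x, Gen (n + 1) (p ⁻¹' {x'}) L (fun i => cb b (k • A i)) f := by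
        filter_upwards [(continuousAt_pi.2 fun i => hol_continuousAt (Pj.model_crd d2 d1 i)).eventually
          d4, d2.isOpen.mem_nhds d1] with x' f1 f2
        rwa [e x' f2] at f1
      exact d5.eventually_nhds.mono fun x' f1 => ⟨m, f, f1⟩)
    fun x _ A B ⟨m, f, a⟩ => by
      obtain ⟨m', f', c⟩ := hS (n + 1) W α L q m q (fun i => cb b (A i)) f B
      exact ⟨m', f', a.mono fun x' d => by
        simpa only [cb_cb] using c _ (fun a => Brg.lbn_of (hL a) _) d⟩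
  exact ⟨A, h1, fun x => h2 x trivial⟩

end Vale.Agent.P277Z.Ex
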