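import Vale.Agent.P277Z.Ex.Api
import Vale.Agent.P277Z.Pos.MSpec
import Vale.Agent.P277Z.Pj.Imm
import Vale.Agent.P277Z.Val.Man

/-!
# P277, block EX: the rows KODL, STX, AEX
-/

open scoped Manifold ContDiff Topology
open Vale.Agent.P272.K Vale.Agent.P285.H281.FD Vale.Agent.P277 Set Filter
open Vale.Agent.P277.H60.Z (XH)
open Vale.Agent.P277.PH (at_chartAt)
open Vale.Agent.P277Z.Slc (lin)
open Vale.Agent.P277Z.Brg (LBN SecN PosX RPos)

noncomputable section

namespace Vale.Agent.P277Z.Ex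

theorem Kod.posX_ev {n : ℕ} {W α : Type} [TopologicalSpace W] [ChartedSpace (Cm n) W] [Fintype α]
    {L : α → Bd W} (hL : ∀ a i, IsOpen ((L a).U i)) {c : α → ℝ} {Λ} {x : W}
    (h : PosX n L c Λ x) : ∀ᶠ y in 𝓝 x, PosX n L c Λ y := by
  obtain ⟨⟨k, h1, h2⟩, h3⟩ := h
  filter_upwards [eventually_all.2 fun a => (hL a _).eventually_mem (h1 a),
    h2.eventually_nhds, h3.eventually_nhds] with y a b c using ⟨⟨k, a, b⟩, c⟩

/-- ROW KODL -/
theorem kodl_of (hK : Pos.KOD) (hC : Brg.CALC) : KODL := by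
  intro n W _ _ _ _ _ X p α _ L a hp hL hpos
  have := ChartedSpace.secondCountable_of_sigmaCompact (Cm n) W
  have lb : ∀ F b, LBN n F (L b) := fun F b => Brg.lbn_of (hL b) F
  have lP : ∀ F, LBN n F (lin L a) := fun F => lbn_lin (lb F) a
  have nr := fun y => ((lP univ).near.filter_mono (nhds_le_nhdsSet (mem_univ y))).self_of_nhds
  have hA : RelAmple (XH n W) X p (lin L a) := by
    refine hK n W (XH n W) X id p (lin L a) ⟨(lin L a).U, (lP univ).isOpen,
      fun y => (lP univ).cover y (mem_univ y), (lin L a).g,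
      fun i j e y he hi hj => (nr y i j hi hj).1 e he, fun i j y hi hj => (nr y i j hi hj).2.1,
      fun i j k y hi hj hk => (nr y i j hi hj).2.2 k hk⟩
      ⟨continuous_id, Function.bijective_id, IsOpenMap.id, fun _ _ => Iff.rfl⟩ hp.cont hp.hol
      (fun _ => rfl) (fun _ _ _ => rfl) fun x => ?_
    obtain ⟨Λ, hΛ⟩ := ((hC n W _ α L (lb _)).2.2.2.2.2.2 a).2.1 (hpos x)
    obtain ⟨O, k1, k2, k3⟩ := eventually_nhds_iff.1 (hp.cont.isClosedMap.eventually_nhds_fiber x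
      fun w hw => Kod.posX_ev (fun _ => (lP univ).isOpen) (hΛ w hw))
    refine ⟨O, fun i => Λ fun _ => i, k2, k3, fun i y hy hi => ?_, fun i j y hy hi hj => ?_⟩
    · exact ((hC n W univ Unit (fun _ => lin L a) fun _ => lP univ).1 _ Λ y (mem_univ y)
        (k1 _ hy y rfl) (fun _ => i) fun _ => hi).self_of_nhds
    · have h := (k1 _ hy y rfl).chg.self_of_nhds (fun _ => i) (fun _ => j) (fun _ => hi) fun _ => hj
      rwa [Fintype.sum_unique, one_mul] at h
  refine ⟨hA, fun w => ?_⟩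
  obtain ⟨V, k, N, s, hV, hx, hk, hs, hnz, -⟩ := hA (p w)
  obtain ⟨u, hu⟩ := exists_ix (lb univ) (mem_univ w)
  obtain ⟨l, hl⟩ := hnz w u hx hu
  have h1 : SecN n (p ⁻¹' {p w}) (lin L (k • a)) (s l) := by
    filter_upwards [(hV.preimage hp.cont).mem_nhdsSet.2
      fun y (hy : p y = p w) => show p y ∈ V from hy ▸ hx] with y hy i hi
    refine ⟨(hs l).holo i y hy hi, fun j hj => ((hs l).change i j y hy hi hj).trans ?_⟩
    congr 1
    refine (Finset.prod_pow _ _ _).symm.trans (Finset.prod_congr rfl fun b _ => ?_)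
    rw [Pi.smul_apply, nsmul_eq_mul, mul_comm, zpow_mul, zpow_natCast]
  exact ⟨k, hk, s l, h1, (nz_iff (lbn_lin (lb _) _) h1 rfl hu).2 hl⟩

/-- ROW STX -/
theorem stx_of (hA : Val.StAn) (hR : Pj.RAP) : STX := by
  intro V X p exc hX h
  obtain ⟨P, c, τ, h1, h2, h3, h4⟩ := h.amp
  have hol : Pj.HolTo 4 X p := ⟨h.cont, h.hol⟩
  obtain ⟨-, -, hd⟩ := hA V X p exc P c τ hX
    ⟨⟨h.cont, h.hol⟩, h.surj, h.emb, h.inj, h.dim, h1, h2, h3, h4⟩
  refine ⟨⟨hol, h.surj, fun x f hf => ?_⟩, @hR 3 V.W _ _ _ V.ch V.mf X p P hol h1 h2, fun y => ?_⟩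
  · obtain ⟨O, k1, k2, k3⟩ := eventually_nhds_iff.1 (h.cont.isClosedMap.eventually_nhds_fiber x
      fun w hw => Val.holF_ev (hf w hw))
    obtain ⟨H, m1, m2⟩ := hd O f k2 fun y hy => k1 _ hy y rfl
    refine ⟨H, m1 x k3, fun w hw => ?_⟩
    filter_upwards [(k2.preimage h.cont).mem_nhds (show p w ∈ O from hw ▸ k3)] with y hy
      using m2 y hy
  · refine mem_closure_iff_frequently.2 ((Val.U.freq_notE V y).mono fun w hw => ?_)
    have hw' : w ∈ (⋃ l ∈ exc, V.G l)ᶜ := fun e => by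
      obtain ⟨l, -, e⟩ := mem_iUnion₂.1 e
      exact hw (mem_iUnion.2 ⟨l, e⟩)
    have he := at_chartAt (n := 4) w
    refine ⟨4, fun x => chartAt (Cm 4) w (h.emb.inv w x), fun a =>
      h.emb.hol_of_analyticAt w hw' he (g := fun y => chartAt (Cm 4) w y a)
        (analyticAt_pi_iff.1 (PH.chg_analyticAt he he) a), (Pj.imm_chart he).congr ?_⟩
    filter_upwards [h.emb.isOpen.mem_nhds hw'] with z hz
    rw [h.emb.inv_apply w hz]

/-- ROW AEX -/
theorem aex_of (hF : Brg.FGV) (hC : Brg.CALC) : AEX := by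
  intro V X p exc α _ D _ h
  classical
  have := Brg.sct V
  obtain ⟨c, h1, h2⟩ := (hF 0 V (fun e => e.elim0) X p exc (fun l => D.N (D.o l)) D.σ D.div
    (fun e => e.elim0) h).1
  refine ⟨c, h1, fun x => ?_⟩
  have h3 := (hC 4 V.W _ α D.N (D.lbn _)).2.2.2.2.2.1 _ D.o _ (h2 x)
  have h4 : rl (-D.dn c) = ∑ l, Pi.single (D.o l) (-(c l : ℝ)) := by
    rw [rl_neg, D.rl_dn, ← D.dv_neg]
    funext a
    rw [D.dv_apply, Finset.sum_apply]
    refine Finset.sum_congr rfl fun l _ => ?_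
    by_cases e : a = D.o l
    · rw [if_pos e, e, Pi.single_eq_same, Pi.neg_apply]
    · rw [if_neg e, Pi.single_eq_of_ne e]
  rw [h4]
  exact h3

end Vale.Agent.P277Z.Ex
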