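import Vale.Agent.P277Z.Ex.Sk
import Vale.Agent.P277Z.Pj.Model
import Vale.Agent.P277Z.Pj.Qc

/-!
# P277, block EX: the model exists; where it is the base
-/

open scoped Manifold ContDiff Topology
open Vale.Agent.P272.K Vale.Agent.P285.H281.FD Vale.Agent.P277 Vale.Agent.P277.PH Set Filter
open Vale.Agent.P277.HD (pull)
open Vale.Agent.P277Z.Slc (lin)
open Vale.Agent.P277Z.Brg (SecN)
open Vale.Agent.P277Z.Coh (ScAt HomAt holSys)
open Vale.Agent.P277Z.Pj

noncomputable section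

namespace Vale.Agent.P277Z.Ex

namespace Ml

theorem gz_add {β : Type} [Fintype β] {x : β → ℂ} (h : ∀ b, x b ≠ 0) (a a' : β → ℤ) :
    ∏ b, x b ^ (a + a') b = (∏ b, x b ^ a b) * ∏ b, x b ^ a' b := by
  simp only [Pi.add_apply, fun b => zpow_add₀ (h b), Finset.prod_mul_distrib]

theorem gz_smul {β : Type} [Fintype β] (x : β → ℂ) (k : ℤ) (a : β → ℤ) :
    ∏ b, x b ^ (k • a) b = (∏ b, x b ^ a b) ^ k := by
  simp only [Pi.smul_apply, smul_eq_mul, mul_comm k, zpow_mul, Finset.prod_zpow]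

theorem gz_sum {β ι : Type} [Fintype β] {x : β → ℂ} (h : ∀ b, x b ≠ 0) (s : Finset ι)
    (z : ι → ℤ) (M : ι → β → ℤ) :
    ∏ b, x b ^ (∑ i ∈ s, z i • M i) b = ∏ i ∈ s, (∏ b, x b ^ M i b) ^ z i := by
  classical
  induction s using Finset.induction_on with
  | empty => simp
  | insert j s hj ih => rw [Finset.sum_insert hj, Finset.prod_insert hj, gz_add h, gz_smul, ih]

theorem gz_tot {β : Type} [Fintype β] {x : β → ℂ} (h : ∀ b, x b ≠ 0) {q : ℕ} (M : Fin q → β → ℤ)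
    (k : ℕ) : ∏ b, x b ^ (k • ∑ i, M i) b = (∏ i, (∏ b, x b ^ M i b) ^ (1 : ℤ)) ^ k := by
  rw [← gz_sum h, ← natCast_zsmul, gz_smul, zpow_natCast]
  simp only [one_smul]

variable {n : ℕ} {W : Type} [TopologicalSpace W] [ChartedSpace (Cm n) W]

theorem lb_lin {β : Type} [Fintype β] {N : β → Bd W} (h : ∀ b, IsLB n (N b)) (a : β → ℤ) :
    IsLB n (lin N a) where
  isOpen i := by
    have : (lin N a).U i = ⋂ e, (N e).U (i e) := Set.ext fun _ => mem_iInter.symm
    exact this ▸ isOpen_iInter_of_finite fun e => (h e).isOpen _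
  cover x := by
    choose i hi using fun e => (h e).cover x
    exact ⟨i, hi⟩
  holo i j e x he hi hj := (Finset.analyticAt_fun_prod _ fun b _ =>
    ((h b).holo _ _ e x he (hi b) (hj b)).analyticAt.fun_zpow (by
      rw [e.left_inv he.2]; exact (h b).ne_zero _ _ x (hi b) (hj b))).contDiffAt
  ne_zero i j x hi hj :=
    Finset.prod_ne_zero_iff.2 fun e _ => zpow_ne_zero _ ((h e).ne_zero _ _ x (hi e) (hj e))
  cocycle i j l x hi hj hl := by
    change (∏ e, _ ^ a e) * ∏ e, _ ^ a e = ∏ e, _ ^ a e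
    rw [← Finset.prod_mul_distrib]
    exact Finset.prod_congr rfl fun e _ => by
      rw [← mul_zpow, (h e).cocycle _ _ _ x (hi e) (hj e) (hl e)]

theorem piso_lin {Y : Type} {ψ : W → Y} {q : ℕ} {L : Fin q → Bd Y} {M : Fin q → Bd W}
    {u : ∀ i, (L i).ι → (M i).ι → W → ℂ} (h : ∀ i, PIso n ψ (L i) (M i) (u i)) (z : Fin q → ℤ) :
    PIso n ψ (HD.Bd.lin L z) (HD.Bd.lin M z) fun a j w => ∏ i, u i (a i) (j i) w ^ z i := by
  refine ⟨fun a j w ha hj => ⟨fun e he => Finset.analyticAt_fun_prod _ fun i _ =>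
    (((h i).hol _ _ w (ha i) (hj i)).1 e he).fun_zpow (by
      rw [e.left_inv he.2]; exact ((h i).hol _ _ w (ha i) (hj i)).2), Finset.prod_ne_zero_iff.2
    fun i _ => zpow_ne_zero _ ((h i).hol _ _ w (ha i) (hj i)).2⟩, fun a a' j j' w ha ha' hj hj' => ?_⟩
  change _ * ∏ i, _ ^ z i = (∏ i, _ ^ z i) * _
  rw [← Finset.prod_mul_distrib, ← Finset.prod_mul_distrib]
  exact Finset.prod_congr rfl fun i _ => by
    rw [← mul_zpow, ← mul_zpow, (h i).chg _ _ _ _ w (ha i) (ha' i) (hj i) (hj' i)]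

theorem piso_diag {Y β : Type} [Fintype β] {ψ : W → Y} {N : β → Bd W} (hN : ∀ b, IsLB n (N b))
    {q : ℕ} {M : Fin q → β → ℤ} {z : Fin q → ℤ} {L : Bd Y} {u}
    (h : PIso n ψ L (HD.Bd.lin (fun i => lin N (M i)) z) u) {c : β → ℤ} (hc : c = ∑ i, z i • M i) :
    PIso n ψ L (lin N c) fun a j => u a fun _ => j :=
  ⟨fun a _ w ha hj => h.hol a _ w ha fun _ => hj, fun a a' j j' w ha ha' hj hj' =>
    (h.chg a a' (fun _ => j) (fun _ => j') w ha ha' (fun _ => hj) fun _ => hj').trans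
      (congrArg (· * _) (hc ▸ (gz_sum (fun b => (hN b).ne_zero _ _ w (hj b) (hj' b))
        Finset.univ z M).symm : _ = ∏ b, (N b).g (j b) (j' b) w ^ c b))⟩

variable [T2Space W] [CompactSpace W] [IsManifold 𝓘(ℂ, Cm n) ω W]

theorem free_of {X : CSp} {p : W → X.pt} (hp : Continuous p) {M : Bd W} (hM : IsLB n M)
    (h : ∀ w, ∃ s, SecN n (p ⁻¹' {p w}) M s ∧ NZ M s w) : Free n p M := by
  intro x
  choose s h1 h2 using h
  have h3 : ∀ w v, p v = p w → ∀ᶠ y in 𝓝 v, ScAt (HolF n) M (s w) y := fun w v e =>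
    eventually_nhdsSet_iff_forall.1 (h1 w) v e
  obtain ⟨t, ht, hc⟩ := ((isClosed_singleton (x := x)).preimage hp).isCompact.elim_nhds_subcover
    (fun w => {v | Stb.Fr n M (s w) v}) fun w _ => Stb.Fr.ev hM ⟨h3 w w rfl, h2 w⟩
  obtain ⟨V, h4, h5, h6⟩ := eventually_nhds_iff.1 (Stb.tube hp (y := x) (P := fun v =>
    (∀ a ∈ t, ScAt (HolF n) M (s a) v) ∧ ∃ a ∈ t, NZ M (s a) v) fun w hw => by
      obtain ⟨a, a1, a2⟩ := mem_iUnion₂.1 (hc hw)
      filter_upwards [(eventually_all_finset t).2 fun b hb => h3 b w (hw.trans (ht b hb).symm),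
        Stb.Fr.ev hM a2] with v c d using ⟨c, a, a1, d.2⟩)
  refine ⟨V, t.card, Fin.cons (fun _ _ => 0) fun l => s (t.equivFin.symm l), h5, h6,
    fun l w hw => ?_, fun w hw i hi => ?_⟩
  · refine Fin.cases (fun i _ => ⟨HolF.const 0, fun _ _ => (mul_zero _).symm⟩) (fun l => ?_) l
    exact (h4 _ hw w rfl).1 _ (t.equivFin.symm l).2
  · obtain ⟨a, a1, a2⟩ := (h4 _ hw w rfl).2
    exact ⟨(t.equivFin ⟨a, a1⟩).succ, by simpa using a2 i hi⟩

end Ml

open Ml Md

theorem modl_of (h : StModel) : MODL := by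
  intro V X p β _ N q M T h0 hp hI hN hF hc ⟨k, g, τ, hτ, hτ0, hA⟩
  have hM := fun i => lb_lin hN (M i)
  have hG : IsLB 4 ((tns fun i => lin N (M i)).pow k) :=
    lb_iff.2 (Glc.lb_pow (Glc.lb_lin (fun i => lb_iff.1 (hM i)) _) k)
  obtain ⟨Y, f, ψ, Λ, L, ho⟩ := h V X p T q (fun i => lin N (M i)) ⟨h0, hp, hI, hM,
    fun i => free_of hp.cont (hM i) (hF i), fun l hl w hw => (hc l hl w hw).elim fun a ha =>
      ⟨lin N a, lb_lin hN a, fun m O s h1 h2 h3 h4 => ha m ⟨fun u => s (u, fun _ => u), by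
        filter_upwards [(h1.preimage hp.cont).mem_nhdsSet.2 fun v (e : p v = p w) =>
          show p v ∈ O from e ▸ h2] with v hv u hu
        refine ⟨(h3 v hv (u, fun _ => u) ⟨hu, fun _ => hu⟩).1, fun j hj =>
          ((h3 v hv (u, fun _ => u) ⟨hu, fun _ => hu⟩).2 (j, fun _ => j)
            ⟨hj, fun _ => hj⟩).trans (congrArg (· * _) ?_)⟩
        have e := fun b => (hN b).ne_zero _ _ v (hu b) (hj b)
        exact ((gz_add e _ _).trans (congrArg _ (gz_tot e M m))).symm,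
        fun u hu => h4 (u, fun _ => u) ⟨hu, fun _ => hu⟩⟩⟩,
    lin N (k • ∑ i, M i - g), k, fun u J w => ((tns fun i => lin N (M i)).pow k).g J
      (fun _ => u) w * τ u w, lb_lin hN _, hA, fun w u J hu hJ => ⟨fun e he =>
        (hG.holo J _ e w he hJ fun _ => hu).analyticAt.mul (hτ.holo u e w he hu).analyticAt,
      fun j hj => by
        have e := fun b => (hN b).ne_zero _ _ w (hu b) (hj b)
        have e' : (lin N g).g u j w * (lin N (k • ∑ i, M i - g)).g u j w =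
            ((tns fun i => lin N (M i)).pow k).g (fun _ => u) (fun _ => j) w :=
          (gz_add e _ _).symm.trans (by rw [add_sub_cancel]; exact gz_tot e M k)
        beta_reduce
        rw [← hG.cocycle J (fun _ => u) (fun _ => j) w hJ (fun _ => hu) fun _ => hj, ← e',
          hτ.change u j w hu hj]
        ring,
      fun J' hJ' => by
        beta_reduce
        rw [← hG.cocycle J J' (fun _ => u) w hJ hJ' fun _ => hu, mul_assoc]⟩,
    fun w hw u J hu hJ => mul_ne_zero (hG.ne_zero J _ w hJ fun _ => hu) (hτ0 w hw u hu)⟩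
  choose u hu using ho.isoi
  obtain ⟨v, hv⟩ := ho.iso
  exact ⟨Y, f, ψ, Λ, ho.normal, ho.hol, ho.comp, ho.stein, ho.lb, ho.amp, ho.res,
    ⟨_, piso_diag hN hv (by simp only [one_smul])⟩,
    fun z => ⟨_, _, lin_lbx ho.lbi z, piso_diag hN (piso_lin hu z) rfl⟩⟩

theorem iso : ISO := by
  intro V X Y g ψ Λ τ N hX hY hg hΛ hA hN hτ h0
  constructor
  · refine stIsoOff V.W X Y _ ψ g N hX hY (fun _ => rfl) hN fun w w' a b => by_contra fun hne => ?_
    choose c hc using fun v => hΛ.cover (ψ v)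
    obtain ⟨O, k, m, s, h1, h2, -, h4, -, h6, -⟩ := hA (g (ψ w))
    have e : ∀ l v i, g (ψ v) ∈ O → ψ v ∈ Λ.U i →
        s l (c v) (ψ v) * τ (c v) v ^ k = s l i (ψ v) * τ i v ^ k := fun l v i a b => by
      have h7 := hΛ.ne_zero _ i _ (hc v) b
      rw [(h4 l).change _ i _ a (hc v) b, hτ.change _ i v (hc v) b]
      show Λ.g (c v) i (ψ v) ^ k * _ * ((Λ.g (c v) i (ψ v))⁻¹ * _) ^ k = _
      rw [mul_pow, inv_pow]
      field_simp
    have h8 : ∀ l, s l (c w) (ψ w) * τ (c w) w ^ k = s l (c w') (ψ w') * τ (c w') w' ^ k :=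
      fun l => by
      have h9 := (Stb.desc hX (y := g (ψ w)) (g := fun v => s l (c v) (ψ v) * τ (c v) v ^ k)
        fun v hv => by
          have a' : g (ψ v) ∈ O := hv ▸ h2
          have a1 : HolF 4 (fun x => s l (c v) (ψ x) * τ (c v) x ^ k) v := fun ch hch =>
            (hY.hol v _ ((h4 l).holo _ _ a' (hc v)) ch hch).mul
              ((hτ.holo _ ch v hch (hc v)).analyticAt.pow k)
          refine a1.congr ?_
          filter_upwards [(h1.preimage hX.cont).mem_nhds a',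
            ((hΛ.isOpen _).preimage hY.cont).mem_nhds (hc v)] with x d1 d2
            using (e l x _ d1 d2).symm).2.self_of_nhds
      exact (h9 w rfl).trans (h9 w' b).symm
    obtain ⟨l, m, h11⟩ := h6 _ _ _ _ h2 b hne (hc w) (hc w')
    refine h11 (mul_right_cancel₀ (mul_ne_zero (pow_ne_zero k (h0 w a _ (hc w)))
      (pow_ne_zero k (h0 w' (b ▸ a) _ (hc w')))) ?_)
    linear_combination (s m (c w') (ψ w') * τ (c w') w' ^ k) * h8 l -
      (s l (c w') (ψ w') * τ (c w') w' ^ k) * h8 m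
  · obtain ⟨s, h1, h2⟩ := Stb.sec hY Λ (g ⁻¹' Nᶜ) (fun i w => (τ i w)⁻¹) fun w hw i hi =>
      ⟨(holSys 4).inv (fun e he => (hτ.holo i e w he hi).analyticAt) (h0 w hw i hi), fun j hj =>
        (congrArg (·⁻¹) (hτ.change i j w hi hj)).trans
          ((mul_inv _ _).trans (congrArg (· * _) (inv_inv _)))⟩
    refine ⟨s, h1, fun i y a b => ?_⟩
    obtain ⟨w, rfl⟩ := hY.surj y
    exact h2 i w a b ▸ inv_ne_zero (h0 w a i b)

end Vale.Agent.P277Z.Ex
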