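import Vale.Agent.P277Z.Ex.Api

/-!
# P277, block EX: descent of sections, moving parts
-/

open scoped Manifold ContDiff Topology
open Vale.Agent.P272.K Vale.Agent.P285.H281.FD Vale.Agent.P277 Set Filter Asymptotics
open Vale.Agent.P277.HD (pull)
open Vale.Agent.P277Z.Slc (lin)
open Vale.Agent.P277Z.Brg (LBN SecN)
open Vale.Agent.P277Z.Val (Lg)
open Vale.Agent.P277Z.Pj (Stein)
open Vale.Agent.P277Z.GH (Fam)

noncomputable section

namespace Vale.Agent.P277Z.Ex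

namespace Mv

variable {V' V : Lg} {π : V'.W → V.W} {α β : Type} {D : Fm V α}
  {h : ∀ a, IsLB 4 (pull π (D.N a))} {E : Fm V' β}

/-- a frame upstairs -/
def ext (h : ∀ a, IsLB 4 (pull π (D.N a))) (v : Ix D.N) (k : Ix E.N) : Ix (D.up π h E).N :=
  Sum.rec v k

theorem mem_ext {v : Ix D.N} {k : Ix E.N} {y : V'.W} (h1 : π y ∈ Uc D.N v) (h2 : y ∈ Uc E.N k) :
    y ∈ Uc (D.up π h E).N (ext h v k) := Sum.rec h1 h2

theorem mem_inl (h : ∀ a, IsLB 4 (pull π (D.N a))) {u : Ix (D.up π h E).N} {y : V'.W}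
    (hy : y ∈ Uc (D.up π h E).N u) : π y ∈ Uc D.N fun i => u (.inl i) := fun a => hy (.inl a)

theorem sec_at {W X : Type} [TopologicalSpace W] {p : W → X} {x : X} {P : W → Prop}
    (h : ∀ᶠ y in 𝓝ˢ (p ⁻¹' {x}), P y) {w : W} (hw : p w = x) : ∀ᶠ y in 𝓝 w, P y :=
  h.filter_mono (nhds_le_nhdsSet (show w ∈ p ⁻¹' {x} from hw))

variable [Fintype α]

theorem lbx (D : Fm V α) (a : α → ℤ) : IsLBx V.X (lin D.N a) :=
  have k := fun x => ((lbn_lin (D.lbn univ) a).near.filter_mono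
    (nhds_le_nhdsSet (mem_univ x))).self_of_nhds
  ⟨D.isOpen_Uc, D.exists_ix, fun i j x hi hj => (k x i j hi hj).1,
    fun i j x hi hj => (k x i j hi hj).2.1, fun i j l x hi hj => (k x i j hi hj).2.2 l⟩

theorem g_self {v : Ix D.N} {x : V.W} (hx : x ∈ Uc D.N v) (a : α → ℤ) :
    (lin D.N a).g v v x = 1 :=
  mul_left_cancel₀ ((lbx D a).ne_zero v v x hx hx)
    (((lbx D a).cocycle v v v x hx hx hx).trans (mul_one _).symm)

variable [Fintype β]

theorem g_pb (a : α → ℤ) (u u' : Ix (D.up π h E).N) (y : V'.W) :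
    (lin (D.up π h E).N (pb β a)).g u u' y =
      (lin D.N a).g (fun i => u (.inl i)) (fun i => u' (.inl i)) (π y) := by
  refine (Fintype.prod_sum_type _).trans ?_
  simp only [pb, Sum.elim_inl, Sum.elim_inr, Pi.zero_apply, zpow_zero, Finset.prod_const_one,
    mul_one]
  rfl

omit [Fintype α] [Fintype β] in
/-- the generators of a monomial ideal -/
theorem mono {I : Fam V.X} {c : Fin V'.r → ℕ} (hI : I.Mono V' π c) (D' : Fm V' β) {u : Ix D'.N}
    {y : V'.W} (hu : y ∈ Uc D'.N u) {γ : I.Γ} (hγ : π y ∈ I.O γ) :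
    ∃ v : Fin (I.m γ) → V'.W → ℂ, (∀ k, ContinuousAt (v k) y) ∧ (∃ k, v k y ≠ 0) ∧
      ∀ᶠ y' in 𝓝 y, ∀ k, I.f γ k (π y') = v k y' * D'.mon c u y' :=
  let ⟨v, h1, h2, h3⟩ := hI y γ _ hγ (Fm.eq hu)
  ⟨v, fun k => Hol.continuousAt (h1 k), h2, h3⟩

end Mv

open Mv

/-- **DSC** -/
theorem dsc_of (hS : Pj.STB) : DSC := by
  intro V' V π α β _ _ D h E hs F a
  refine ⟨fun s k => ?_, fun s k => ?_⟩
  · filter_upwards [(hs.cont.tendsto_nhdsSet (mapsTo_preimage π F)).eventually k] with y h1 u hu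
    exact ⟨hs.hol y _ (h1 _ (mem_inl h hu)).1, fun u' hu' =>
      ((h1 _ (mem_inl h hu)).2 _ (mem_inl h hu')).trans (congrArg (· * _) (g_pb a u u' y).symm)⟩
  obtain ⟨O, h1, h2, h3⟩ := eventually_nhdsSet_iff_exists.1 k
  choose ch hch using E.exists_ix
  have h4 : IsOpen (π '' Oᶜ)ᶜ :=
    (h1.isClosed_compl.isCompact.image hs.cont).isClosed.isOpen_compl
  have h5 : ∀ y, π y ∈ (π '' Oᶜ)ᶜ → y ∈ O := fun y hy => by_contra fun e => hy ⟨y, e, rfl⟩
  have h6 : F ⊆ (π '' Oᶜ)ᶜ := fun x hx ⟨y, e, e'⟩ => e (h2 (by rwa [← e'] at hx))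
  have h7 : ∀ y ∈ O, ∀ u, y ∈ Uc (D.up π h E).N u →
      s u y = s (ext h (fun i => u (.inl i)) (ch y)) y := fun y hy u hu => by
    rw [(h3 y hy u hu).2 _ (mem_ext (mem_inl h hu) (hch y)), g_pb]
    exact (congrArg (· * _) (g_self (mem_inl h hu) a)).trans (one_mul _)
  obtain ⟨s₀, k1, k2⟩ := (@hS 3 V'.W _ _ _ V'.ch V'.mf V.X π hs).2.2.2.2.2.2 (lin D.N a) _
    (fun v y => s (ext h v (ch y)) y) (lbx D a) h4 fun y hy v hv => by
      have hu : y ∈ Uc (D.up π h E).N (ext h v (ch y)) := mem_ext hv (hch y)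
      refine ⟨(h3 y (h5 y hy) _ hu).1.congr (b := fun y => s (ext h v (ch y)) y) ?_, fun v' hv' =>
        ((h3 y (h5 y hy) _ hu).2 _ (mem_ext hv' (hch y))).trans (congrArg (· * _) (g_pb a _ _ y))⟩
      filter_upwards [h1.mem_nhds (h5 y hy), ((D.up π h E).isOpen_Uc _).mem_nhds hu]
        with z e1 e2 using h7 z e1 _ e2
  refine ⟨s₀, ?_, ?_⟩
  · filter_upwards [h4.mem_nhdsSet.2 h6] with x hx i hi
    exact ⟨k1.holo i x hx hi, fun j hj => k1.change i j x hx hi hj⟩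
  · filter_upwards [(h4.preimage hs.cont).mem_nhdsSet.2 (preimage_mono h6)] with y hy u hu
    exact (h7 y (h5 y hy) u hu).trans (k2 _ y hy (mem_inl h hu))

/-- **MOV** -/
theorem mov_of (h1 : DSC) (h2 : DIV) : MOV := by
  intro V' V π α β _ _ D h E hs X p q e I F hB hM
  have hD := h1 V' V π α β D h E hs
  have fix : ∀ a x s, SecN 4 (π ⁻¹' (p ⁻¹' {x})) (lin (D.up π h E).N (pb β (cb e a))) s →
      Bo (π ⁻¹' (p ⁻¹' {x})) (D.up π h E).N s ((D.up π h E).mon (∑ i, a i • F i)) := by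
    rintro a _ s k y (rfl : p (π y) = _) u hu
    rcases isEmpty_or_nonempty (Fin q) with hq | ⟨⟨i₀⟩⟩
    · refine ((sec_cont k rfl hu).isBigO_one ℂ).congr_right fun z => ?_
      rw [Finset.univ_eq_empty, Finset.sum_empty, Fm.mon_zero]
    obtain ⟨s₀, k1, k2⟩ := (hD _ _).2 s k
    choose γ hγ using fun i => (I i).cover (π y)
    choose v f a1 a2 a3 using fun i => hB i (γ i) (π y) (hγ i)
    have hc := (hs.cont.tendsto y)
    have a4 : ∀ i, (fun z => nm (f i₀ i) (fun i => u (.inl i)) (π z)) =O[𝓝 y]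
        (D.up π h E).mon (F i) u := fun i => by
      obtain ⟨t, b1, -, b2⟩ := mono (hM i) (D.up π h E) hu (hγ i)
      have b3 : nm (f i₀ i) (v i) =O[𝓝 (π y)] nm (f i i) (v i) := nm_isBigO fun j =>
        ((a2 i).le_one (k := 1) (sec_cast ((a2 i₀).sec i j) (one_smul ℕ _).symm) _ rfl _
          (a1 i)).congr_right fun _ => pow_one _
      refine (((nm_chg (D.lbn _) ((a2 i₀).sec i) rfl (mem_inl h hu) (a1 i)).trans
        b3).comp_tendsto hc).trans
        (nm_isBigO (f := fun j (_ : Unit) z => f i i j (v i) (π z)) (u := ()) fun j => ?_)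
      refine (((b1 j).isBigO_one ℂ).mul (isBigO_refl _ _)).congr' ?_
        (.of_forall fun _ => one_mul _)
      filter_upwards [b2] with z b4
      rw [← b4 j, a3 i j]
    have a5 : s u =ᶠ[𝓝 y] fun z => s₀ (fun i => u (.inl i)) (π z) := by
      filter_upwards [sec_at (p := fun w => p (π w)) k2 rfl,
        ((D.up π h E).isOpen_Uc _).mem_nhds hu] with z b1 b2 using b1 u b2
    refine a5.trans_isBigO ((((a2 i₀).le a s₀ k1 _ rfl _ (mem_inl h hu)).comp_tendsto hc).trans ?_)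
    refine (IsBigO.finsetProd fun i _ => (a4 i).norm_right.pow (a i)).trans
      (IsBigO.of_bound' (.of_forall fun z => le_of_eq ?_))
    rw [Fm.mon_sum, norm_prod, norm_prod]
    exact Finset.prod_congr rfl fun i _ => by rw [Fm.mon_smul, norm_pow, norm_pow, norm_norm]
  refine ⟨⟨fun i y => ?_, fun a x s k => fix a x s (sec_cast k (cb_pb e a))⟩, fun i k => ?_⟩
  · obtain ⟨γ, hγ⟩ := (I i).cover (π y)
    obtain ⟨v, f, a1, a2, a3⟩ := hB i γ (π y) hγ
    obtain ⟨w, hw⟩ := E.exists_ix y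
    have hu : y ∈ Uc (D.up π h E).N (ext h v w) := mem_ext a1 hw
    obtain ⟨t, b1, ⟨j, b2⟩, b3⟩ := mono (hM i) (D.up π h E) hu hγ
    have b4 := (hD _ _).1 _ (a2.sec i j)
    have b5 := fix (Pi.single i 1) _ _ (sec_cast b4 (by rw [cb_single, one_smul]))
    rw [Finset.sum_eq_single i (fun j _ k => by rw [Pi.single_eq_of_ne k, zero_smul])
      (fun k => absurd (Finset.mem_univ _) k), Pi.single_eq_same, one_smul] at b5
    have := Brg.sct V'
    obtain ⟨s, c1, c2⟩ := h2 4 V'.W _ _ _ _ _ _ _ ((D.up π h E).lbn _) b4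
      ((D.up π h E).sec_mon _ (F i)) (fun _ _ _ k => Fm.mon_nz k _) b5
    refine ⟨s, c1, (nz_iff (lbn_lin ((D.up π h E).lbn _) _) c1 rfl hu).2 ?_⟩
    rw [tendsto_nhds_unique_of_frequently_eq (sec_cont c1 rfl hu).tendsto (b1 j).tendsto ?_]
    · exact b2
    refine (Fm.freq_mon hu (b3.and (sec_at (p := fun w => p (π w)) c2 rfl))).mono
      fun z ⟨⟨d1, d2⟩, d3, _, d4⟩ => mul_right_cancel₀ (d4 (F i)) ?_
    rw [← d2 _ d3, ← d1 j, a3 j]
    rfl
  refine ⟨fun a1 y hy => ?_, fun a1 a2 => ?_⟩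
  · obtain ⟨γ, hγ⟩ := (I i).cover (π y)
    obtain ⟨u, hu⟩ := E.exists_ix y
    obtain ⟨t, -, -, b⟩ := mono (hM i) E hu hγ
    refine ⟨γ, hγ, fun j => ?_⟩
    rw [b.self_of_nhds j, not_not.1 fun c => (Fm.mon_ne hu _).1 c k a1 hy, mul_zero]
  · obtain ⟨y₀, hy₀⟩ := (V'.conn k).nonempty
    obtain ⟨y, b1, b2⟩ := (Val.U.freq_gen hy₀).exists
    obtain ⟨γ, hγ, b3⟩ := a1 y b1
    obtain ⟨u, hu⟩ := E.exists_ix y
    obtain ⟨t, -, ⟨j, b4⟩, b5⟩ := mono (hM i) E hu hγ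
    exact mul_ne_zero b4 ((Fm.mon_ne hu _).2 fun l c => b2 l fun c' => c (c' ▸ a2))
      ((b5.self_of_nhds j).symm.trans (b3 j))

end Vale.Agent.P277Z.Ex
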