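import Vale.Agent.P277Z.Ex.Api
import Vale.Agent.P277Z.Val.Mon

/-!
# P277, block EX: the model of a class supported on `R` and `S`
-/

open scoped Manifold ContDiff Topology
open Vale.Agent.P272.K Vale.Agent.P285.H281.FD Vale.Agent.P277 Set Filter Asymptotics
open Vale.Agent.P277.HD (pull)
open Vale.Agent.P277Z.Slc (lin)
open Vale.Agent.P277Z.Brg (SecN LBN)
open Vale.Agent.P277Z.Val (Lg)

noncomputable section

namespace Vale.Agent.P277Z.Ex

theorem psi_of (hS : DSC) (hD : DIV) (hX : EXCS) : PSI := by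
  classical
  intro V X p exc α _ D hN hR R S γ hRe g1 g2 g3 V' π χ' exc₁ s h E F Y g ψ Λ hA
  set D' := D.up π h E
  have : SecondCountableTopology V'.W := ChartedSpace.secondCountable_of_sigmaCompact (Cm 4) V'.W
  have hS := hS V' V π α _ D h E hA.stein
  have hU := hA.up
  have hπ := hA.stein.cont
  let gp : Fin V.r → ℕ := fun l => (γ l).toNat
  let gm : Fin V.r → ℕ := fun l => (-γ l).toNat
  have e1 : D.dv γ = D.dn gp - D.dn gm :=
    (congrArg D.dv (funext fun l => by simp [gp, gm])).trans (D.dv_sub _ _)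
  have e2 : ∀ l, gp l ≠ 0 → l ∈ R := fun l (a : (γ l).toNat ≠ 0) => by_contra fun b => by
    by_cases c : l ∈ S
    · have := g2 l c
      omega
    · have := g3 l b c
      omega
  have e3 : ∀ l, gm l ≠ 0 ↔ l ∈ S := fun l => ⟨fun (a : (-γ l).toNat ≠ 0) => by_contra fun b => by
    by_cases c : l ∈ R
    · have := g1 l c
      omega
    · have := g3 l c b
      omega, fun a => show (-γ l).toNat ≠ 0 by
    have := g2 l a
    omega⟩
  let P : (Fin V.r → ℕ) → Ix D'.N → V'.W → ℂ := fun c u y => D.mon c (fun i => u (.inl i)) (π y)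
  have hP : ∀ c u y, y ∈ Uc D'.N u → y ∉ V'.E → P c u y ≠ 0 := fun c u y a b =>
    Fm.mon_ne_of (fun i => a (.inl i)) c fun d => b ((hU.pre y).2 d)
  obtain ⟨τ₀, t1, t2⟩ := hD 4 V'.W univ _ D'.N _ _ (fun u y => P gm u y * D'.mon (F 0) u y) (P gp)
    (D'.lbn _) (sec_mul (D'.lbn _) ((hS univ _).1 _ (D.sec_mon _ gm)) (D'.sec_mon _ _))
    ((hS univ _).1 _ (D.sec_mon _ gp)) (fun w _ u hu a =>
      let ⟨y, b1, b2, b3, _⟩ := (Fm.freq_mon hu a).exists
      hP gp u y b2 b3 b1) fun y _ u hu => by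
      obtain ⟨s', a1, a2⟩ := hA.mov.free 0 y
      obtain ⟨s₀, b1, b2⟩ := (hS (p ⁻¹' {p (π y)}) (D.dv γ)).2 _
        (sec_cast (sec_mul (D'.lbn _) a1 (D'.sec_mon _ (F 0))) (sub_add_cancel _ _))
      have b3 := (hX V X p exc α D hN hR gp (fun l a => by_contra fun b => a (hRe (e2 l b))) _ _
        (sec_cast (sec_mul (D.lbn _) b1 (D.sec_mon _ gm)) (by rw [e1, sub_add_cancel])) (π y) rfl
        (fun i => u (.inl i)) fun i => hu (.inl i)).comp_tendsto hπ.continuousAt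
      have a4 := norm_pos_iff.2 (a2 u hu)
      have a3 : (fun _ => (1 : ℂ)) =O[𝓝 y] s' u :=
        (isBigO_const_left_iff_pos_le_norm one_ne_zero).2 ⟨_, half_pos a4,
          ((sec_cont a1 rfl hu).norm.eventually (le_mem_nhds (half_lt_self a4)))⟩
      refine ((a3.mul (isBigO_refl (fun y => P gm u y * D'.mon (F 0) u y) _)).congr_left
        fun _ => one_mul _).trans (b3.congr' ?_ EventuallyEq.rfl)
      filter_upwards [b2.filter_mono (nhds_le_nhdsSet (x := y) (by exact rfl)),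
        (D'.isOpen_Uc u).mem_nhds hu] with z c d
      exact (congrArg (· * _) (c u d).symm).trans (by simp only [P]; ring)
  replace t2 := fun y => t2.self_of_nhdsSet y trivial
  replace t1 := sec_cast (b := -∑ i : Fin 1, (pb _ (D.dv γ) - D'.dn (F i))) t1 (by
    rw [Fin.sum_univ_one, e1, pb_sub]
    abel)
  obtain ⟨v, hv⟩ := hA.md.iso
  have hΛ := hA.md.lb
  have hψ := hA.md.stein.cont
  choose c hc using D'.exists_ix
  have hl := fun a => (lbn_lin (D'.lbn univ) a).near.self_of_nhdsSet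
  obtain ⟨Ψ, hΨ⟩ := Val.exists_mon_glob (V := V') (fun y => τ₀ (c y))
    (fun y => sec_hol t1 trivial (hc y)) (fun y => by
      filter_upwards [(D'.isOpen_Uc _).mem_nhds (hc y)] with x a b d
      exact mul_ne_zero (hP gm _ x a b) (Fm.mon_ne_of a _ b) (by rw [t2 x _ a, d, zero_mul]))
    fun y => by
      filter_upwards [(D'.isOpen_Uc _).mem_nhds (hc y)] with z a
      have := hl (-∑ i : Fin 1, (pb _ (D.dv γ) - D'.dn (F i))) z trivial _ _ (hc z) a
      refine ⟨_, this.1, this.2.1, ?_⟩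
      filter_upwards [sec_near t1 (mem_univ z), (D'.isOpen_Uc _).mem_nhds (hc z),
        (D'.isOpen_Uc _).mem_nhds a] with x b d f using (b _ d).2 _ f
  have k0 : ∀ i x, x ∈ Λ.U i → Λ.g i i x = 1 := fun i x a =>
    mul_left_cancel₀ (hΛ.ne_zero i i _ a a) ((hΛ.cocycle i i i _ a a a).trans (mul_one _).symm)
  have k1 : ∀ i j y, ψ y ∈ Λ.U i → y ∈ Uc D'.N j →
      ∀ᶠ x in 𝓝 y, v i (c x) x * τ₀ (c x) x = v i j x * τ₀ j x := fun i j y a b => by
    filter_upwards [hψ.continuousAt.eventually ((hΛ.isOpen i).mem_nhds a),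
      (D'.isOpen_Uc _).mem_nhds b] with x a b
    have d := hv.chg i i _ j x a a (hc x) b
    rw [k0 i _ a, mul_one] at d
    rw [d, ((t1.self_of_nhdsSet x trivial) _ (hc x)).2 j b, mul_mul_mul_comm]
    refine (congrArg (· * _) ?_).trans (one_mul _)
    refine Finset.prod_mul_distrib.symm.trans (Finset.prod_eq_one fun a _ => ?_)
    rw [Pi.neg_apply, zpow_neg]
    exact mul_inv_cancel₀ (zpow_ne_zero _ ((D'.lb a).ne_zero _ _ x (hc x a) (b a)))
  have k2 : ∀ l ∉ R, Ψ (s l) ≠ 0 ↔ l ∈ S := fun l hl => by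
    obtain ⟨x, a1, a2⟩ := (Lg.freq1 (V.conn l).nonempty.some_mem).exists
    obtain ⟨y, b1, rfl⟩ := (hU.str.img l).symm ▸ a1
    have b2 : π y ∉ ⋃ k ∈ R, V.G k := fun b =>
      let ⟨k, d, f⟩ := mem_iUnion₂.1 b
      a2 k (fun e => hl (e ▸ d)) f
    have b3 : ∀ k, y ∈ V'.G k → k = s l := fun k b => by
      obtain ⟨j, rfl⟩ : k ∈ range s := by_contra fun d =>
        b2 (hU.blw.sub k ((hU.new k).2 d) ⟨y, b, rfl⟩)
      exact congrArg s (by_contra fun d => a2 j d (hU.str.img j ▸ ⟨y, b, rfl⟩))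
    obtain ⟨w, -, c1, c2⟩ := hΨ y _ (Fm.eq (hc y))
    have c3 : τ₀ (c y) y ≠ 0 ↔ D'.mon Ψ (c y) y ≠ 0 := by
      rw [c2.self_of_nhds, mul_ne_zero_iff, and_iff_right c1]
      rfl
    have c4 : P gm (c y) y ≠ 0 ↔ τ₀ (c y) y ≠ 0 := by
      have d := congrArg (· ≠ 0) (t2 y _ (hc y))
      simp only [mul_ne_zero_iff, eq_iff_iff] at d
      rwa [and_iff_left ((Fm.mon_ne (hc y) _).2 fun k f j => b2 ((hU.mem y).2
        (mem_biUnion ((hA.supp 0 k).1 f) j))), and_iff_left ((Fm.mon_ne (fun i => hc y (.inl i))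
          gp).2 fun k f j => b2 (mem_biUnion (e2 k f) j))] at d
    rw [← e3, ← not_iff_not]
    refine ⟨fun d f => (Fm.mon_ne (fun i => hc y (.inl i)) gm).1 (c4.2 (c3.2
      ((Fm.mon_ne (hc y) _).2 fun k j m => d (b3 k m ▸ j)))) l f a1, fun d f =>
      (Fm.mon_ne (hc y) _).1 (c3.1 (c4.1 ((Fm.mon_ne (fun i => hc y (.inl i)) gm).2
        fun k j m => a2 k (fun e => d (e ▸ j)) m))) _ f b1⟩
  refine ⟨Ψ, fun i x => v i (c x) x * τ₀ (c x) x, ⟨⟨fun i e y he a => (((hol_mul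
    (hv.hol i _ y a (hc y)).1 (sec_hol t1 trivial (hc y))).congr
      ((k1 i _ y a (hc y)).mono fun _ => Eq.symm)) e he).contDiffAt, fun i j y a b => ?_⟩,
    fun y i ζ a b => (hΨ y).unit (hv.hol i _ y a (hc y)).1 (hv.hol i _ y a (hc y)).2
      (k1 i _ y a (hc y)) ζ b⟩, fun l a => Nat.pos_of_ne_zero ((k2 l fun b =>
        (g1 l b).not_gt (g2 l a)).2 a), fun l a b => by_contra fun d => b ((k2 l a).1 d),
    fun y hy i a => mul_ne_zero (hv.hol i _ y a (hc y)).2 fun b => ?_⟩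
  · have d := hv.chg i j _ _ y a b (hc y) (hc y)
    have f := hl (∑ i : Fin 1, (pb _ (D.dv γ) - D'.dn (F i))) y trivial _ _ (hc y) (hc y)
    rw [mul_left_cancel₀ f.2.1 ((f.2.2 _ (hc y)).trans (mul_one _).symm), one_mul] at d
    exact ((inv_mul_eq_iff_eq_mul₀ (hΛ.ne_zero i j _ a b)).2 (by rw [← d]; ring)).symm
  · have c0 : ∀ w, p w = p (π y) → NZ (lin D.N (D.dn gm)) (D.mon gm) w := fun w d u f =>
      (Fm.mon_ne f gm).2 fun l j m => hy ⟨w, mem_biUnion ((e3 l).1 j) m, d⟩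
    have c1 := sec_mul (D.lbn _) (D.sec_mon (p ⁻¹' {p (π y)}) gp) (sec_inv (D.sec_mon _ gm)
      (eventually_nhdsSet_iff_forall.2 fun w d => nz_near (D.lbn _) (D.sec_mon _ gm) d (c0 w d)))
    obtain ⟨C, c2⟩ := (hA.mov.fix (fun _ => 1) (p (π y)) _ (sec_cast ((hS _ _).1 _ c1) (by
      rw [cb, Fin.sum_univ_one, one_smul, e1, sub_eq_add_neg])) y rfl _ (hc y)).bound
    have c3 : ContinuousAt (P gm (c y)) y :=
      sec_cont ((hS univ _).1 _ (D.sec_mon _ gm)) trivial (hc y)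
    have c4 : (1 : ℝ) ≤ C * ‖τ₀ (c y) y‖ := by
      refine ge_of_tendsto_of_frequently (f := fun x => C * ‖τ₀ (c y) x‖)
        (continuousAt_const.mul (sec_cont t1 trivial (hc y)).norm) ((Fm.freq_mon (hc y) (c2.and
          (c3.eventually_ne (c0 _ rfl _ fun i => hc y (.inl i))))).mono fun x d => ?_)
      obtain ⟨⟨d1, d2⟩, d3, d4, -⟩ := d
      rw [Fin.sum_univ_one, one_smul, (eq_inv_mul_iff_mul_eq₀ d2).2 (t2 x _ d3)] at d1
      refine le_of_mul_le_mul_right (a := ‖P gp (c y) x * (P gm (c y) x)⁻¹‖) ?_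
        (norm_pos_iff.2 (mul_ne_zero (hP gp _ x d3 d4) (inv_ne_zero d2)))
      refine (one_mul _).trans_le (d1.trans_eq ?_)
      simp only [norm_mul]
      ring
    rw [b, norm_zero, mul_zero] at c4
    exact absurd c4 (by norm_num)

end Vale.Agent.P277Z.Ex
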