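import Vale.Agent.P277Z.Ex.Main
import Vale.Agent.P277Z.Ex.Ch
import Vale.Agent.P277Z.Ex.Chm
import Vale.Agent.P277Z.Ex.Clo
import Vale.Agent.P277Z.Ex.Glp
import Vale.Agent.P277Z.Ex.Div
import Vale.Agent.P277Z.Ex.Ftn
import Vale.Agent.P277Z.Ex.Opn
import Vale.Agent.P277Z.Ex.Kod
import Vale.Agent.P277Z.Ex.Bsl
import Vale.Agent.P277Z.Ex.Cone
import Vale.Agent.P277Z.Ex.Famb
import Vale.Agent.P277Z.Ex.Mov
import Vale.Agent.P277Z.Ex.Emb
import Vale.Agent.P277Z.Ex.Modl
import Vale.Agent.P277Z.Ex.Qc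
import Vale.Agent.P277Z.Ex.Psi
import Vale.Agent.P277Z.Brg.Calc
import Vale.Agent.P277Z.Brg.Opn
import Vale.Agent.P277Z.Brg.Divv
import Vale.Agent.P277Z.Brg.Ramp
import Vale.Agent.P277Z.Pj.All0
import Vale.Agent.P277Z.Val.AmpC
import Vale.Agent.P277Z.Val.An
import Vale.Agent.P277Z.Val.Comp
import Vale.Agent.P277Z.Val.KB
import Vale.Agent.P277Z.GH.Prin
import Vale.Agent.P277Z.GH.KahMan
import Vale.Agent.P277Z.GH.KahM
import Vale.Agent.P277Z.GH.KahA

/-!
# P277, block EX: the theorems from finite generation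
-/

namespace Vale.Agent.P277Z.Ex

/-- the input from the other blocks -/
structure In : Prop where
  fg : Brg.FGB 4
  ft : Coh.FTS
  hir : Hir.StMain
  hirL : Hir.StMainL
  kod : Pos.KOD

theorem rpoA : Brg.RPO := Brg.rpo (Brg.opn Brg.calcR)

theorem okz : OKZ := okz_of Brg.calcR rpoA

theorem chm : CHM := chm_of ch

theorem stx : STX := stx_of Val.an Pj.rap

theorem dsc : DSC := dsc_of Pj.stb

theorem mov : MOV := mov_of dsc div

theorem psi : PSI := psi_of dsc div excs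

theorem opnF (h : Hir.StMain) (h' : Coh.FTS) : OPN := opn_of h (ftn_of (Pj.F.coht h')) clo

namespace In

variable (h : In)
include h

theorem fgv : Brg.FGV := Brg.fgv h.fg Brg.ramp rpoA Brg.divv Pj.rap (Pj.F.remg h.ft)

theorem glob : GLOB := glob_of chm sub (opnF h.hir h.ft)

theorem kodl : KODL := kodl_of h.kod Brg.calcR

theorem bsl : BSL := bsl_of excs okz h.kodl

theorem cone : CONE :=
  cone_of Brg.calcR rpoA (Brg.adjv Brg.calcR (Brg.opn Brg.calcR) Brg.divv) h.fgv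

theorem exa : EXA :=
  exa_of stx okz h.bsl famb (prb_of (GH.prin_of h.kod h.hirL) (Val.kb_of GH.kr GH.kproj GH.kman))
    mov contr (emb_of dsc div (aex_of h.fgv Brg.calcR) h.kodl (Val.ampC_of h.kod))
    (modl_of (Pj.F.model h.ft)) (Val.comp_of (Val.ampC_of h.kod) Val.an)

theorem extrV : Val.StExtrV := extrV_of h.fgv h.glob stx okz h.bsl h.exa h.cone qc

theorem exs : EXS := exs_of h.fgv h.glob stx okz h.bsl h.exa h.cone psi iso

end In

end Vale.Agent.P277Z.Ex
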