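import Vale.Agent.P277Z.Ex.Sk
import Vale.Agent.P277Z.Val.Pull
import Vale.Agent.P277Z.Val.Comp
import Vale.Agent.P277Z.Val.ResF

/-!
# P277, block EX: the push forwards are `ℚ`-Cartier
-/

open scoped Manifold ContDiff Topology
open Vale.Agent.P272.K Vale.Agent.P285.H281.FD Vale.Agent.P277 Set Filter
open Vale.Agent.P277.HD (pull)
open Vale.Agent.P277.T2 (IsCmpV)
open Vale.Agent.P277.PH (HolF)
open Vale.Agent.P277Z.Brg (fam vec)
open Vale.Agent.P277Z.Val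
open Vale.Agent.P277Z.Val.Pull (holF_zpow)

noncomputable section

namespace Vale.Agent.P277Z.Ex.QcH

variable {V : Lg} {α : Type} [Fintype α]

theorem hol_prod {ι : Type} [Fintype ι] {f : ι → V.W → ℂ} {y : V.W}
    (h : ∀ i, HolF 4 (f i) y ∧ f i y ≠ 0) (n : ι → ℤ) :
    HolF 4 (fun x => ∏ i, f i x ^ n i) y ∧ ∏ i, f i y ^ n i ≠ 0 :=
  ⟨fun ch hch => Finset.analyticAt_fun_prod _ fun i _ => holF_zpow (h i).1 (h i).2 _ ch hch,
    Finset.prod_ne_zero_iff.2 fun i _ => zpow_ne_zero _ (h i).2⟩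

theorem lb_lin {N : α → Bd V.W} (h : ∀ a, IsLB 4 (N a)) (n : α → ℤ) : IsLBx V.X (Slc.lin N n) where
  isOpen u := by
    show IsOpen {x | ∀ a, x ∈ (N a).U (u a)}
    rw [Set.ofPred_forall]
    exact isOpen_iInter_of_finite fun a => (h a).isOpen _
  cover x := by
    choose u hu using fun a => (h a).cover x
    exact ⟨u, hu⟩
  holo u v x hu hv := (hol_prod (fun a => ⟨CompH.lb_hol (h a) (hu a) (hv a),
    (h a).ne_zero _ _ _ (hu a) (hv a)⟩) n).1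
  ne_zero u v x hu hv :=
    Finset.prod_ne_zero_iff.2 fun a _ => zpow_ne_zero _ ((h a).ne_zero _ _ _ (hu a) (hv a))
  cocycle u v w x hu hv hw := by
    refine Finset.prod_mul_distrib.symm.trans (Finset.prod_congr rfl fun a _ => ?_)
    rw [← mul_zpow, (h a).cocycle _ _ _ _ (hu a) (hv a) (hw a)]

theorem prod_dv (D : Fm V α) {z : α → ℂ} (hz : ∀ a, z a ≠ 0) (θ : Fin V.r → ℤ) :
    ∏ a, z a ^ D.dv θ a = ∏ l, z (D.o l) ^ θ l := by
  classical
  have : ∀ s : Finset (Fin V.r), ∏ a, z a ^ (∑ l ∈ s, Pi.single (D.o l) (θ l) : α → ℤ) a =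
      ∏ l ∈ s, z (D.o l) ^ θ l := fun s => by
    induction s using Finset.induction_on with
    | empty => simp
    | insert l s hl ih =>
      simp only [Finset.sum_insert hl, Finset.prod_insert hl, Pi.add_apply, zpow_add₀ (hz _),
        Finset.prod_mul_distrib, ih]
      rw [Finset.prod_eq_single (D.o l) (fun a _ c => by simp [c]) (by simp)]
      simp
  rw [← this]
  exact Finset.prod_congr rfl fun a _ => by congr

omit [Fintype α] in
theorem eq_σ (D : Fm V α) {y : V.W} {u : Ix D.N} (hu : y ∈ Uc D.N u) :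
    V.Eq y fun l => D.σ l (u (D.o l)) := fun l => (D.div l).leq _ y (hu _)

theorem one {g : ℂ} (h0 : g ≠ 0) (h : g * g = g) : g = 1 :=
  mul_left_cancel₀ h0 (h.trans (mul_one _).symm)

/-- comparison functions from a family of formulas -/
theorem cmp_of (D : Fm V α) {Y : CSp} {ψ : V.W → Y.pt} (hψ : Continuous ψ) {L : Bd Y.pt}
    (hL : IsLBx Y L) {N : Bd V.W} (hN : IsLB 4 N) {ν : Fin V.r → ℤ}
    (F : Ix D.N → L.ι → N.ι → V.W → ℂ)
    (h1 : ∀ y w w' i i' e e', y ∉ V.E → y ∈ Uc D.N w → y ∈ Uc D.N w' → ψ y ∈ L.U i → ψ y ∈ L.U i' →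
      y ∈ N.U e → y ∈ N.U e' → F w' i' e' y = L.g i i' (ψ y) * F w i e y * N.g e' e y)
    (h2 : ∀ y w i e ζ, y ∈ Uc D.N w → ψ y ∈ L.U i → y ∈ N.U e → V.Eq y ζ → ∃ u, HolF 4 u y ∧
      u y ≠ 0 ∧ ∀ᶠ x in 𝓝 y, x ∉ V.E → F w i e x = u x * ∏ l, ζ l x ^ ν l) :
    ∃ t, IsCmpV ψ (fun _ : Fin 1 => L) (fun _ => N) V.G (fun _ => ν) t := by
  obtain ⟨v, hv⟩ : ∃ v : V.W → Ix D.N, ∀ y, y ∈ Uc D.N (v y) := by
    choose v hv using fun y a => (D.lb a).cover y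
    exact ⟨v, hv⟩
  refine ⟨fun _ i e y => F (v y) i e y, fun y => ?_, fun y _ i i' e e' hy a b c d =>
    h1 y _ _ i i' e e' hy (hv y) (hv y) a b c d⟩
  obtain ⟨ζ, hζ⟩ := V.exEq y
  refine ⟨ζ, hζ, fun _ i e hi he => ?_⟩
  obtain ⟨u, k1, k2, k3⟩ := h2 y _ i e ζ (hv y) hi he hζ
  refine ⟨u, k2, k1, ?_⟩
  filter_upwards [k3, eventually_all.2 fun a => ((D.lb a).isOpen _).mem_nhds (hv y a),
    hψ.continuousAt.eventually ((hL.isOpen i).mem_nhds hi), (hN.isOpen e).mem_nhds he]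
    with x e1 e2 e3 e4 hx
  rw [← e1 hx, h1 x (v y) (v x) i i e e hx e2 (hv x) e3 e3 e4 e4,
    one (hL.ne_zero _ _ _ e3 e3) (hL.cocycle _ _ _ _ e3 e3 e3),
    one (hN.ne_zero _ _ _ e4 e4) (hN.cocycle _ _ _ _ e4 e4 e4), one_mul, mul_one]

theorem lb_triv (V : Lg) : IsLB 4 (triv V.W) :=
  ⟨fun _ => isOpen_univ, fun _ => ⟨(), trivial⟩, fun _ _ _ _ _ _ _ => contDiffAt_const,
    fun _ _ _ _ _ => one_ne_zero, fun _ _ _ _ _ _ _ => mul_one _⟩

theorem lb_K (V : Lg) (m j : ℕ) : IsLB 4 ((((Bd.can 4 V.W).pow m).mul (triv V.W)).pow j) :=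
  RF.lb_iff.2 (H615.IsLBx.pow (RF.lbx_mul (H615.IsLBx.pow (RF.lb_iff.1 Slc.isLB_can) m)
    (RF.lb_iff.1 (lb_triv V))) j)

omit [Fintype α] in
theorem mon_unit (D : Fm V α) {y : V.W} {w : Ix D.N} (hw : y ∈ Uc D.N w) {ζ} (hζ : V.Eq y ζ)
    (θ : Fin V.r → ℤ) : ∃ u, HolF 4 u y ∧ u y ≠ 0 ∧
      ∀ᶠ x in 𝓝 y, ∏ l, D.σ l (w (D.o l)) x ^ θ l = u x * ∏ l, ζ l x ^ θ l := by
  obtain ⟨c, h1, h2⟩ := hζ.unit (eq_σ D hw)
  refine ⟨_, (hol_prod h1 θ).1, (hol_prod h1 θ).2, h2.mono fun x hx => ?_⟩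
  simp only [hx, mul_zpow, Finset.prod_mul_distrib, mul_comm]

omit [Fintype α] in
theorem mon_chg (D : Fm V α) {y : V.W} {w w' : Ix D.N} (hw : y ∈ Uc D.N w) (hw' : y ∈ Uc D.N w')
    (θ : Fin V.r → ℤ) : ∏ l, D.σ l (w (D.o l)) y ^ θ l =
      (∏ l, (D.N (D.o l)).g (w _) (w' _) y ^ θ l) * ∏ l, D.σ l (w' (D.o l)) y ^ θ l := by
  simp only [← Finset.prod_mul_distrib, ← mul_zpow]
  exact Finset.prod_congr rfl fun l _ => by rw [← (D.div l).sec.change _ _ _ (hw _) (hw' _)]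

theorem base {k : ℕ} {M : Fin k → Bd V.W} {O : Fin V.r → Bd V.W} {σ : ∀ l, (O l).ι → V.W → ℂ}
    (hM : ∀ e, IsLB 4 (M e)) (hO : ∀ l, Slc.IsDiv 4 (V.G l) (O l) (σ l)) (m₀ j : ℕ)
    (b : Fin V.r → ℤ) : ∃ t, IsCmpV (Y := V.W) (X := V.X) (fun y => y)
      (fun _ : Fin 1 => (Slc.lin (Fm.ofFam hM hO).N (j • vec (m₀ : ℤ) 0 b) : Bd V.W))
      (fun _ => (((Bd.can 4 V.W).pow m₀).mul (triv V.W)).pow j) V.G (fun _ l => -(j * b l)) t := by
  have hK : IsLB 4 (Bd.can 4 V.W) := Slc.isLB_can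
  refine cmp_of (Y := V.X) (Fm.ofFam hM hO) continuous_id (lb_lin (Fm.ofFam hM hO).lb _)
    (lb_K V m₀ j) (fun _ u e y => (Bd.can 4 V.W).g e.1 (u none) y ^ (m₀ * j) *
      ∏ l, σ l (u (some (.inr l))) y ^ (-(j * b l))) (fun y _ _ u u' e e' _ _ _ c d f g => ?_)
    fun y _ u e ζ _ c d hζ => ?_
  · have h1 : ∏ l, σ l (u (some (.inr l))) y ^ (-(j * b l)) =
        (∏ l, (O l).g (u (some (.inr l))) (u' (some (.inr l))) y ^ (-(j * b l))) *
          ∏ l, σ l (u' (some (.inr l))) y ^ (-(j * b l)) :=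
      mon_chg (Fm.ofFam hM hO) c d fun l => -(j * b l)
    have h2 : ∀ l, (O l).g (u (some (.inr l))) (u' (some (.inr l))) y ≠ 0 := fun l =>
      (hO l).lb.ne_zero _ _ _ (c (some (.inr l))) (d (some (.inr l)))
    have h3 := hK.cocycle e'.1 e.1 (u none) y g.1 f.1 (c none)
    have h4 := hK.cocycle e'.1 (u none) (u' none) y g.1 (c none) (d none)
    have h5 : (Slc.lin (Fm.ofFam hM hO).N (j • vec (m₀ : ℤ) 0 b)).g u u' y =
        (Bd.can 4 V.W).g (u none) (u' none) y ^ (m₀ * j) *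
          ∏ l, (O l).g (u (some (.inr l))) (u' (some (.inr l))) y ^ (j * b l) := by
      simp only [Slc.lin, Fintype.prod_option, Fintype.prod_sum_type, Pi.smul_apply, vec, nsmul_eq_mul,
        Pi.zero_apply, mul_zero, zpow_zero, Finset.prod_const_one, one_mul, mul_comm m₀ j,
        ← Nat.cast_mul, zpow_natCast]
      rfl
    have h6 : (∏ l, (O l).g (u (some (.inr l))) (u' (some (.inr l))) y ^ (j * b l)) *
        ∏ l, (O l).g (u (some (.inr l))) (u' (some (.inr l))) y ^ (-(j * b l)) = 1 := by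
      rw [← Finset.prod_mul_distrib]
      exact Finset.prod_eq_one fun l _ => by rw [← zpow_add₀ (h2 l), add_neg_cancel, zpow_zero]
    show _ = _ * (_ * _) * ((Bd.can 4 V.W).g e'.1 e.1 y ^ m₀ * 1) ^ j
    erw [h5]
    rw [h1, ← h4, ← h3, mul_one, ← pow_mul, mul_pow, mul_pow]
    linear_combination (-(Bd.can 4 V.W).g e'.1 e.1 y ^ (m₀ * j) *
      (Bd.can 4 V.W).g e.1 (u none) y ^ (m₀ * j) * (Bd.can 4 V.W).g (u none) (u' none) y ^ (m₀ * j) *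
      ∏ l, σ l (u' (some (.inr l))) y ^ (-(j * b l))) * h6
  · obtain ⟨v, h1, h2, h3⟩ := mon_unit (Fm.ofFam hM hO) c hζ fun l => -(j * b l)
    have h4 := CompH.lb_hol hK d.1 (c none)
    refine ⟨fun x => (Bd.can 4 V.W).g e.1 (u none) x ^ (m₀ * j) * v x,
      HolF.mul (fun ch hch => (h4 ch hch).fun_pow _) h1,
      mul_ne_zero (pow_ne_zero _ (hK.ne_zero _ _ _ d.1 (c none))) h2, h3.mono fun x hx _ => ?_⟩
    rw [mul_assoc, ← hx]
    rfl

end Vale.Agent.P277Z.Ex.QcH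

namespace Vale.Agent.P277Z.Ex

open QcH in
theorem qc : QC := by
  intro V' V π s k M O σ hM hO β _ E h Y ψ T m₀ j b Φ L u hπ hs hψ hT hj hΦ hL hu
  obtain ⟨n, ⟨t, ht⟩, h1, -⟩ := cmpP V' V π s hπ hs V.X (fun y => y) 1 (fun _ => m₀) (fun _ => j)
    (fun _ => triv V.W) _ _ continuous_id (fun _ => lb_lin (Fm.ofFam hM hO).lb _)
    (fun _ => lb_triv V) (fun _ => hj) (base hM hO m₀ j fun l => b (s l))
  let D := (Fm.ofFam hM hO).up π h E
  refine ⟨L, j, fun l => n 0 l + Φ l, hL, hj, cmp_of D hψ hL (lb_K V' m₀ j)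
    (fun w i e y => t 0 (fun a => w (.inl a)) e y * (∏ l, D.σ l (w (D.o l)) y ^ Φ l) * u i w y)
    (fun y w w' i i' e e' hy a b c d f g => ?_) fun y w i e ζ a c d hζ => ?_, fun l hl => ?_⟩
  · have k1 := ht.change y 0 (fun a => w (.inl a)) (fun a => w' (.inl a)) e e' hy
      (fun x => a (.inl x)) (fun x => b (.inl x)) f g
    have k2 := mon_chg D a b Φ
    have k3 := hu.chg i i' w w' y c d a b
    have k4 : ∀ x, (D.N x).g (w x) (w' x) y ≠ 0 := fun x => (D.lb x).ne_zero _ _ _ (a x) (b x)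
    have k5 : ∀ v : _ → ℤ, (Slc.lin D.N (pb β v - D.dv Φ)).g w w' y *
        ∏ l, (D.N (D.o l)).g (w _) (w' _) y ^ Φ l =
        (Slc.lin (Fm.ofFam hM hO).N v).g (fun a => w (.inl a)) (fun a => w' (.inl a)) (π y) := by
      intro v
      rw [← prod_dv D k4 Φ]
      simp only [Slc.lin, ← Finset.prod_mul_distrib, ← zpow_add₀ (k4 _), Pi.sub_apply,
        sub_add_cancel]
      simp only [Fintype.prod_sum_type, pb, Sum.elim_inl, Sum.elim_inr, Pi.zero_apply, zpow_zero,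
        Finset.prod_const_one, mul_one]
      rfl
    erw [← k5] at k1
    show t 0 _ e' y * _ * _ = _ * (t 0 _ e y * _ * _) * _
    have k6 : ((((Bd.can 4 V'.W).pow m₀).mul (pull π (triv V.W))).pow j).g e' e y =
      ((((Bd.can 4 V'.W).pow m₀).mul (triv V'.W)).pow j).g e' e y := rfl
    rw [k1, k2, k6]
    linear_combination -(t 0 (fun a => w (.inl a)) e y *
      (∏ l, (D.N (D.o l)).g (w _) (w' _) y ^ Φ l) * (∏ l, D.σ l (w' (D.o l)) y ^ Φ l) *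
      ((((Bd.can 4 V'.W).pow m₀).mul (triv V'.W)).pow j).g e' e y) * k3
  · obtain ⟨ζ', a1, a2⟩ := ht.div y
    obtain ⟨v, a3, a4, a5⟩ := a2 0 (fun a => w (.inl a)) e (fun x => a (.inl x)) d
    obtain ⟨v', b1, b2, b3⟩ := mon_unit D a hζ Φ
    obtain ⟨c', c1, c2⟩ := hζ.unit a1
    have c3 := hol_prod c1 (n 0)
    refine ⟨fun x => v x * (∏ l, c' l x ^ n 0 l) * v' x * u i w x, HolF.mul (HolF.mul (HolF.mul
      a4 c3.1) b1) (hu.hol i w y c a).1, mul_ne_zero (mul_ne_zero (mul_ne_zero a3 c3.2) b2)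
      (hu.hol i w y c a).2, ?_⟩
    filter_upwards [a5, b3, c2, hζ.ne] with x d1 d2 d3 d4 hx
    simp only [d1 hx, d2, d3, mul_zpow, Finset.prod_mul_distrib, zpow_add₀ (d4 hx _)]
    ring
  · obtain ⟨l, rfl⟩ : l ∈ range s := by_contra fun c => hl (hT l c)
    simp only [h1, hΦ _ hl, add_zero]

end Vale.Agent.P277Z.Ex
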