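import Vale.Agent.P277Z.Ex.Sk
import Vale.Agent.P277Z.Val.Snc

/-!
# P277, block EX: the calculus of sections
-/

open scoped Manifold ContDiff Topology
open Vale.Agent.P272.K Vale.Agent.P285.H281.FD Vale.Agent.P277 Set Filter Asymptotics
open Vale.Agent.P277.HD (pull)
open Vale.Agent.P277Z.Slc (lin)
open Vale.Agent.P277Z.Brg (LBN SecN RPos fam vec)
open Vale.Agent.P277Z.Val (Lg)

noncomputable section

namespace Vale.Agent.P277Z.Ex

/-! ### lattice points -/

section lat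

variable {α β : Type} {q q' : ℕ} (b : Fin q → α → ℤ)

theorem cb_zero : cb b 0 = 0 := by simp [cb]

theorem cb_add (a a' : Fin q → ℕ) : cb b (a + a') = cb b a + cb b a' := by
  simp [cb, add_smul, Finset.sum_add_distrib]

theorem cb_smul (k : ℕ) (a : Fin q → ℕ) : cb b (k • a) = k • cb b a := by
  simp only [cb, Finset.smul_sum, Pi.smul_apply, smul_eq_mul, mul_smul]

theorem cb_sum {ι : Type} (S : Finset ι) (a : ι → Fin q → ℕ) :
    cb b (∑ i ∈ S, a i) = ∑ i ∈ S, cb b (a i) := by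
  simp only [cb, Finset.sum_apply, Finset.sum_smul]
  exact Finset.sum_comm

theorem cb_single (i : Fin q) (m : ℕ) : cb b (Pi.single i m) = m • b i := by
  rw [cb, Finset.sum_eq_single i (fun j _ h => by rw [Pi.single_eq_of_ne h, zero_smul])
    (fun h => absurd (Finset.mem_univ _) h), Pi.single_eq_same]

theorem cb_const (m : ℕ) : cb b (fun _ => m) = m • ∑ i, b i := by rw [cb, Finset.smul_sum]

theorem cb_cb (A : Fin q' → Fin q → ℕ) (a : Fin q' → ℕ) :
    cb (fun i => cb b (A i)) a = cb b (∑ i, a i • A i) := by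
  rw [cb_sum, cb]
  simp only [cb_smul]

theorem rl_add (a a' : α → ℤ) : rl (a + a') = rl a + rl a' := funext fun _ => Int.cast_add _ _

theorem rl_sub (a a' : α → ℤ) : rl (a - a') = rl a - rl a' := funext fun _ => Int.cast_sub _ _

theorem rl_neg (a : α → ℤ) : rl (-a) = -rl a := funext fun _ => Int.cast_neg _

theorem rl_nsmul (k : ℕ) (a : α → ℤ) : rl (k • a) = (k : ℝ) • rl a :=
  funext fun i => by simp [rl]

theorem rl_sum {ι : Type} (S : Finset ι) (a : ι → α → ℤ) :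
    rl (∑ i ∈ S, a i) = ∑ i ∈ S, rl (a i) :=
  funext fun i => by simp [rl, Finset.sum_apply]

theorem pb_zero : pb β (0 : α → ℤ) = 0 := funext fun i => by rcases i with i | i <;> rfl

theorem pb_add (a a' : α → ℤ) : pb β (a + a') = pb β a + pb β a' :=
  funext fun i => by rcases i with i | i <;> simp [pb]

theorem pb_sub (a a' : α → ℤ) : pb β (a - a') = pb β a - pb β a' :=
  funext fun i => by rcases i with i | i <;> simp [pb]

theorem pb_nsmul (k : ℕ) (a : α → ℤ) : pb β (k • a) = k • pb β a :=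
  funext fun i => by rcases i with i | i <;> simp [pb]

theorem pb_zsmul (k : ℤ) (a : α → ℤ) : pb β (k • a) = k • pb β a :=
  funext fun i => by rcases i with i | i <;> simp [pb]

theorem pb_sum {ι : Type} (S : Finset ι) (a : ι → α → ℤ) :
    pb β (∑ i ∈ S, a i) = ∑ i ∈ S, pb β (a i) :=
  funext fun i => by rcases i with i | i <;> simp [pb, Finset.sum_apply]

theorem cb_pb (a : Fin q → ℕ) : cb (fun i => pb β (b i)) a = pb β (cb b a) := by
  simp only [cb, pb_sum, pb_nsmul]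

theorem Ndg.ne {A : Fin q → Fin q → ℕ} (h : Ndg A) (i : Fin q) : A i ≠ 0 := fun e =>
  h (Matrix.det_eq_zero_of_row_eq_zero i fun j => by simp [e])

end lat

/-! ### norms -/

section norm

variable {W ι J : Type} [Fintype J] {f : J → ι → W → ℂ} {u : ι} {l : Filter W}

theorem nm_nonneg (f : J → ι → W → ℂ) (u : ι) (w : W) : 0 ≤ nm f u w :=
  Finset.sum_nonneg fun _ _ => norm_nonneg _

theorem le_nm (f : J → ι → W → ℂ) (j : J) (u : ι) (w : W) : ‖f j u w‖ ≤ nm f u w :=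
  Finset.single_le_sum (f := fun j => ‖f j u w‖) (fun _ _ => norm_nonneg _) (Finset.mem_univ j)

theorem nm_eq_zero {w : W} : nm f u w = 0 ↔ ∀ j, f j u w = 0 := by
  simp [nm, Finset.sum_eq_zero_iff_of_nonneg]

theorem isBigO_nm (f : J → ι → W → ℂ) (j : J) (u : ι) (l : Filter W) : f j u =O[l] nm f u :=
  IsBigO.of_bound' (.of_forall fun w => (le_nm f j u w).trans (le_abs_self _))

theorem nm_isBigO {E : Type} [SeminormedAddCommGroup E] {g : W → E} (h : ∀ j, f j u =O[l] g) :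
    nm f u =O[l] g :=
  (IsBigO.sum fun j _ => (h j).norm_left).congr_left fun _ => Finset.sum_apply _ _ _

end norm

/-! ### sections -/

section sec

variable {n : ℕ} {W X α : Type} [TopologicalSpace W] [ChartedSpace (Cm n) W] {F F' : Set W}

theorem hol_mul {a b : W → ℂ} {x : W} (ha : Hol n a x) (hb : Hol n b x) :
    Hol n (fun y => a y * b y) x := fun e he => (ha e he).mul (hb e he)

theorem hol_const (c : ℂ) (x : W) : Hol n (fun _ => c) x := fun _ _ => analyticAt_const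

theorem hol_prod {ι : Type} (S : Finset ι) {a : ι → W → ℂ} {x : W} (h : ∀ i ∈ S, Hol n (a i) x) :
    Hol n (fun y => ∏ i ∈ S, a i y) x := fun e he =>
  Finset.analyticAt_fun_prod S fun i hi => h i hi e he

theorem hol_pow {a : W → ℂ} {x : W} (h : Hol n a x) (k : ℕ) : Hol n (fun y => a y ^ k) x :=
  fun e he => (h e he).fun_pow k

theorem hol_zpow {a : W → ℂ} {x : W} (h : Hol n a x) (h0 : a x ≠ 0) (k : ℤ) :
    Hol n (fun y => a y ^ k) x := fun e he =>
  (h e he).fun_zpow (by rwa [e.left_inv he.2])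

section one

variable {M : Bd W} {s : M.ι → W → ℂ} {w : W}

theorem sec_near (h : SecN n F M s) (hw : w ∈ F) : ∀ᶠ y in 𝓝 w, ∀ i, y ∈ M.U i →
    Hol n (s i) y ∧ ∀ j, y ∈ M.U j → s i y = M.g i j y * s j y :=
  h.filter_mono (nhds_le_nhdsSet hw)

theorem sec_of (h : ∀ w ∈ F, ∀ᶠ y in 𝓝 w, ∀ i, y ∈ M.U i →
    Hol n (s i) y ∧ ∀ j, y ∈ M.U j → s i y = M.g i j y * s j y) : SecN n F M s :=
  eventually_nhdsSet_iff_forall.2 h

theorem sec_mono (h : SecN n F M s) (hF : F' ⊆ F) : SecN n F' M s :=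
  h.filter_mono (nhdsSet_mono hF)

theorem sec_hol (h : SecN n F M s) (hw : w ∈ F) {i : M.ι} (hi : w ∈ M.U i) : Hol n (s i) w :=
  ((sec_near h hw).self_of_nhds i hi).1

theorem sec_cont (h : SecN n F M s) (hw : w ∈ F) {i : M.ι} (hi : w ∈ M.U i) :
    ContinuousAt (s i) w := (sec_hol h hw hi).continuousAt

theorem sec_zero : SecN n F M fun _ _ => 0 :=
  Eventually.of_forall fun y _ _ => ⟨hol_const 0 y, fun _ _ => (mul_zero _).symm⟩

theorem secN_of_isSec (h : IsSec n M s) (F : Set W) : SecN n F M s :=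
  Eventually.of_forall fun y i hi =>
    ⟨fun e he => (h.holo i e y he hi).analyticAt, fun j hj => h.change i j y hi hj⟩

theorem isSec_of_secN (h : SecN n univ M s) : IsSec n M s :=
  ⟨fun _ e x he hi => (sec_hol h (mem_univ x) hi e he).contDiffAt,
    fun i j x hi hj => ((sec_near h (mem_univ x)).self_of_nhds i hi).2 j hj⟩

theorem nz_iff (hM : LBN n F M) (h : SecN n F M s) (hw : w ∈ F) {i : M.ι} (hi : w ∈ M.U i) :
    NZ M s w ↔ s i w ≠ 0 :=
  ⟨fun k => k i hi, fun k j hj => by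
    rw [((sec_near h hw).self_of_nhds j hj).2 i hi]
    exact mul_ne_zero ((hM.near.filter_mono (nhds_le_nhdsSet hw)).self_of_nhds j i hj hi).2.1 k⟩

/-- change of the frame -/
theorem sec_chg (hM : LBN n F M) (h : SecN n F M s) (hw : w ∈ F) {i j : M.ι} (hi : w ∈ M.U i)
    (hj : w ∈ M.U j) : s i =O[𝓝 w] s j := by
  have c := ((hM.near.filter_mono (nhds_le_nhdsSet hw)).self_of_nhds i j hi hj).1.continuousAt
  refine ((c.isBigO_one ℂ).mul (isBigO_refl (s j) _)).congr' ?_ (.of_forall fun y => one_mul _)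
  filter_upwards [sec_near h hw, (hM.isOpen i).mem_nhds hi, (hM.isOpen j).mem_nhds hj]
    with y h1 h2 h3 using ((h1 i h2).2 j h3).symm

end one

variable [Fintype α] {L : α → Bd W} {a b : α → ℤ} {s t : Ix L → W → ℂ} {w : W}

theorem isOpen_Uc (hL : ∀ a, LBN n F (L a)) (u : Ix L) : IsOpen (Uc L u) := by
  have : Uc L u = ⋂ a, (L a).U (u a) := by ext; simp
  exact this ▸ isOpen_iInter_of_finite fun a => (hL a).isOpen _

omit [Fintype α] in
theorem exists_ix (hL : ∀ a, LBN n F (L a)) (hw : w ∈ F) : ∃ u, w ∈ Uc L u := by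
  choose u hu using fun a => (hL a).cover w hw
  exact ⟨u, hu⟩

theorem lbn_lin (hL : ∀ a, LBN n F (L a)) (a : α → ℤ) : LBN n F (lin L a) where
  isOpen := isOpen_Uc hL
  cover _ := exists_ix hL
  near := by
    filter_upwards [eventually_all.2 fun a => (hL a).near] with y h i j hi hj
    refine ⟨hol_prod _ fun c _ => hol_zpow (h c _ _ (hi c) (hj c)).1 (h c _ _ (hi c) (hj c)).2.1 _,
      Finset.prod_ne_zero_iff.2 fun c _ => zpow_ne_zero _ (h c _ _ (hi c) (hj c)).2.1,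
      fun k hk => ?_⟩
    refine Finset.prod_mul_distrib.symm.trans (Finset.prod_congr rfl fun c _ => ?_)
    rw [← mul_zpow, (h c _ _ (hi c) (hj c)).2.2 _ (hk c)]

theorem sec_mul (hL : ∀ a, LBN n F (L a)) (hs : SecN n F (lin L a) s) (ht : SecN n F (lin L b) t) :
    SecN n F (lin L (a + b)) fun u w => s u w * t u w := by
  filter_upwards [eventually_all.2 fun a => (hL a).near, hs, ht] with y h h1 h2 i hi
  refine ⟨hol_mul (h1 i hi).1 (h2 i hi).1, fun j hj => ?_⟩
  have e : (lin L (a + b)).g i j y = (lin L a).g i j y * (lin L b).g i j y :=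
    (Finset.prod_congr rfl fun c _ => zpow_add₀ (h c _ _ (hi c) (hj c)).2.1 _ _).trans
      Finset.prod_mul_distrib
  rw [e, (h1 i hi).2 j hj, (h2 i hi).2 j hj, mul_mul_mul_comm]

theorem sec_cast (hs : SecN n F (lin L a) s) (h : a = b) : SecN n F (lin L b) s := h ▸ hs

theorem sec_one : SecN n F (lin L 0) fun _ _ => 1 :=
  Eventually.of_forall fun y _ _ => ⟨hol_const 1 y, fun _ _ => by simp [Slc.lin]⟩

theorem sec_prod (hL : ∀ a, LBN n F (L a)) {ι : Type} (S : Finset ι) {d : ι → α → ℤ}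
    {f : ι → Ix L → W → ℂ} (h : ∀ i ∈ S, SecN n F (lin L (d i)) (f i)) :
    SecN n F (lin L (∑ i ∈ S, d i)) fun u w => ∏ i ∈ S, f i u w := by
  classical
  induction S using Finset.induction_on with
  | empty => simpa using sec_one
  | insert i S hi ih =>
    simp only [Finset.prod_insert hi]
    exact sec_cast (sec_mul hL (h i (Finset.mem_insert_self _ _))
      (ih fun j hj => h j (Finset.mem_insert_of_mem hj))) (Finset.sum_insert hi).symm

theorem sec_pow (hL : ∀ a, LBN n F (L a)) (hs : SecN n F (lin L a) s) (k : ℕ) :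
    SecN n F (lin L (k • a)) fun u w => s u w ^ k := by
  have h := sec_cast (b := k • a)
    (sec_prod hL (Finset.range k) (d := fun _ => a) (f := fun _ => s) fun _ _ => hs) (by simp)
  simp only [Finset.prod_const, Finset.card_range] at h
  exact h

/-- the inverse of a section without zeros -/
theorem sec_inv (hs : SecN n F (lin L a) s) (h0 : ∀ᶠ y in 𝓝ˢ F, NZ (lin L a) s y) :
    SecN n F (lin L (-a)) fun u w => (s u w)⁻¹ := by
  filter_upwards [hs, h0] with y h1 h2 i hi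
  refine ⟨by simpa using hol_zpow (h1 i hi).1 (h2 i hi) (-1), fun j hj => ?_⟩
  rw [(h1 i hi).2 j hj, mul_inv]
  simp [Slc.lin]

theorem nz_near (hL : ∀ a, LBN n F (L a)) (hs : SecN n F (lin L a) s) (hw : w ∈ F)
    (h : NZ (lin L a) s w) : ∀ᶠ y in 𝓝 w, NZ (lin L a) s y := by
  obtain ⟨u, hu⟩ := exists_ix hL hw
  filter_upwards [(sec_cont hs hw hu).eventually_ne (h u hu), sec_near hs hw,
    (lbn_lin hL a).near.filter_mono (nhds_le_nhdsSet hw), (isOpen_Uc hL u).mem_nhds hu]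
    with y h1 h2 h3 h4 j hj
  rw [(h2 j hj).2 u h4]
  exact mul_ne_zero (h3 j u hj h4).2.1 h1

/-- one frame is enough -/
theorem bo_of (hL : ∀ a, LBN n F (L a)) (hs : SecN n F (lin L a) s) (ht : SecN n F (lin L b) t)
    (h : ∀ w ∈ F, ∃ u, w ∈ Uc L u ∧ s u =O[𝓝 w] t u) : Bo F L s t := fun w hw _ hu =>
  let ⟨_, h1, h2⟩ := h w hw
  ((sec_chg (lbn_lin hL a) hs hw hu h1).trans h2).trans (sec_chg (lbn_lin hL b) ht hw h1 hu)

theorem nm_chg (hL : ∀ a, LBN n F (L a)) {J : Type} [Fintype J] {f : J → Ix L → W → ℂ}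
    (h : ∀ j, SecN n F (lin L a) (f j)) (hw : w ∈ F) {u u' : Ix L} (hu : w ∈ Uc L u)
    (hu' : w ∈ Uc L u') : nm f u =O[𝓝 w] nm f u' :=
  nm_isBigO fun j => (sec_chg (lbn_lin hL a) (h j) hw hu hu').trans (isBigO_nm f j u' _)

theorem Gen.le_one {q m : ℕ} {e : Fin q → α → ℤ} {f : Fin q → Fin m → Ix L → W → ℂ}
    (h : Gen n F L e f) {i : Fin q} {k : ℕ} (hs : SecN n F (lin L (k • e i)) s) :
    Bo F L s fun u w => nm (f i) u w ^ k := fun w hw u hu => by
  refine (h.le (Pi.single i k) s (sec_cast hs (cb_single ..).symm) w hw u hu).congr_right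
    fun y => ?_
  beta_reduce
  rw [Finset.prod_eq_single i (fun j _ k => by rw [Pi.single_eq_of_ne k, pow_zero])
    (fun k => absurd (Finset.mem_univ _) k), Pi.single_eq_same]

variable {p : W → X}

theorem Fre.mul (hL : ∀ a, LBN n (p ⁻¹' {p w}) (L a)) (h : Fre n p L a w) (h' : Fre n p L b w) :
    Fre n p L (a + b) w :=
  let ⟨_, h1, h2⟩ := h
  let ⟨_, k1, k2⟩ := h'
  ⟨_, sec_mul hL h1 k1, fun i hi => mul_ne_zero (h2 i hi) (k2 i hi)⟩

theorem Fre.pow (hL : ∀ a, LBN n (p ⁻¹' {p w}) (L a)) (h : Fre n p L a w) (k : ℕ) :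
    Fre n p L (k • a) w :=
  let ⟨_, h1, h2⟩ := h
  ⟨_, sec_pow hL h1 k, fun i hi => pow_ne_zero k (h2 i hi)⟩

theorem fre_sum (hL : ∀ a, LBN n (p ⁻¹' {p w}) (L a)) {ι : Type} (S : Finset ι) {d : ι → α → ℤ}
    (h : ∀ i, Fre n p L (d i) w) : Fre n p L (∑ i ∈ S, d i) w := by
  choose f h1 h2 using h
  exact ⟨_, sec_prod hL S fun i _ => h1 i,
    fun u hu => Finset.prod_ne_zero_iff.2 fun i _ => h2 i u hu⟩

end sec

/-! ### divisors -/

namespace Fm

variable {V V' : Lg} {α β : Type} (D : Fm V α)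

section dv

variable {R : Type} [AddCommGroup R]

theorem dv_zero : D.dv (0 : Fin V.r → R) = 0 := by simp [dv]

theorem dv_add (θ θ' : Fin V.r → R) : D.dv (θ + θ') = D.dv θ + D.dv θ' := by
  simp [dv, Pi.single_add, Finset.sum_add_distrib]

theorem dv_neg (θ : Fin V.r → R) : D.dv (-θ) = -D.dv θ := by simp [dv, Pi.single_neg]

theorem dv_sub (θ θ' : Fin V.r → R) : D.dv (θ - θ') = D.dv θ - D.dv θ' := by
  rw [sub_eq_add_neg, dv_add, dv_neg, ← sub_eq_add_neg]

theorem dv_smul {S : Type} [Semiring S] [Module S R] (c : S) (θ : Fin V.r → R) :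
    D.dv (c • θ) = c • D.dv θ := by
  simp only [dv, Finset.smul_sum, Pi.smul_apply, Pi.single_smul']

theorem dv_sum {ι : Type} (S : Finset ι) (θ : ι → Fin V.r → R) :
    D.dv (∑ i ∈ S, θ i) = ∑ i ∈ S, D.dv (θ i) :=
  map_sum (AddMonoidHom.mk' D.dv D.dv_add) θ S

end dv

open Classical in
theorem dv_apply {R : Type} [AddCommMonoid R] (θ : Fin V.r → R) (a : α) :
    D.dv θ a = ∑ l, if a = D.o l then θ l else 0 := by
  simp only [dv, Finset.sum_apply, Pi.single_apply]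

theorem rl_dv (θ : Fin V.r → ℤ) : rl (D.dv θ) = D.dv fun l => (θ l : ℝ) := by
  classical
  funext a
  simp only [rl, dv, Finset.sum_apply, Int.cast_sum]
  refine Finset.sum_congr rfl fun l _ => ?_
  by_cases h : a = D.o l
  · subst h; simp
  · simp [h]

theorem rl_dn (c : Fin V.r → ℕ) : rl (D.dn c) = D.dv fun l => (c l : ℝ) := by
  simp [dn, rl_dv]

theorem dn_zero : D.dn 0 = 0 := D.dv_zero

theorem dn_add (c c' : Fin V.r → ℕ) : D.dn (c + c') = D.dn c + D.dn c' :=
  (congrArg D.dv (funext fun _ => Nat.cast_add _ _)).trans (D.dv_add _ _)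

theorem dn_smul (k : ℕ) (c : Fin V.r → ℕ) : D.dn (k • c) = k • D.dn c :=
  (congrArg D.dv (funext fun l => by simp)).trans (D.dv_smul k _)

theorem dn_sum {ι : Type} (S : Finset ι) (c : ι → Fin V.r → ℕ) :
    D.dn (∑ i ∈ S, c i) = ∑ i ∈ S, D.dn (c i) :=
  map_sum (⟨⟨D.dn, D.dn_zero⟩, D.dn_add⟩ : (Fin V.r → ℕ) →+ α → ℤ) c S

theorem up_dv {R : Type} [AddCommMonoid R] {π : V'.W → V.W} (h : ∀ a, IsLB 4 (pull π (D.N a)))
    (E : Fm V' β) (θ : Fin V'.r → R) : (D.up π h E).dv θ = Sum.elim (fun _ => 0) (E.dv θ) := by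
  funext a
  rcases a with a | a
  · simp [dv, up, Finset.sum_apply]
  · rw [dv_apply, Sum.elim_inr, dv_apply]
    refine Finset.sum_congr rfl fun l _ => ?_
    by_cases k : a = E.o l
    · exact (if_pos (congrArg Sum.inr k)).trans (if_pos k).symm
    · exact (if_neg fun e => k (Sum.inr_injective e)).trans (if_neg k).symm

theorem ofFam_dv {R : Type} [AddCommMonoid R] {k : ℕ} {M : Fin k → Bd V.W}
    (hM : ∀ e, IsLB 4 (M e)) {O : Fin V.r → Bd V.W} {σ : ∀ l, (O l).ι → V.W → ℂ}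
    (hO : ∀ l, Slc.IsDiv 4 (V.G l) (O l) (σ l)) (θ : Fin V.r → R) :
    (ofFam hM hO).dv θ = vec 0 0 θ := by
  funext a
  rcases a with _ | a | a <;> simp [dv, ofFam, vec, Finset.sum_apply, Pi.single_apply]

theorem lbn (F : Set V.W) (a : α) : LBN 4 F (D.N a) := Brg.lbn_of (D.lb a) F

theorem exists_ix (w : V.W) : ∃ u, w ∈ Uc D.N u := Ex.exists_ix (D.lbn univ) (mem_univ w)

variable {D} {u : Ix D.N} {w : V.W}

/-- the canonical sections are local equations -/
theorem eq (hu : w ∈ Uc D.N u) : V.Eq w fun l => D.σ l (u (D.o l)) :=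
  fun l => (D.div l).leq _ w (hu _)

theorem σ_eq_zero (hu : w ∈ Uc D.N u) (l : Fin V.r) : D.σ l (u (D.o l)) w = 0 ↔ w ∈ V.G l :=
  ((D.div l).leq _ w (hu _)).mem

theorem mon_ne (hu : w ∈ Uc D.N u) (c : Fin V.r → ℕ) :
    D.mon c u w ≠ 0 ↔ ∀ l, c l ≠ 0 → w ∉ V.G l := by
  simp only [mon, Finset.prod_ne_zero_iff, Finset.mem_univ, true_imp_iff, ne_eq, pow_eq_zero_iff',
    σ_eq_zero hu, not_and]
  exact forall_congr' fun l => ⟨fun h h1 h2 => h h2 h1, fun h h1 h2 => h h2 h1⟩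

theorem mon_ne_of (hu : w ∈ Uc D.N u) (c : Fin V.r → ℕ) (hw : w ∉ V.E) : D.mon c u w ≠ 0 :=
  (mon_ne hu c).2 fun l _ h => hw (mem_iUnion.2 ⟨l, h⟩)

variable (D)

theorem mon_zero (u : Ix D.N) (w : V.W) : D.mon 0 u w = 1 := by simp [mon]

theorem mon_add (c c' : Fin V.r → ℕ) (u : Ix D.N) (w : V.W) :
    D.mon (c + c') u w = D.mon c u w * D.mon c' u w := by
  simp [mon, pow_add, Finset.prod_mul_distrib]

theorem mon_smul (k : ℕ) (c : Fin V.r → ℕ) (u : Ix D.N) (w : V.W) :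
    D.mon (k • c) u w = D.mon c u w ^ k := by
  simp [mon, ← Finset.prod_pow, ← pow_mul, mul_comm]

theorem mon_sum {ι : Type} (S : Finset ι) (c : ι → Fin V.r → ℕ) (u : Ix D.N) (w : V.W) :
    D.mon (∑ i ∈ S, c i) u w = ∏ i ∈ S, D.mon (c i) u w := by
  simp only [mon, Finset.sum_apply, ← Finset.prod_pow_eq_pow_sum]
  exact Finset.prod_comm

theorem mon_single (l : Fin V.r) (u : Ix D.N) (w : V.W) :
    D.mon (Pi.single l 1) u w = D.σ l (u (D.o l)) w := by
  rw [mon, Finset.prod_eq_single l (fun j _ k => by rw [Pi.single_eq_of_ne k, pow_zero])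
    (fun k => absurd (Finset.mem_univ _) k), Pi.single_eq_same, pow_one]

variable [Fintype α]

theorem isOpen_Uc (u : Ix D.N) : IsOpen (Uc D.N u) := Ex.isOpen_Uc (D.lbn univ) u

theorem sec_mon (F : Set V.W) (c : Fin V.r → ℕ) : SecN 4 F (lin D.N (D.dn c)) (D.mon c) := by
  classical
  have h (l : Fin V.r) : SecN 4 F (lin D.N (Pi.single (D.o l) 1)) fun u => D.σ l (u (D.o l)) := by
    filter_upwards [secN_of_isSec (D.div l).sec F] with y h i hi
    refine ⟨(h _ (hi _)).1, fun j hj => ((h _ (hi _)).2 _ (hj _)).trans (congrArg (· * _) ?_)⟩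
    refine ((Finset.prod_eq_single (D.o l) (fun b _ hb => ?_) fun h => ?_).trans ?_).symm
    · rw [Pi.single_eq_of_ne hb, zpow_zero]
    · exact absurd (Finset.mem_univ _) h
    · rw [Pi.single_eq_same, zpow_one]
  refine sec_cast (sec_prod (D.lbn F) _ fun l _ => sec_pow (D.lbn F) (h l) (c l)) ?_
  rw [dn, dv]
  exact Finset.sum_congr rfl fun l _ => by rw [← Pi.single_smul', nsmul_eq_mul, mul_one]

variable {D}

/-- the monomials do not vanish at the general points -/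
theorem freq_mon (hu : w ∈ Uc D.N u) {p : V.W → Prop} (h : ∀ᶠ y in 𝓝 w, p y) :
    ∃ᶠ y in 𝓝 w, p y ∧ y ∈ Uc D.N u ∧ y ∉ V.E ∧ ∀ c, D.mon c u y ≠ 0 :=
  ((Val.U.freq_notE V w).and_eventually (h.and ((D.isOpen_Uc u).mem_nhds hu))).mono
    fun _ k => ⟨k.2.1, k.2.2, k.1, fun c => mon_ne_of k.2.2 c k.1⟩

theorem mon_nz (hu : w ∈ Uc D.N u) (c : Fin V.r → ℕ) : Nz (D.mon c u) w := fun h =>
  let ⟨_, h1, _, _, h2⟩ := (freq_mon hu h).exists
  h2 c h1

end Fm

end Vale.Agent.P277Z.Ex
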