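import Vale.Agent.P277Z.Brg.Sk2
import Vale.Agent.P277Z.Hl.Defs

/-!
# P277, block EX: section rings near a fibre (definitions and statements)
-/

open scoped Manifold ContDiff Topology
open Vale.Agent.P272.K Vale.Agent.P285.H281.FD Vale.Agent.P277 Set Filter Asymptotics
open Vale.Agent.P277.H60.Z (XH)
open Vale.Agent.P277Z.Coh (LBOn)
open Vale.Agent.P277Z.Slc (lin ForW)
open Vale.Agent.P277Z.Brg (LBN SecN FGL RPos ForC)
open Vale.Agent.P277Z.Pj (AllM AllC Prp Prj HolTo GPrj)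

noncomputable section

namespace Vale.Agent.P277Z.Ex

section gen

variable {W X α : Type}

/-- the indices of the common cover of a family of line bundles -/
abbrev Ix (L : α → Bd W) : Type := ∀ a, (L a).ι

/-- the common cover -/
abbrev Uc (L : α → Bd W) (u : Ix L) : Set W := {w | ∀ a, w ∈ (L a).U (u a)}

/-- the lattice point `∑ i, a i • b i` -/
def cb {q : ℕ} (b : Fin q → α → ℤ) (a : Fin q → ℕ) : α → ℤ := ∑ i, a i • b i

/-- the real point of a lattice point -/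
def rl (a : α → ℤ) : α → ℝ := fun i => a i

/-- the norm of a finite family -/
def nm {ι J : Type} [Fintype J] (f : J → ι → W → ℂ) (i : ι) (w : W) : ℝ := ∑ j, ‖f j i w‖

variable [TopologicalSpace W]

/-- `f` is bounded by a multiple of `g` near the points of `F` -/
def Bo {E : Type} [Norm E] (F : Set W) (L : α → Bd W) (f : Ix L → W → ℂ) (g : Ix L → W → E) :
    Prop :=
  ∀ w ∈ F, ∀ u, w ∈ Uc L u → f u =O[𝓝 w] g u

/-- at the general points of `G l` near `y` the function `g` is bounded by a multiple of `D` -/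
def Pl {E : Type} [Norm E] {r : ℕ} (G : Fin r → Set W) (l : Fin r) (g : W → ℂ) (D : W → E) (y : W) :
    Prop :=
  ∀ᶠ y' in 𝓝 y, y' ∈ G l → (∀ k, k ≠ l → y' ∉ G k) → g =O[𝓝 y'] D

variable (n : ℕ) [ChartedSpace (Cm n) W] [Fintype α]

/-- The ring of the sections near `F` with degrees in the monoid generated by the `e i` is
generated, up to integral closure, by the sections `f i j` of the degrees `e i`. -/
structure Gen (F : Set W) (L : α → Bd W) {q m : ℕ} (e : Fin q → α → ℤ)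
    (f : Fin q → Fin m → Ix L → W → ℂ) : Prop where
  sec : ∀ i j, SecN n F (lin L (e i)) (f i j)
  le : ∀ a s, SecN n F (lin L (cb e a)) s → Bo F L s fun u w => ∏ i, nm (f i) u w ^ a i

/-- multiples of `a` have sections near `F` which do not vanish identically -/
def Big (F : Set W) (L : α → Bd W) (a : α → ℤ) : Prop :=
  ∀ w ∈ F, ∃ (m : ℕ) (s : Ix L → W → ℂ), 1 ≤ m ∧ SecN n F (lin L (m • a)) s ∧
    ∀ u, w ∈ Uc L u → Nz (s u) w

/-- there is a section near the fibre through `w` which does not vanish at `w` -/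
def Fre (p : W → X) (L : α → Bd W) (a : α → ℤ) (w : W) : Prop :=
  ∃ s, SecN n (p ⁻¹' {p w}) (lin L a) s ∧ NZ (lin L a) s w

/-- the same generators for all fibres near `x` -/
def MulU [TopologicalSpace X] (p : W → X) (L : α → Bd W) {q : ℕ} (e : Fin q → α → ℤ) (x : X) :
    Prop :=
  ∃ (m : ℕ) (f : Fin q → Fin m → Ix L → W → ℂ), ∀ᶠ x' in 𝓝 x, Gen n (p ⁻¹' {x'}) L e f

/-- finite generation along the fibre over `x` -/
def FgX (p : W → X) (L : α → Bd W) {q : ℕ} (b : Fin q → α → ℤ) (x : X) : Prop :=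
  ∃ (N : ℕ) (t : W → Cm N) (z : Cm N), (∀ w, p w = x → ContinuousAt t w ∧ t w = z) ∧
    FGL n (p ⁻¹' {x}) t z L (AddSubmonoid.closure (range b) : Set (α → ℤ))

end gen

/-- the rows of `A` lie on one side of each of the walls -/
def Side {q q' : ℕ} (H : Finset (Fin q → ℤ)) (A : Fin q' → Fin q → ℕ) : Prop :=
  ∀ h ∈ H, (∀ i, 0 ≤ ∑ j, h j * A i j) ∨ ∀ i, ∑ j, h j * A i j ≤ 0

/-- the determinant does not vanish -/
def Ndg {q : ℕ} (A : Fin q → Fin q → ℕ) : Prop := (Matrix.of fun i j => (A i j : ℤ)).det ≠ 0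

/-- ROW CH: chambers -/
def CH : Prop := ∀ (m q : ℕ) (d : Fin m → Fin q → ℕ), ∃ (H : Finset (Fin q → ℤ)) (k : ℕ),
  1 ≤ k ∧ ∀ (q' : ℕ) (A : Fin q' → Fin q → ℕ), Side H A →
    ∃ Φ : Fin q' → Finset (Fin m → ℕ), (∀ i, ∀ ν ∈ Φ i, ∑ j, ν j • d j = k • A i) ∧
      ∀ (β : Fin m → ℝ) (a : Fin q' → ℕ) (μ : Fin m → ℕ), (∀ j, 0 ≤ β j ∧ β j ≤ 1) →
        ∑ j, μ j • d j = ∑ i, a i • k • A i →
        ∏ j, β j ^ μ j ≤ ∏ i, (∑ ν ∈ Φ i, ∏ j, β j ^ ν j) ^ a i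

/-- ROW GLP: one cone for all points of a compact set -/
def GLP : Prop := ∀ (X : Type) [TopologicalSpace X] (K : Set X) (q : ℕ)
  (P : X → (Fin q → Fin q → ℕ) → Prop), IsCompact K →
  (∀ x ∈ K, ∃ (H : Finset (Fin q → ℤ)) (k : ℕ), 1 ≤ k ∧
    ∀ A, Ndg A → Side H A → ∀ᶠ x' in 𝓝 x, P x' fun i => k • A i) →
  (∀ x ∈ K, ∀ A B : Fin q → Fin q → ℕ, P x A → P x fun i => ∑ j, B i j • A j) →
  ∃ A, Ndg A ∧ ∀ x ∈ K, P x A

/-- ROW CHM: generation in a chamber -/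
def CHM : Prop := ForW fun n W _ _ => ∀ (F : Set W) (α : Type) [Fintype α] (L : α → Bd W) (q : ℕ)
  (b : Fin q → α → ℤ) (N : ℕ) (t : W → Cm N) (z : Cm N), (∀ a, LBN n F (L a)) →
  LinearIndependent ℤ b → (∀ w ∈ F, ContinuousAt t w ∧ t w = z) →
  FGL n F t z L (AddSubmonoid.closure (range b) : Set (α → ℤ)) →
  ∃ (H : Finset (Fin q → ℤ)) (k : ℕ), 1 ≤ k ∧ ∀ (q' : ℕ) (A : Fin q' → Fin q → ℕ), Side H A →
    ∃ (m : ℕ) (f : Fin q' → Fin m → Ix L → W → ℂ), Gen n F L (fun i => cb b (k • A i)) f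

/-- ROW SUB: passage to smaller cones -/
def SUB : Prop := ForW fun n W _ _ => ∀ (α : Type) [Fintype α] (L : α → Bd W) (q m q' : ℕ)
  (e : Fin q → α → ℤ) (f : Fin q → Fin m → Ix L → W → ℂ) (A : Fin q' → Fin q → ℕ),
  ∃ (m' : ℕ) (f' : Fin q' → Fin m' → Ix L → W → ℂ), ∀ F : Set W, (∀ a, LBN n F (L a)) →
    Gen n F L e f → Gen n F L (fun i => cb e (A i)) f'

/-- ROW DIV: division of sections -/
def DIV : Prop := ForW fun n W _ _ => ∀ (F : Set W) (α : Type) [Fintype α] (L : α → Bd W)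
  (a b : α → ℤ) (s t : Ix L → W → ℂ), (∀ a, LBN n F (L a)) → SecN n F (lin L a) s →
  SecN n F (lin L b) t → (∀ w ∈ F, ∀ u, w ∈ Uc L u → Nz (t u) w) → Bo F L s t →
  ∃ s', SecN n F (lin L (a - b)) s' ∧ ∀ᶠ w in 𝓝ˢ F, ∀ u, w ∈ Uc L u → s u w = s' u w * t u w

/-- ROW FTN: finite type -/
def FTN : Prop := AllM fun n W _ _ => ∀ (N : ℕ) (O : Set W) (t : W → Cm N) (Ω : Set (Cm N)),
  Prp (n + 1) O t Ω → Prj (n + 1) O t → ∀ (α : Type) [Fintype α] (L : α → Bd W),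
  (∀ a, LBOn (n + 1) O (L a)) → ∀ a : α → ℤ, ∀ z ∈ Ω, ∃ (m : ℕ) (g : Fin m → Ix L → W → ℂ),
    ∀ᶠ z' in 𝓝 z, (∀ j, SecN (n + 1) (O ∩ t ⁻¹' {z'}) (lin L a) (g j)) ∧
      ∀ s, SecN (n + 1) (O ∩ t ⁻¹' {z'}) (lin L a) s → Bo (O ∩ t ⁻¹' {z'}) L s (nm g)

/-- ROW CLO: divisibility along the components of a divisor with simple normal crossings -/
def CLO : Prop := Hl.All1 fun n Y _ _ => ∀ (r : ℕ) (G : Fin r → Set Y)
  (lab : Y → Fin r → Option (Fin n)), Hl.Sn n G lab → (∀ l, IsClosed (G l)) ∧ ∀ y,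
  (∀ l, y ∈ G l → ∀ U ∈ 𝓝 y, ∃ C ⊆ U ∩ G l, IsPreconnected C ∧ C ∈ 𝓝[G l] y) ∧
  ∀ g D : Y → ℂ, Hol n g y → Hol n D y → (∀ᶠ y' in 𝓝 y, (∀ l, y' ∉ G l) → D y' ≠ 0) →
    (∀ l, y ∈ G l → (∃ᶠ y' in 𝓝 y, y' ∈ G l ∧ Pl G l g D y') → Pl G l g D y) ∧
    ((∀ l, y ∈ G l → Pl G l g D y) → g =O[𝓝 y] D)

/-- ROW OPN: generation is an open property -/
def OPN : Prop := AllM fun n W _ _ => ∀ (N : ℕ) (O : Set W) (t : W → Cm N) (Ω : Set (Cm N)),
  Prp (n + 1) O t Ω → Prj (n + 1) O t → ∀ (α : Type) [Fintype α] (L : α → Bd W),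
  (∀ a, LBOn (n + 1) O (L a)) → ∀ z ∈ Ω, ∀ (q m : ℕ) (e : Fin q → α → ℤ)
    (f : Fin q → Fin m → Ix L → W → ℂ), (∀ i, Big (n + 1) (O ∩ t ⁻¹' {z}) L (e i)) →
    Gen (n + 1) (O ∩ t ⁻¹' {z}) L e f → ∀ᶠ z' in 𝓝 z, Gen (n + 1) (O ∩ t ⁻¹' {z'}) L e f

/-- ROW GLOB: one cone for all fibres -/
def GLOB : Prop := AllC fun n W _ _ _ _ _ => ∀ (X : CSp) (p : W → X.pt) (α : Type) [Fintype α]
  (L : α → Bd W) (q : ℕ) (b : Fin q → α → ℤ), HolTo (n + 1) X p → GPrj (n + 1) X p →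
  (∀ a, IsLB (n + 1) (L a)) → LinearIndependent ℤ b → (∀ x, FgX (n + 1) p L b x) →
  (∀ a, a ≠ 0 → ∀ x, Big (n + 1) (p ⁻¹' {x}) L (cb b a)) →
  ∃ A, Ndg A ∧ ∀ x, MulU (n + 1) p L (fun i => cb b (A i)) x

/-- ROW KODL: relatively positive classes are relatively ample -/
def KODL : Prop := ForC fun n W _ _ _ _ _ => ∀ (X : CSp) (p : W → X.pt) (α : Type) [Fintype α]
  (L : α → Bd W) (a : α → ℤ), HolTo n X p → (∀ a, IsLB n (L a)) → RPos n p L (rl a) →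
  RelAmple (XH n W) X p (lin L a) ∧ ∀ w, ∃ j : ℕ, 1 ≤ j ∧ Fre n p L (j • a) w

end Vale.Agent.P277Z.Ex
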