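import Vale.Agent.P277Z.Glc.Md
import Vale.Agent.P277Z.St.Prime

/-!
# P277, block EX: a log resolution which dominates a model
-/

open scoped Manifold ContDiff Topology
open Vale.Agent.P277 hiding Amin IsFlipR
open Vale.Agent.P277.HD Vale.Agent.P277.PH
open Vale.Agent.P272.K Vale.Agent.P285.H281.FD Set Filter

noncomputable section

namespace Vale.Agent.P277Z.Glc

namespace LRes

open Val St

/-- a bimeromorphic map of models which is an isomorphism off the components -/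
theorem hom0 {V' V : Lg} {q : V'.W → V.W} {B : Set V.W} (h : IsBim V'.X V.X q B)
    (h1 : ∀ y, q y ∈ B → y ∈ V'.E) (h2 : ∀ y, q y ∈ V.E → y ∈ V'.E) : Hom0 V' V q := by
  have h3 : ∀ y (e' : Chart 4 V'.W) (e : Chart 4 V.W), At e' y → At e (q y) →
      AnalyticAt ℂ (fun z => e (q (e'.symm z))) (e' y) := fun y e' e he' he =>
    analyticAt_pi_iff.2 fun i => h.holo y (fun x : V.W => e x i) (holF_chart he i) e' he'
  refine ⟨h.cont, h3, h2, fun y hy e' e he' he => ?_⟩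
  choose f hf hf' using fun i => h.iso y (fun x : V'.W => e' x i) (fun k => hy (h1 y k))
    (holF_chart he' i)
  refine (locIso_of_inv (θ := fun w i => f i (e.symm w)) (h3 y e' e he' he) ?_ ?_).2
  · rw [e'.left_inv he'.2]
    exact analyticAt_pi_iff.2 fun i => hf i e he
  · filter_upwards [PH.ev_symm he'.2 ((eventually_all.2 hf').and
      (h.cont.continuousAt.eventually (e.open_source.eventually_mem he.2))),
      e'.open_target.mem_nhds (e'.map_source he'.2)] with z e1 e2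
    funext i
    rw [e.left_inv e1.2]
    exact (e1.1 i).symm.trans (congrFun (e'.right_inv e2) i)

/-- the modification defined by such a map -/
theorem exists_md {U V : Mf 4} {q : U.T → V.T} (h : Hom0 U.lg V.lg q) (hs : Function.Surjective q)
    (hi : ∀ y, y ∉ ⋃ l, U.G l → ∀ y', q y' = q y → y' = y) : ∃ B : Md U V, B.π = q := by
  obtain ⟨o, ho⟩ := h.exists_tot
  obtain ⟨J, hJ⟩ := h.exists_jac
  refine ⟨⟨q, ⟨h.cont, fun y g hg => h.holF hg⟩, hs, o, J, fun y l ζ hζ => ?_,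
    fun y e' e he' he => ((mon_iff_val (V := U)).1 (hJ y e' e he' he)).2, hi⟩, rfl⟩
  obtain ⟨ζ', h'⟩ := V.exEq (q y)
  obtain ⟨u, a, b, c⟩ := (h' l).unit hζ
  exact ((mon_iff_val (V := U)).1 (ho y ζ' h' l)).2.unit (h.holF a) b
    ((h.cont.continuousAt.eventually c).mono fun _ k _ => k)

end LRes

open Val St in
/-- (LRES) -/
theorem lres_of (hR : GH.StRes0) (hD : GH.StDom) (hP : GH.StPrin) (hC : GH.StComp) (hF : GH.StFam)
    (hKR : GH.StKR) (hKP : GH.StKProj) (hKM : GH.StKMan) (h4 : Pj.RAP) (h5 : Pj.PRJS)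
    (h6 : Pj.REMG) (hPull : StPull) : StLRes := by
  intro D W hW
  have hX : IsNormal 4 (D.S.X 0) := (D.S.flip 0).normal
  obtain ⟨P, -, -, hP1, hP2, -⟩ := hW.amp
  have hg : Pj.HolTo 4 (D.S.X 0) (W.p 0) := ⟨(W.hol 0 le_rfl).1, (W.hol 0 le_rfl).2⟩
  have hA : IsAn (D.S.X 0) univ (W.p 0 '' ⋃ l, W.G l) := by
    rw [image_iUnion]
    exact Pr.an_iUnion fun l => img_of h5 h6 W.toMf.lg _ _ hg
      (@h4 3 W.T _ _ _ W.ch W.mf _ _ P hg hP1 hP2) l
  have h1 : ∀ y, W.p 0 y ∈ W.p 0 '' ⋃ l, W.G l ↔ y ∈ ⋃ l, W.G l := fun y =>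
    ⟨fun ⟨y', a, b⟩ => by_contra fun c => c (hW.inj y y' c b ▸ a), fun a => ⟨y, a, rfl⟩⟩
  have h2 : Dense (⋃ l, W.G l)ᶜ := Lg.dense W.toMf.lg
  have hb : IsBim W.toMf.lg.X (D.S.X 0) (W.p 0) (W.p 0 '' ⋃ l, W.G l) :=
    ⟨hg.cont, hg.hol, hW.surj, hA, h2.mono (compl_subset_compl.2 fun y => (h1 y).1),
      fun y y' hy => hW.inj y y' fun k => hy ((h1 y).2 k), fun y f hy hf => by
        have k1 : y ∉ ⋃ l, W.G l := fun k => hy ((h1 y).2 k)
        have he := at_chartAt (n := 4) (show W.T from y)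
        refine ⟨_, hW.emb.hol_of_analyticAt y k1 he (hf _ he), ?_⟩
        filter_upwards [hW.emb.isOpen.mem_nhds k1] with y' k2
        exact congrArg f (hW.emb.inv_apply y k2).symm⟩
  obtain ⟨V, p, exc, hr, hE⟩ := logres_of hR hP hC hF _ hX _ hA
    ((hW.surj.denseRange.dense_image hg.cont h2).mono (by
      rintro _ ⟨y, hy, rfl⟩ k
      exact hy ((h1 y).1 k)))
  obtain ⟨V', π, q, -, exc', -, k1, k2, -, k3, -, k4⟩ := hD _ W.toMf.lg.X _ _ P hX
    (nx W.toMf.lg W.conn.toNonempty) hb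
    ⟨hP1.isOpen, hP1.cover, fun i j y hi hj e he => (hP1.holo i j e y he hi hj).analyticAt,
      hP1.ne_zero, hP1.cocycle⟩ hP2 V p exc hr
  have k5 : ∀ y, q y ∈ W.p 0 ⁻¹' ((fun y => p (π y)) '' ⋃ l ∈ exc', V'.G l) → y ∈ V'.E :=
    fun y hy => by_contra fun k => (Fst.not_mem_img k2).2 (fun a => k (Lf.sub_E V' exc' a))
      (k3 y ▸ hy)
  obtain ⟨χ, hχ⟩ := Fst.kahler hKR hKP hKM hX (D.kah 0) k2
  have : ConnectedSpace (D.S.X 0).pt := hW.surj.connectedSpace hg.cont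
  have : ConnectedSpace V'.W := Fst.conn hX k2
  let U : Mf 4 :=
    { T := V'.W, χ := χ, kahler := hχ, r := V'.r, G := V'.G, connG := V'.conn, snc := V'.snc }
  obtain ⟨B, hB⟩ := LRes.exists_md (U := U) (V := W.toMf) (q := q)
    (LRes.hom0 (V' := V') (V := W.toMf.lg) k4 k5 fun y hy =>
      k1.pre y (hE _ (k3 y ▸ (h1 _).2 hy))) k4.surj
    fun y hy y' => k4.inj y y' fun k => hy (k5 y k)
  obtain ⟨W', h, e⟩ := hPull D 0 4 W U B
  have k6 : ∀ s : Σ V', Md V' W.toMf, s = ⟨U, B⟩ →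
      ∃ ex, Res s.1.lg (D.S.X 0) (fun y => W.p 0 (s.2.π y)) ex := by
    rintro _ rfl
    refine ⟨exc', ?_⟩
    show Res V' _ (fun y => W.p 0 (B.π y)) exc'
    rw [hB, funext k3]
    exact k2
  obtain ⟨ex, k7⟩ := k6 _ e
  refine ⟨W', ex, ?_, ⟨h⟩⟩
  show Res W'.toMf.lg _ (W'.p 0) ex
  rw [← funext (h.hp 0 le_rfl)]
  exact k7

end Vale.Agent.P277Z.Glc
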