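import Vale.Agent.P277Z.Ex.Api
import Vale.Agent.P277Z.Slc.Bridge

/-!
# P277, block EX: the extraction theorems from the rows
-/

open scoped Manifold ContDiff Topology
open Vale.Agent.P272.K Vale.Agent.P285.H281.FD Vale.Agent.P277 Set Filter Asymptotics
open Vale.Agent.P277.HD (pull)
open Vale.Agent.P277Z.Slc (lin)
open Vale.Agent.P277Z.Brg (LBN SecN RPos fam vec FGV)
open Vale.Agent.P277Z.Val (Lg Res IsPM disc pos)
open Vale.Agent.P277Z.Pj (PIso)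

noncomputable section

namespace Vale.Agent.P277Z.Ex

theorem exa_of (hS : STX) (hO : OKZ) (hB : BSL) (hF : FAMB) (hP : PRB) (hM : MOV) (hC : CONTR)
    (hE : EMB) (hL : MODL) (hc : Val.StComp) : EXA := by
  intro V X p exc α _ D hX hp χ R q e hχ hm hok
  have ne : Nonempty V.W := by
    obtain ⟨_, g, -⟩ := hX.sing
    exact ⟨(hp.surj (g 0 0)).choose⟩
  obtain ⟨I, hI, hZ⟩ := hF V X p α D.N _ e hp.cont D.lb hm
  have hZ' : ∀ j, (I j).Z = ⋃ l ∈ R, V.G l := fun j => Set.ext fun w =>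
    (hZ j w).trans ((hB V X p exc α D hX hp R (e j) (hok j)).2 w).symm
  obtain ⟨V', π, χ', exc₁, s, F, hU, hF⟩ := hP V χ hχ ne R q I hZ'
  obtain ⟨O', σ', hO'⟩ := Slc.exists_div V'
  let E : Fm V' (Fin V'.r) := ⟨O', id, σ', fun l => (hO' l).lb, hO'⟩
  have h : ∀ a, IsLB 4 (pull π (D.N a)) := fun a => hU.lb _ (D.lb a)
  have st := (hS V' V.X π exc₁ hU.normal hU.blw.res).1
  obtain ⟨sX, -, dX⟩ :=
    hS V' X _ _ hX (hc V' V X p π exc exc₁ s hX hU.blw.hom hU.str hU.blw.res hp).2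
  obtain ⟨mov, sup⟩ := hM V' V π α _ D h E st X p _ e I F hI hF
  have supp : ∀ i k, F i k ≠ 0 ↔ k ∈ exc₁ ∪ R.image s := fun i k =>
    (sup i k).trans (by rw [hZ']; exact hU.sub k)
  obtain ⟨o1, o2⟩ := hO V X p exc α D hX hp R
  obtain ⟨⟨m, θ, -, h1, h2⟩, -⟩ :=
    o2 _ (o1 _ e (fun _ => 1) hok fun k => one_ne_zero (congrFun k 0))
  rw [cb_const, one_smul] at h2
  obtain ⟨Y, g, ψ, Λ, md⟩ := hL V' X (fun w => p (π w)) _ (D.up π h E).N _
    (fun i => pb _ (e i) - (D.up π h E).dn (F i)) _ ⟨(hU.blw.hom.surj ne.some).choose⟩ sX.toHolTo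
    dX (D.up π h E).lb mov.free
    (fun l hl w hw => ⟨_, hC V' _ _ _ _ _ _ F mov l ⟨0, (supp 0 l).2 hl⟩ w hw⟩)
    (hE V' V π α _ D h E st χ' exc₁ s R X p _ e F m θ hU ⟨hp.cont, hp.hol⟩ mov h1 h2)
  exact ⟨V', π, χ', exc₁, s, h, E, F, Y, g, ψ, Λ, hU, st, sX, mov, supp, md⟩

namespace Mn

variable {V : Lg} {X : CSp} {p : V.W → X.pt} {exc R : Finset (Fin V.r)}

theorem fgx (hF : FGV) {k : ℕ} {M : Fin k → Bd V.W} (hM : ∀ e, IsLB 4 (M e))
    {O : Fin V.r → Bd V.W} {σ : ∀ l, (O l).ι → V.W → ℂ}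
    (hO : ∀ l, Slc.IsDiv 4 (V.G l) (O l) (σ l)) (hp : Res V X p exc) {q : ℕ}
    {b : Fin q → Option (Fin k ⊕ Fin V.r) → ℤ} (h : ∀ i, Adj p M O (b i)) (x : X.pt) :
    FgX 4 p (Fm.ofFam hM hO).N b x := by
  classical
  obtain ⟨N, k', U, Ω, h', ψ, hx, hψ⟩ := X.model x
  refine ⟨N, fun w => ψ (p w), ψ x, fun w hw => ⟨?_, congrArg ψ hw⟩, ?_⟩
  · refine ContinuousAt.comp (f := p) ?_ hp.cont.continuousAt
    rw [hw]
    exact (continuousOn_iff_continuous_domRestrict.2 hψ.emb.continuous).continuousAt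
      (hψ.isOpen.mem_nhds hx)
  · have := (hF k V M X p exc O σ hO hM hp).2 N k' U Ω h' ψ hψ x hx (Finset.univ.image b)
      fun a ha => by
        obtain ⟨i, -, rfl⟩ := Finset.mem_image.1 ha
        obtain ⟨d, B, h1, h2, h3⟩ := h i
        exact ⟨d, B, h1, h2, h3 x⟩
    rwa [Finset.coe_image, Finset.coe_univ, image_univ] at this

variable {α : Type} [Fintype α] {D : Fm V α}

theorem cone (hG : GLOB) (hS : STX) (hO : OKZ) (hB : BSL) (hX : IsNormal 4 X) (hp : Res V X p exc)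
    {q : ℕ} {b : Fin q → α → ℤ} (hb : LinearIndependent ℤ b) (hf : ∀ x, FgX 4 p D.N b x)
    (hok : ∀ i, D.Ok p exc R (rl (b i))) : ∃ A, Ndg A ∧
      (∀ x, MulU 4 p D.N (fun i => cb b (A i)) x) ∧ ∀ i, D.Ok p exc R (rl (cb b (A i))) := by
  have ok := (hO V X p exc α D hX hp R).1 q b
  obtain ⟨A, h1, h2⟩ := @hG 3 V.W _ _ _ V.ch V.mf X p α _ D.N q b
    (hS V X p exc hX hp).1.toHolTo (hS V X p exc hX hp).2.1 D.lb hb hf
    fun a ha => (hB V X p exc α D hX hp R _ (ok a hok ha)).1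
  exact ⟨A, h1, h2, fun i => ok _ hok (h1.ne i)⟩

omit [Fintype α] in
theorem span {q : ℕ} {b : Fin q → α → ℤ} {A : Fin q → Fin q → ℕ} (hA : Ndg A) {v : α → ℤ} {j : ℕ}
    {z : Fin q → ℤ} (hj : 1 ≤ j) (h : j • v = ∑ i, z i • b i) :
    ∃ (j' : ℕ) (z' : Fin q → ℤ), 1 ≤ j' ∧ j' • v = ∑ i, z' i • cb b (A i) := by
  set B : Matrix (Fin q) (Fin q) ℤ := Matrix.of fun i j => (A i j : ℤ) with hB
  have k (i : Fin q) : ∑ l, B.adjugate i l • cb b (A l) = B.det • b i := by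
    have e (t : Fin q) : ∑ l, B.adjugate i l * A l t = if i = t then B.det else 0 := by
      have := congrFun (congrFun B.adjugate_mul i) t
      simpa [Matrix.mul_apply, Matrix.one_apply, hB] using this
    simp only [cb, Finset.smul_sum, ← natCast_zsmul, smul_smul]
    rw [Finset.sum_comm]
    simp only [← Finset.sum_smul, e]
    simp
  refine ⟨B.det.natAbs * B.det.natAbs * j, fun l => ∑ i, B.det * z i * B.adjugate i l,
    Nat.mul_pos (Nat.mul_pos (Int.natAbs_pos.2 hA) (Int.natAbs_pos.2 hA)) hj, ?_⟩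
  rw [mul_smul, h, ← natCast_zsmul, Int.natAbs_mul_self, Finset.smul_sum]
  simp only [Finset.sum_smul, mul_smul]
  rw [Finset.sum_comm]
  refine Finset.sum_congr rfl fun i _ => ?_
  rw [← Finset.smul_sum, ← Finset.smul_sum, k, smul_comm (z i)]

theorem piso_cast {Y : Type} {ψ : V.W → Y} {L : Bd Y} {N : α → Bd V.W} {a b : α → ℤ}
    {u : L.ι → Ix N → V.W → ℂ} (h : PIso 4 ψ L (lin N a) u) (e : a = b) :
    PIso 4 ψ L (lin N b) u := e ▸ h

theorem mulU_zero (x : X.pt) : MulU 4 p D.N (fun _ : Fin 1 => 0) x := by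
  refine ⟨1, fun _ _ _ _ => 1, .of_forall fun x' => ⟨fun _ _ => sec_one, fun a s hs w hw u hu => ?_⟩⟩
  simpa [nm] using (sec_cont hs hw hu).isBigO_one ℝ

end Mn

open Mn

theorem extrV_of (hF : FGV) (hG : GLOB) (hS : STX) (hO : OKZ) (hB : BSL) (hA : EXA) (hC : CONE)
    (hQ : QC) : Val.StExtrV := by
  intro k ρ m V χ M X L c p exc n hρ hs hX hL hc hP h1 h2
  obtain ⟨O, σ, hσ⟩ := Slc.exists_div V
  have mem (l : Fin V.r) : l ∈ pos (disc ρ c n) ↔ 0 < disc ρ c n l := by simp [pos]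
  obtain ⟨⟨q, b, b1, b2, b3, b4⟩, -⟩ := hC k ρ m V χ M X L c p exc n O σ hP.lb hσ
    (pos (disc ρ c n)) (exc \ pos (disc ρ c n)) (fun e => (hρ e).le) hs hL hc hP
    (fun l hl => by_contra fun k => (h2 l k).not_gt ((mem l).1 hl))
    (fun l hl => (em _).imp_right fun k => Finset.mem_sdiff.2 ⟨hl, k⟩) Finset.disjoint_sdiff
    (fun l => (h1 l).le) (fun l _ => h1 l) fun l hl => not_lt.1 fun k => hl ((mem l).2 k)
  obtain ⟨A, a1, a2, a3⟩ := cone hG hS hO hB hX hP.res b1 (fgx hF hP.lb hσ hP.res b2) b3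
  obtain ⟨V', π, χ', exc₁, s, h, E, F, Y, g, ψ, Λ, hA⟩ :=
    hA V X p exc _ _ hX hP.res χ _ q _ hP.kahler a2 a3
  refine ⟨V', π, χ', exc₁, _, s, Y, g, ψ, Λ, hA.up.blw, hA.up.str, hA.md.normal, hA.md.hol,
    hA.md.comm, hA.md.lb, hA.md.amp, hA.md.res, fun m₀ b' => ?_⟩
  obtain ⟨j, z, j1, j2⟩ := b4 (vec (m₀ : ℤ) 0 fun l => b' (s l))
  obtain ⟨j, z, j1, j2⟩ := span a1 j1 j2
  obtain ⟨L', u, l1, l2⟩ := hA.md.desc z
  refine hQ V' V π s k M O σ hP.lb hσ _ E h Y ψ _ m₀ j b' (∑ i, z i • fun l => (F i l : ℤ)) L' u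
    hA.up.blw.hom hA.up.str hA.md.stein.cont
    (fun k hk => Finset.mem_union_left _ ((hA.up.new k).2 hk)) j1 (fun k hk => ?_) l1
    (piso_cast l2 ?_)
  · rw [Finset.sum_apply]
    exact Finset.sum_eq_zero fun i _ => by
      simp [not_not.1 (mt (hA.supp i k).1 hk)]
  · simp only [j2, pb_sum, pb_zsmul, Fm.dv_sum, Fm.dv_smul, smul_sub, Finset.sum_sub_distrib]
    rfl

theorem exs_of (hF : FGV) (hG : GLOB) (hS : STX) (hO : OKZ) (hB : BSL) (hA : EXA) (hC : CONE)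
    (hΨ : PSI) (hI : ISO) : EXS := by
  intro k ρ m V χ M X L c p exc n S hρ hs hX hL hc hP h1 h2 h3 h4
  obtain ⟨O, σ, hσ⟩ := Slc.exists_div V
  obtain ⟨-, γ, g1, g2, g3, g4, g5⟩ := hC k ρ m V χ M X L c p exc n O σ hP.lb hσ (exc \ S) S hρ hs
    hL hc hP Finset.sdiff_subset
    (fun l hl => (em (l ∈ S)).symm.imp_left fun k => Finset.mem_sdiff.2 ⟨hl, k⟩)
    Finset.sdiff_disjoint h1 (fun l hl => h3 l (Finset.mem_sdiff.1 hl).1 (Finset.mem_sdiff.1 hl).2)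
    fun l hl => (em (l ∈ S)).elim (h4 l) fun k => h2 l fun k' => hl (Finset.mem_sdiff.2 ⟨k', k⟩)
  set D := Fm.ofFam hP.lb hσ
  obtain ⟨j, j1, j2, j3⟩ : ∃ j : ℕ, 0 < j ∧ (∀ x, MulU 4 p D.N (fun _ : Fin 1 => D.dv (j • γ)) x) ∧
      D.Ok p exc (exc \ S) (rl (D.dv (j • γ))) := by
    by_cases h0 : D.dv γ = 0
    · refine ⟨1, one_pos, ?_, by rwa [one_smul]⟩
      rw [one_smul, h0]
      exact mulU_zero
    · obtain ⟨A, a1, a2, a3⟩ := cone hG hS hO hB hX hP.res (b := fun _ : Fin 1 => D.dv γ)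
        (linearIndependent_unique_iff.2 h0) (fgx hF hP.lb hσ hP.res fun _ => g4) fun _ => g5
      have e (i : Fin 1) : cb (fun _ : Fin 1 => D.dv γ) (A i) = D.dv (A 0 0 • γ) := by
        rw [Subsingleton.elim i 0, cb, Fin.sum_univ_one, Fm.dv_smul]
      simp only [e] at a2 a3
      exact ⟨A 0 0, Nat.pos_of_ne_zero fun k => a1.ne 0 (funext fun i => by
        rwa [Subsingleton.elim i 0]), a2, a3 0⟩
  obtain ⟨V', π, χ', exc₁, s, h, E, F, Y, g, ψ, Λ, hA⟩ :=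
    hA V X p exc _ _ hX hP.res χ _ 0 _ hP.kahler j2 fun _ => j3
  have jz : (0 : ℤ) < j := Int.natCast_pos.2 j1
  obtain ⟨Ψ, τ, p1, p2, p3, p4⟩ := hΨ V X p exc _ D hX hP.res (exc \ S) S (j • γ)
    Finset.sdiff_subset (fun l hl => by simpa using mul_pos jz (g1 l hl))
    (fun l hl => by simpa using mul_neg_of_pos_of_neg jz (g2 l hl))
    (fun l hl hl' => by simp [g3 l hl hl']) V' π χ' exc₁ s h E F Y g ψ Λ hA
  have e : (fun w => g (ψ w)) = fun w => p (π w) := funext hA.md.comm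
  obtain ⟨i1, i2⟩ := hI V' X Y g ψ Λ τ (p '' ⋃ l ∈ S, V.G l) (e ▸ hA.steinX) hA.md.stein hA.md.hol
    hA.md.lb hA.md.amp (((isClosed_biUnion_finset fun l _ => Val.U.closed_G V l).isCompact.image
      hP.res.cont).isClosed) p1.sec fun w hw => p4 w (hA.md.comm w ▸ hw)
  exact ⟨V', π, χ', exc₁, s, Y, g, ψ, Λ, hA.up, hA.md.normal, hA.md.comm, hA.md.lb, hA.md.amp,
    hA.md.res, i1, i2, Ψ, τ, p1, p2, fun l hl => p3 l fun k => hl (Finset.mem_sdiff.1 k).1⟩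

end Vale.Agent.P277Z.Ex
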