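import Vale.Agent.P277Z.Ex.Defs
import Vale.Agent.P277Z.Brg.Adj
import Vale.Agent.P277Z.Val.USk2
import Vale.Agent.P277Z.GH.Sk
import Vale.Agent.P277Z.Pj.Sk2

/-!
# P277, block EX: the ample model of a general adjoint class (statements)
-/

open scoped Manifold ContDiff Topology
open Vale.Agent.P272.K Vale.Agent.P285.H281.FD Vale.Agent.P277 Set Filter Asymptotics
open Vale.Agent.P277.HD (pull)
open Vale.Agent.P277Z.Slc (lin)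
open Vale.Agent.P277Z.Brg (SecN RPos fam vec)
open Vale.Agent.P277Z.Val (Lg Res IsStr Blw IsPM disc QCar)
open Vale.Agent.P277Z.Pj (HolTo Stein GPrj ImmTo PIso)
open Vale.Agent.P277Z.GH (Fam)

noncomputable section

namespace Vale.Agent.P277Z.Ex

/-- Line bundles on a model, among them the bundles `N (o l)` of the components. -/
structure Fm (V : Lg) (α : Type) where
  /-- the bundles -/
  N : α → Bd V.W
  /-- the index of the bundle of a component -/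
  o : Fin V.r → α
  /-- the canonical sections -/
  σ : ∀ l, (N (o l)).ι → V.W → ℂ
  lb : ∀ a, IsLB 4 (N a)
  div : ∀ l, Slc.IsDiv 4 (V.G l) (N (o l)) (σ l)

namespace Fm

variable {V V' : Lg} {α β : Type} (D : Fm V α)

open Classical in
/-- the class of `∑ l, θ l • G l` -/
def dv {R : Type} [AddCommMonoid R] (θ : Fin V.r → R) : α → R := ∑ l, Pi.single (D.o l) (θ l)

/-- the class of the effective divisor `∑ l, c l • G l` -/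
def dn (c : Fin V.r → ℕ) : α → ℤ := D.dv fun l => (c l : ℤ)

/-- the canonical section of `∑ l, c l • G l` -/
def mon (c : Fin V.r → ℕ) (u : Ix D.N) (w : V.W) : ℂ := ∏ l, D.σ l (u (D.o l)) w ^ c l

/-- the pulled back family together with a family on the source -/
def up (π : V'.W → V.W) (h : ∀ a, IsLB 4 (pull π (D.N a))) (E : Fm V' β) : Fm V' (α ⊕ β) where
  N := Sum.elim (fun a => pull π (D.N a)) E.N
  o l := .inr (E.o l)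
  σ := E.σ
  lb := Sum.rec h E.lb
  div := E.div

/-- the family `K`, `M e`, `O l` -/
def ofFam {k : ℕ} {M : Fin k → Bd V.W} (hM : ∀ e, IsLB 4 (M e)) {O : Fin V.r → Bd V.W}
    {σ : ∀ l, (O l).ι → V.W → ℂ} (hO : ∀ l, Slc.IsDiv 4 (V.G l) (O l) (σ l)) :
    Fm V (Option (Fin k ⊕ Fin V.r)) where
  N := fam V M O
  o l := some (.inr l)
  σ := σ
  lb := Brg.lb_fam hM fun l => (hO l).lb
  div := hO

variable [Fintype α] {X : Type} (p : V.W → X)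

/-- The components `G l`, `l ∈ R`, are the stable base locus of the class `v`. -/
structure Ok (exc R : Finset (Fin V.r)) (v : α → ℝ) : Prop where
  big : ∃ θ : Fin V.r → ℝ, (∀ l, 0 ≤ θ l) ∧ (∀ l ∉ R, θ l = 0) ∧ RPos 4 p D.N (v - D.dv θ)
  fix : ∃ θ : Fin V.r → ℝ, (∀ l ∈ R, 0 < θ l) ∧ (∀ l ∉ exc, θ l ≤ 0) ∧ RPos 4 p D.N (D.dv θ - v)

/-- `F i` is the fixed part of the class `e i`, and fixed parts are additive. -/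
structure Mov {q : ℕ} (e : Fin q → α → ℤ) (F : Fin q → Fin V.r → ℕ) : Prop where
  free : ∀ i w, Fre 4 p D.N (e i - D.dn (F i)) w
  fix : ∀ a x s, SecN 4 (p ⁻¹' {x}) (lin D.N (cb e a)) s →
    Bo (p ⁻¹' {x}) D.N s (D.mon (∑ i, a i • F i))

end Fm

/-- the class `π^* a` -/
def pb {α : Type} (β : Type) (a : α → ℤ) : α ⊕ β → ℤ := Sum.elim a 0

/-- a statement on all log resolutions of normal spaces, with a family of line bundles -/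
def AllR (P : ∀ (V : Lg) (X : CSp) (_ : V.W → X.pt) (_ : Finset (Fin V.r)) (α : Type) [Fintype α],
    Fm V α → Prop) : Prop :=
  ∀ (V : Lg) (X : CSp) (p : V.W → X.pt) (exc : Finset (Fin V.r)) (α : Type) [Fintype α]
    (D : Fm V α), IsNormal 4 X → Res V X p exc → P V X p exc α D

/-- ROW STX -/
def STX : Prop := ∀ (V : Lg) (X : CSp) (p : V.W → X.pt) (exc : Finset (Fin V.r)), IsNormal 4 X →
  Res V X p exc → Stein 4 X p ∧ GPrj 4 X p ∧ Dense {w | ImmTo 4 X p w}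

/-- ROW AEX: the ample exceptional divisor -/
def AEX : Prop := AllR fun V _ p exc _ _ D => ∃ c : Fin V.r → ℕ, (∀ l, 0 < c l ↔ l ∈ exc) ∧
  RPos 4 p D.N (rl (-D.dn c))

/-- ROW EXCS: the sections of an exceptional divisor -/
def EXCS : Prop := AllR fun V _ p exc _ _ D => ∀ c : Fin V.r → ℕ, (∀ l ∉ exc, c l = 0) →
  ∀ x s, SecN 4 (p ⁻¹' {x}) (lin D.N (D.dn c)) s → Bo (p ⁻¹' {x}) D.N s (D.mon c)

/-- ROW OKZ: the good classes form a cone; integral forms -/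
def OKZ : Prop := AllR fun V _ p exc α _ D => ∀ R : Finset (Fin V.r),
  (∀ (q : ℕ) (b : Fin q → α → ℤ) (a : Fin q → ℕ), (∀ i, D.Ok p exc R (rl (b i))) → a ≠ 0 →
    D.Ok p exc R (rl (cb b a))) ∧
  ∀ a : α → ℤ, D.Ok p exc R (rl a) →
    (∃ (m : ℕ) (θ : Fin V.r → ℕ), 1 ≤ m ∧ (∀ l ∉ R, θ l = 0) ∧
      RPos 4 p D.N (rl (m • a - D.dn θ))) ∧
    ∃ (m : ℕ) (θ θ' : Fin V.r → ℕ), 1 ≤ m ∧ (∀ l ∈ R, 0 < θ l ∧ θ' l = 0) ∧ (∀ l ∉ exc, θ l = 0) ∧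
      RPos 4 p D.N (rl (D.dn θ - D.dn θ' - m • a))

/-- ROW BSL: the base locus -/
def BSL : Prop := AllR fun V _ p exc α _ D => ∀ (R : Finset (Fin V.r)) (a : α → ℤ),
  D.Ok p exc R (rl a) → (∀ x, Big 4 (p ⁻¹' {x}) D.N a) ∧
    ∀ w, w ∈ ⋃ l ∈ R, V.G l ↔ ∀ m : ℕ, 1 ≤ m → ¬ Fre 4 p D.N (m • a) w

/-- `I i` is the base ideal of the class `e i` -/
def IsBs {V : Lg} {X α : Type} [Fintype α] (p : V.W → X) (L : α → Bd V.W) {q : ℕ}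
    (e : Fin q → α → ℤ) (I : Fin q → Fam V.X) : Prop :=
  ∀ i γ, ∀ w ∈ (I i).O γ, ∃ (u : Ix L) (f : Fin q → Fin ((I i).m γ) → Ix L → V.W → ℂ),
    w ∈ Uc L u ∧ Gen 4 (p ⁻¹' {p w}) L e f ∧ ∀ j, (I i).f γ j = f i j u

/-- ROW FAMB: base ideals -/
def FAMB : Prop := ∀ (V : Lg) (X : CSp) (p : V.W → X.pt) (α : Type) [Fintype α] (L : α → Bd V.W)
  (q : ℕ) (e : Fin q → α → ℤ), Continuous p → (∀ a, IsLB 4 (L a)) → (∀ x, MulU 4 p L e x) →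
  ∃ I, IsBs p L e I ∧ ∀ i w, w ∈ (I i).Z ↔ ∀ m : ℕ, 1 ≤ m → ¬ Fre 4 p L (m • e i) w

/-- A modification with centre in the components `G l`, `l ∈ R`. -/
structure Up (V' V : Lg) (π : V'.W → V.W) (χ' : V'.Fm) (exc₁ : Finset (Fin V'.r))
    (s : Fin V.r → Fin V'.r) (R : Finset (Fin V.r)) : Prop where
  blw : Blw V' V π χ' exc₁ (⋃ l ∈ R, V.G l)
  normal : IsNormal 4 V.X
  str : IsStr V' V π s
  new : ∀ k, k ∈ exc₁ ↔ k ∉ range s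
  pre : ∀ y, y ∈ V'.E ↔ π y ∈ V.E
  mem : ∀ y, π y ∈ ⋃ l ∈ R, V.G l ↔ y ∈ ⋃ k ∈ exc₁ ∪ R.image s, V'.G k
  sub : ∀ k, (∀ y ∈ V'.G k, π y ∈ ⋃ l ∈ R, V.G l) ↔ k ∈ exc₁ ∪ R.image s
  lb : ∀ L, IsLB 4 L → IsLB 4 (pull π L)

/-- ROW PRB: principalization -/
def PRB : Prop := ∀ (V : Lg) (χ : V.Fm), IsKahler χ → Nonempty V.W → ∀ (R : Finset (Fin V.r))
  (q : ℕ) (I : Fin (q + 1) → Fam V.X), (∀ j, (I j).Z = ⋃ l ∈ R, V.G l) →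
  ∃ (V' : Lg) (π : V'.W → V.W) (χ' : V'.Fm) (exc₁ : Finset (Fin V'.r)) (s : Fin V.r → Fin V'.r)
    (F : Fin (q + 1) → Fin V'.r → ℕ), Up V' V π χ' exc₁ s R ∧ ∀ j, (I j).Mono V' π (F j)

/-- a statement on pulled back families -/
def AllU (P : ∀ (V' V : Lg) (π : V'.W → V.W) (α β : Type) [Fintype α] [Fintype β] (D : Fm V α)
    (_ : ∀ a, IsLB 4 (pull π (D.N a))), Fm V' β → Prop) : Prop :=
  ∀ (V' V : Lg) (π : V'.W → V.W) (α β : Type) [Fintype α] [Fintype β] (D : Fm V α)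
    (h : ∀ a, IsLB 4 (pull π (D.N a))) (E : Fm V' β), Stein 4 V.X π → P V' V π α β D h E

/-- ROW DSC: sections descend -/
def DSC : Prop := AllU fun _ V π α β _ _ D h E => ∀ (F : Set V.W) (a : α → ℤ),
  (∀ s, SecN 4 F (lin D.N a) s → SecN 4 (π ⁻¹' F) (lin (D.up π h E).N (pb β a))
    fun u y => s (fun i => u (.inl i)) (π y)) ∧
  ∀ s, SecN 4 (π ⁻¹' F) (lin (D.up π h E).N (pb β a)) s → ∃ s₀, SecN 4 F (lin D.N a) s₀ ∧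
    ∀ᶠ y in 𝓝ˢ (π ⁻¹' F), ∀ u, y ∈ Uc (D.up π h E).N u → s u y = s₀ (fun i => u (.inl i)) (π y)

/-- ROW MOV: the moving parts -/
def MOV : Prop := AllU fun V' V π α β _ _ D h E => ∀ (X : CSp) (p : V.W → X.pt) (q : ℕ)
  (e : Fin q → α → ℤ) (I : Fin q → Fam V.X) (F : Fin q → Fin V'.r → ℕ), IsBs p D.N e I →
  (∀ i, (I i).Mono V' π (F i)) →
  (D.up π h E).Mov (fun w => p (π w)) (fun i => pb β (e i)) F ∧
    ∀ i k, F i k ≠ 0 ↔ ∀ y ∈ V'.G k, π y ∈ (I i).Z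

/-- ROW CONTR: the fixed components are rigid -/
def CONTR : Prop := ∀ (V : Lg) (X α : Type) [Fintype α] (D : Fm V α) (p : V.W → X) (q : ℕ)
  (e : Fin q → α → ℤ) (F : Fin q → Fin V.r → ℕ), D.Mov p e F → ∀ l, (∃ i, F i l ≠ 0) →
  ∀ w ∈ V.G l, ∀ k : ℕ, ¬ Fre 4 p D.N (D.dn (Pi.single l 1) + k • ∑ i, (e i - D.dn (F i))) w

/-- ROW EMB: the moving part is ample up to the contracted components -/
def EMB : Prop := AllU fun V' V π α β _ _ D h E => ∀ χ' exc₁ s R (X : CSp) (p : V.W → X.pt) (q : ℕ)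
  (e : Fin q → α → ℤ) (F : Fin q → Fin V'.r → ℕ) (m : ℕ) (θ : Fin V.r → ℕ),
  Up V' V π χ' exc₁ s R → HolTo 4 X p →
  (D.up π h E).Mov (fun w => p (π w)) (fun i => pb β (e i)) F → (∀ l ∉ R, θ l = 0) →
  RPos 4 p D.N (rl (m • ∑ i, e i - D.dn θ)) →
  ∃ (k : ℕ) (g : α ⊕ β → ℤ) (τ : Ix (D.up π h E).N → V'.W → ℂ),
    IsSec 4 (lin (D.up π h E).N g) τ ∧
    (∀ w ∉ ⋃ l ∈ exc₁ ∪ R.image s, V'.G l, NZ (lin (D.up π h E).N g) τ w) ∧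
    RelAmple V'.X X (fun w => p (π w))
      (lin (D.up π h E).N (k • ∑ i, (pb β (e i) - (D.up π h E).dn (F i)) - g))

/-- The ample model of the classes `M i`; it contracts the components in `T`. -/
structure Md (V : Lg) {X : CSp} (p : V.W → X.pt) {β : Type} [Fintype β] (N : β → Bd V.W) {q : ℕ}
    (M : Fin q → β → ℤ) (T : Finset (Fin V.r)) (Y : CSp) (g : Y.pt → X.pt) (ψ : V.W → Y.pt)
    (Λ : Bd Y.pt) : Prop where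
  normal : IsNormal 4 Y
  hol : ∀ y, HolMap Y X g y
  comm : ∀ w, g (ψ w) = p w
  stein : Stein 4 Y ψ
  lb : IsLBx Y Λ
  amp : RelAmple Y X g Λ
  res : Res V Y ψ T
  iso : ∃ u, PIso 4 ψ Λ (lin N (∑ i, M i)) u
  desc : ∀ z : Fin q → ℤ, ∃ (L : Bd Y.pt) (u : _), IsLBx Y L ∧ PIso 4 ψ L (lin N (∑ i, z i • M i)) u

/-- ROW MODL: the model exists -/
def MODL : Prop := ∀ (V : Lg) (X : CSp) (p : V.W → X.pt) (β : Type) [Fintype β] (N : β → Bd V.W)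
  (q : ℕ) (M : Fin q → β → ℤ) (T : Finset (Fin V.r)), Nonempty V.W → HolTo 4 X p →
  Dense {w | ImmTo 4 X p w} → (∀ b, IsLB 4 (N b)) → (∀ i w, Fre 4 p N (M i) w) →
  (∀ l ∈ T, ∀ w ∈ V.G l, ∃ g : β → ℤ, ∀ k : ℕ, ¬ Fre 4 p N (g + k • ∑ i, M i) w) →
  (∃ (k : ℕ) (g : β → ℤ) (τ : Ix N → V.W → ℂ), IsSec 4 (lin N g) τ ∧
    (∀ w ∉ ⋃ l ∈ T, V.G l, NZ (lin N g) τ w) ∧ RelAmple V.X X p (lin N (k • ∑ i, M i - g))) →
  ∃ Y g ψ Λ, Md V p N M T Y g ψ Λ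

/-- The ample model `Y` of the classes `e i` over `X`; it contracts the `G l`, `l ∈ R`. -/
structure Am {V : Lg} {α : Type} [Fintype α] (D : Fm V α) {X : CSp} (p : V.W → X.pt)
    (R : Finset (Fin V.r)) {q : ℕ} (e : Fin q → α → ℤ) (V' : Lg) (π : V'.W → V.W) (χ' : V'.Fm)
    (exc₁ : Finset (Fin V'.r)) (s : Fin V.r → Fin V'.r) (h : ∀ a, IsLB 4 (pull π (D.N a)))
    (E : Fm V' (Fin V'.r)) (F : Fin q → Fin V'.r → ℕ) (Y : CSp) (g : Y.pt → X.pt)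
    (ψ : V'.W → Y.pt) (Λ : Bd Y.pt) : Prop where
  up : Up V' V π χ' exc₁ s R
  stein : Stein 4 V.X π
  steinX : Stein 4 X fun w => p (π w)
  mov : (D.up π h E).Mov (fun w => p (π w)) (fun i => pb _ (e i)) F
  supp : ∀ i k, F i k ≠ 0 ↔ k ∈ exc₁ ∪ R.image s
  md : Md V' (fun w => p (π w)) (D.up π h E).N (fun i => pb _ (e i) - (D.up π h E).dn (F i))
    (exc₁ ∪ R.image s) Y g ψ Λ

/-- **EXA**: the ample model exists -/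
def EXA : Prop := AllR fun V _ p exc α _ D => ∀ (χ : V.Fm) (R : Finset (Fin V.r)) (q : ℕ)
  (e : Fin (q + 1) → α → ℤ), IsKahler χ → (∀ x, MulU 4 p D.N e x) →
  (∀ i, D.Ok p exc R (rl (e i))) →
  ∃ V' π χ' exc₁ s h E F Y g ψ Λ, Am D p R e V' π χ' exc₁ s h E F Y g ψ Λ

/-! ### adjoint classes -/

/-- `a = d (K + A + B)` with `A` relatively positive and `0 ≤ B ≤ 1` -/
def Adj {V : Lg} {X : Type} (p : V.W → X) {k : ℕ} (M : Fin k → Bd V.W) (O : Fin V.r → Bd V.W)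
    (a : Option (Fin k ⊕ Fin V.r) → ℤ) : Prop :=
  ∃ (d : ℝ) (B : Fin V.r → ℝ), 0 < d ∧ (∀ l, 0 ≤ B l ∧ B l ≤ 1) ∧
    RPos 4 p (fam V M O) ((fun i => d⁻¹ * a i) - vec 1 0 B)

/-- ROW CONE: good adjoint classes -/
def CONE : Prop :=
  ∀ (k : ℕ) (ρ : Fin k → ℝ) (m : Fin k → ℕ) (V : Lg) (χ : V.Fm) (M : Fin k → Bd V.W) (X : CSp)
    (L : Fin k → Bd X.pt) (c : Fin k → ℕ) (p : V.W → X.pt) exc n (O : Fin V.r → Bd V.W)
    (σ : ∀ l, (O l).ι → V.W → ℂ) (hM : ∀ e, IsLB 4 (M e))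
    (hO : ∀ l, Slc.IsDiv 4 (V.G l) (O l) (σ l)) (R S : Finset (Fin V.r)), (∀ e, 0 ≤ ρ e) →
    ∑ e, ρ e * m e = 1 → (∀ e, IsLBx X (L e)) →
    (∀ e, 1 ≤ c e) → IsPM m V χ M X L c p exc n → R ⊆ exc → (∀ l ∈ exc, l ∈ R ∨ l ∈ S) →
    Disjoint R S → (∀ l, -1 ≤ disc ρ c n l) → (∀ l ∈ R, -1 < disc ρ c n l) →
    (∀ l ∉ R, disc ρ c n l ≤ 0) →
    (∃ (q : ℕ) (b : Fin (q + 1) → Option (Fin k ⊕ Fin V.r) → ℤ), LinearIndependent ℤ b ∧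
      (∀ i, Adj p M O (b i)) ∧ (∀ i, (Fm.ofFam hM hO).Ok p exc R (rl (b i))) ∧
      ∀ v : Option (Fin k ⊕ Fin V.r) → ℤ, ∃ (j : ℕ) (z : Fin (q + 1) → ℤ), 1 ≤ j ∧
        j • v = ∑ i, z i • b i) ∧
    ∃ γ : Fin V.r → ℤ, (∀ l ∈ R, 0 < γ l) ∧ (∀ l ∈ S, γ l < 0) ∧ (∀ l ∉ R, l ∉ S → γ l = 0) ∧
      Adj p M O ((Fm.ofFam hM hO).dv γ) ∧
      (Fm.ofFam hM hO).Ok p exc R (rl ((Fm.ofFam hM hO).dv γ))

/-- ROW QC: the push forwards of the canonical divisor and of the components are `ℚ`-Cartier -/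
def QC : Prop := ∀ (V' V : Lg) (π : V'.W → V.W) (s : Fin V.r → Fin V'.r) (k : ℕ)
  (M : Fin k → Bd V.W) (O : Fin V.r → Bd V.W) (σ : ∀ l, (O l).ι → V.W → ℂ)
  (hM : ∀ e, IsLB 4 (M e)) (hO : ∀ l, Slc.IsDiv 4 (V.G l) (O l) (σ l)) (β : Type) [Fintype β]
  (E : Fm V' β) (h : ∀ a, IsLB 4 (pull π ((Fm.ofFam hM hO).N a))) (Y : CSp) (ψ : V'.W → Y.pt)
  (T : Finset (Fin V'.r)) (m₀ j : ℕ) (b Φ : Fin V'.r → ℤ) (L : Bd Y.pt) u, Val.Hom V' V π →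
  IsStr V' V π s → Continuous ψ → (∀ k, k ∉ range s → k ∈ T) → 1 ≤ j → (∀ k ∉ T, Φ k = 0) →
  IsLBx Y L → PIso 4 ψ L (lin ((Fm.ofFam hM hO).up π h E).N
    (pb β (j • vec (m₀ : ℤ) 0 fun l => b (s l)) - ((Fm.ofFam hM hO).up π h E).dv Φ)) u →
  QCar V' Y ψ T m₀ b

/-! ### the extraction with a prescribed centre -/

/-- ROW PSI: the model of a class supported on `R` and `S` -/
def PSI : Prop := AllR fun V _ p exc _ _ D => ∀ (R S : Finset (Fin V.r)) (γ : Fin V.r → ℤ),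
  R ⊆ exc → (∀ l ∈ R, 0 < γ l) → (∀ l ∈ S, γ l < 0) → (∀ l ∉ R, l ∉ S → γ l = 0) →
  ∀ V' π χ' exc₁ s h E F Y g ψ Λ,
    Am D p R (fun _ : Fin 1 => D.dv γ) V' π χ' exc₁ s h E F Y g ψ Λ →
    ∃ (Ψ : Fin V'.r → ℕ) (τ : (Bd.inv (pull ψ Λ)).ι → V'.W → ℂ),
      Val.IsDiv V' (Bd.inv (pull ψ Λ)) τ Ψ ∧ (∀ l ∈ S, 0 < Ψ (s l)) ∧
      (∀ l ∉ R, l ∉ S → Ψ (s l) = 0) ∧
      ∀ y, p (π y) ∉ p '' ⋃ l ∈ S, V.G l → NZ (Bd.inv (pull ψ Λ)) τ y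

/-- ROW ISO: where the ample bundle is trivial the model is the base -/
def ISO : Prop := ∀ (V : Lg) (X Y : CSp) (g : Y.pt → X.pt) (ψ : V.W → Y.pt) (Λ : Bd Y.pt)
  (τ : (Bd.inv (pull ψ Λ)).ι → V.W → ℂ) (N : Set X.pt), Stein 4 X (fun w => g (ψ w)) →
  Stein 4 Y ψ → (∀ y, HolMap Y X g y) → IsLBx Y Λ → RelAmple Y X g Λ → IsClosed N →
  IsSec 4 (Bd.inv (pull ψ Λ)) τ → (∀ w, g (ψ w) ∉ N → NZ (Bd.inv (pull ψ Λ)) τ w) →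
  Glc.IsoOff Y X g N ∧ Glc.TrivOn Y (g ⁻¹' Nᶜ) Λ

/-- **EXS**: extraction of the components `G l`, `l ∈ S` -/
def EXS : Prop :=
  ∀ (k : ℕ) (ρ : Fin k → ℝ) (m : Fin k → ℕ) (V : Lg) (χ : V.Fm) (M : Fin k → Bd V.W) (X : CSp)
    (L : Fin k → Bd X.pt) (c : Fin k → ℕ) (p : V.W → X.pt) exc n (S : Finset (Fin V.r)),
    (∀ e, 0 ≤ ρ e) → ∑ e, ρ e * m e = 1 → IsNormal 4 X → (∀ e, IsLBx X (L e)) → (∀ e, 1 ≤ c e) →
    IsPM m V χ M X L c p exc n → (∀ l, -1 ≤ disc ρ c n l) → (∀ l ∉ exc, disc ρ c n l ≤ 0) →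
    (∀ l ∈ exc, l ∉ S → -1 < disc ρ c n l) → (∀ l ∈ S, disc ρ c n l ≤ 0) →
    ∃ (V' : Lg) (π : V'.W → V.W) (χ' : V'.Fm) (exc₁ : Finset (Fin V'.r))
      (s : Fin V.r → Fin V'.r) (Y : CSp) (g : Y.pt → X.pt) (ψ : V'.W → Y.pt) (Λ : Bd Y.pt),
      Up V' V π χ' exc₁ s (exc \ S) ∧ IsNormal 4 Y ∧ (∀ y, g (ψ y) = p (π y)) ∧ IsLBx Y Λ ∧
      RelAmple Y X g Λ ∧ Res V' Y ψ (exc₁ ∪ (exc \ S).image s) ∧
      Glc.IsoOff Y X g (p '' ⋃ l ∈ S, V.G l) ∧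
      Glc.TrivOn Y (g ⁻¹' (p '' ⋃ l ∈ S, V.G l)ᶜ) Λ ∧
      ∃ (Ψ : Fin V'.r → ℕ) (τ : (Bd.inv (pull ψ Λ)).ι → V'.W → ℂ),
        Val.IsDiv V' (Bd.inv (pull ψ Λ)) τ Ψ ∧ (∀ l ∈ S, 0 < Ψ (s l)) ∧
          ∀ l ∉ exc, l ∉ S → Ψ (s l) = 0

end Vale.Agent.P277Z.Ex
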